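import Vale.Agent.P354MS.Zero
import Vale.Agent.P354BF.Hyp

/-! Mode stability of the radial Teukolsky equation, spins `2` and `-2`, `|a| < M`, on the closed
upper half plane. -/

namespace P354MS
open Complex Set Filter Topology Asymptotics ComplexConjugate MeasureTheory Vale.Agent.P354BF

theorem lim_of_bd {f f' : ℝ → ℂ} {x0 R : ℝ} (hR : x0 < R)
    (hd : ∀ x ∈ Ioc x0 R, HasDerivAt f (f' x) x) (hc : ContinuousOn f' (Ioc x0 R))
    (hb : ∀ η > 0, ∃ δ > 0, ∀ x y, x0 < x → x ≤ y → y ≤ R → y < x0 + δ →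
      ∫ r in x..y, ‖f' r‖ ≤ η) : ∃ a, Tendsto f (𝓝[>] x0) (𝓝 a) := by
  refine cauchy_map_iff_exists_tendsto.1 (Metric.cauchy_iff.2 ⟨inferInstance, fun ε hε => ?_⟩)
  obtain ⟨δ, hδ, h⟩ := hb (ε / 2) (by positivity)
  have key : ∀ x y, x0 < x → x ≤ y → y ≤ R → y < x0 + δ → dist (f x) (f y) < ε := by
    intro x y h1 h2 h3 h4
    have sub : ∀ t ∈ uIcc x y, t ∈ Ioc x0 R := fun t ht => by
      rw [uIcc_of_le h2] at ht; exact ⟨h1.trans_le ht.1, ht.2.trans h3⟩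
    rw [dist_comm, dist_eq_norm, ← intervalIntegral.integral_eq_sub_of_hasDerivAt
      (fun t ht => hd t (sub t ht)) (hc.mono sub).intervalIntegrable]
    linarith [intervalIntegral.norm_integral_le_integral_norm (f := f') (μ := volume) h2,
      h x y h1 h2 h3 h4]
  refine ⟨f '' Ioo x0 (min R (x0 + δ)), image_mem_map (Ioo_mem_nhdsGT (lt_min hR (by linarith))),
    ?_⟩
  rintro _ ⟨x, hx, rfl⟩ _ ⟨y, hy, rfl⟩
  rcases le_total x y with p | p
  · exact key x y hx.1 p (hy.2.le.trans (min_le_left _ _)) (hy.2.trans_le (min_le_right _ _))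
  · rw [dist_comm]
    exact key y x hy.1 p (hx.2.le.trans (min_le_left _ _)) (hx.2.trans_le (min_le_right _ _))

theorem lim_of_L2 {f f' : ℝ → ℂ} {x0 R C : ℝ} (hR : x0 < R)
    (hd : ∀ x ∈ Ioc x0 R, HasDerivAt f (f' x) x) (hc : ContinuousOn f' (Ioc x0 R))
    (hb : ∀ x ∈ Ioo x0 R, ∫ r in x..R, ‖f' r‖ ^ 2 ≤ C) : ∃ a, Tendsto f (𝓝[>] x0) (𝓝 a) := by
  refine lim_of_bd hR hd hc fun η hη => ?_
  set k := η / (2 * (|C| + 1)) with hk
  have k0 : 0 < k := by positivity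
  refine ⟨min (R - x0) (k * η / 2), lt_min (by linarith) (by positivity), fun x y h1 h2 h3 h4 => ?_⟩
  have y1 : y < R := by linarith [min_le_left (R - x0) (k * η / 2)]
  have y2 : y - x ≤ k * η / 2 := by linarith [min_le_right (R - x0) (k * η / 2)]
  have cn : ∀ u v, x ≤ u → u ≤ v → v ≤ R → ContinuousOn (fun r => ‖f' r‖) (uIcc u v) :=
    fun u v p1 p2 p3 => (hc.mono fun t ht => by
      rw [uIcc_of_le p2] at ht; exact ⟨h1.trans_le (p1.trans ht.1), ht.2.trans p3⟩).norm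
  have i1 := (cn x y le_rfl h2 h3).intervalIntegrable (μ := volume)
  have i2 : IntervalIntegrable (fun r => ‖f' r‖ ^ 2) volume x y :=
    ((cn x y le_rfl h2 h3).pow 2).intervalIntegrable
  have i3 : IntervalIntegrable (fun r => ‖f' r‖ ^ 2) volume y R :=
    ((cn y R h2 h3 le_rfl).pow 2).intervalIntegrable
  have b1 : ∫ r in x..y, ‖f' r‖ ^ 2 ≤ C := by
    have := intervalIntegral.integral_add_adjacent_intervals i2 i3
    have p : 0 ≤ ∫ r in y..R, ‖f' r‖ ^ 2 :=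
      intervalIntegral.integral_nonneg h3 fun _ _ => sq_nonneg _
    linarith [hb x ⟨h1, h2.trans_lt y1⟩]
  have b2 := intervalIntegral.integral_mono_on h2 i1 ((i2.const_mul k).add
    (intervalIntegrable_const (c := k⁻¹))) fun r _ => by
      have e : k * ‖f' r‖ ^ 2 + k⁻¹ - ‖f' r‖ = k⁻¹ * ((k * ‖f' r‖ - 1 / 2) ^ 2 + 3 / 4) := by
        field_simp; ring
      have : 0 ≤ k⁻¹ * ((k * ‖f' r‖ - 1 / 2) ^ 2 + 3 / 4) := by positivity
      linarith
  rw [intervalIntegral.integral_add (i2.const_mul k) intervalIntegrable_const,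
    intervalIntegral.integral_const_mul, intervalIntegral.integral_const, smul_eq_mul] at b2
  have b3 : (y - x) * k⁻¹ ≤ η / 2 := by
    rw [← div_eq_mul_inv, div_le_iff₀ k0]; linarith
  have b4 : k * (|C| + 1) = η / 2 := by rw [hk]; field_simp
  nlinarith [mul_le_mul_of_nonneg_left (b1.trans (le_abs_self C)) k0.le]

theorem lim_of_lim {f f' : ℝ → ℂ} {x0 : ℝ} {a : ℂ} (hd : ∀ x, x0 < x → HasDerivAt f (f' x) x)
    (hc : ∀ x, x0 < x → ContinuousAt f' x) (t : Tendsto f' (𝓝[>] x0) (𝓝 a)) :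
    ∃ b, Tendsto f (𝓝[>] x0) (𝓝 b) := by
  obtain ⟨v, hv, h1⟩ := (mem_nhdsGT_iff_exists_Ioo_subset).1
    (t.norm.eventually (gt_mem_nhds (lt_add_one ‖a‖)))
  refine lim_of_bd (lt_add_one x0) (fun x hx => hd x hx.1)
    (fun x hx => (hc x hx.1).continuousWithinAt) fun η hη => ?_
  have p : 0 < ‖a‖ + 1 := by positivity
  refine ⟨min (v - x0) (η / (‖a‖ + 1)), lt_min (sub_pos.2 hv) (by positivity),
    fun x y h2 h3 _ h5 => ?_⟩
  have y1 : y < v := by linarith [min_le_left (v - x0) (η / (‖a‖ + 1))]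
  have y2 : y - x ≤ η / (‖a‖ + 1) := by linarith [min_le_right (v - x0) (η / (‖a‖ + 1))]
  have := intervalIntegral.norm_integral_le_of_norm_le_const (a := x) (b := y) (C := ‖a‖ + 1)
    (f := fun r => ‖f' r‖) fun r hr => by
      rw [uIoc_of_le h3] at hr
      rw [norm_norm]
      exact le_of_lt (h1 ⟨h2.trans hr.1, hr.2.trans_lt y1⟩)
  rw [abs_of_nonneg (sub_nonneg.2 h3)] at this
  rw [le_div_iff₀ p] at y2
  linarith [Real.le_norm_self (∫ r in x..y, ‖f' r‖)]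

/-- A nonnegative function with finite `dr / r` integral is frequently small. -/
theorem freq_of_int {N : ℝ → ℝ} {R C : ℝ} (hR : 0 < R) (hc : ContinuousOn N (Ici R))
    (hb : ∀ y, R < y → ∫ r in R..y, N r / r ≤ C) (h0 : ∀ r, R ≤ r → 0 ≤ N r) (δ : ℝ)
    (hδ : 0 < δ) : ∃ᶠ r in atTop, N r ≤ δ := by
  by_contra hn
  rw [not_frequently] at hn
  obtain ⟨X, hX⟩ := eventually_atTop.1 (hn.and (eventually_gt_atTop R))
  have XR : R < X := (hX X le_rfl).2
  have X0 : 0 < X := hR.trans XR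
  set y := X * Real.exp ((|C| + 1) / δ) with hy
  have Xy : X ≤ y := le_mul_of_one_le_right X0.le (Real.one_le_exp (by positivity))
  have ci : ∀ u v, R ≤ u → u ≤ v → IntervalIntegrable (fun r => N r / r) volume u v :=
    fun u v p1 p2 => ContinuousOn.intervalIntegrable (by
      rw [uIcc_of_le p2]
      exact (hc.mono fun t ht => p1.trans ht.1).div continuousOn_id fun t ht =>
        (hR.trans_le (p1.trans ht.1)).ne')
  have e := intervalIntegral.integral_add_adjacent_intervals (ci R X le_rfl XR.le)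
    (ci X y XR.le Xy)
  have p1 : 0 ≤ ∫ r in R..X, N r / r := intervalIntegral.integral_nonneg XR.le fun r hr =>
    div_nonneg (h0 r hr.1) (hR.le.trans hr.1)
  have z : (0 : ℝ) ∉ uIcc X y := by
    rw [uIcc_of_le Xy]; exact fun h => absurd h.1 (not_le.2 X0)
  have p2 := intervalIntegral.integral_mono_on Xy
    ((intervalIntegral.intervalIntegrable_inv (f := fun r => r) (μ := volume)
      (fun r hr e => z (e ▸ hr)) continuousOn_id).const_mul δ) (ci X y XR.le Xy) fun r hr => by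
      rw [← div_eq_mul_inv]
      exact div_le_div_of_nonneg_right (not_le.1 (hX r hr.1).1).le (X0.le.trans hr.1)
  rw [intervalIntegral.integral_const_mul, integral_inv z, hy, mul_div_cancel_left₀ _ X0.ne',
    Real.log_exp, mul_div_cancel₀ _ hδ.ne', ← hy] at p2
  linarith [hb y (XR.trans_le Xy), le_abs_self C]

section
variable {s M a m R2 C : ℝ} {om lam : ℂ} {g : ℕ → ℝ → ℂ}

theorem sq_d (ha : a ^ 2 < M ^ 2) :
    0 < √(M ^ 2 - a ^ 2) ∧ a ^ 2 = M ^ 2 - √(M ^ 2 - a ^ 2) ^ 2 :=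
  ⟨Real.sqrt_pos.2 (sub_pos.2 ha), by rw [Real.sq_sqrt (sub_pos.2 ha).le]; ring⟩

theorem ode_Pq (h : Ode s M a om m lam g) (r : ℝ) (hr : rp M a < r) :
    HasDerivAt (g 0) (g 1 r) r ∧ HasDerivAt (g 1) (g 2 r) r ∧
      Pq s M a om m lam r (g 0 r) (g 1 r) (g 2 r) = 0 :=
  ⟨(h r hr).1 0 (by norm_num), (h r hr).1 1 (by norm_num), by
    unfold Pq; linear_combination (h r hr).2⟩

theorem ode_cont (ha : a ^ 2 < M ^ 2) (h : Ode s M a om m lam g) (r : ℝ) (hr : rp M a < r) :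
    ContinuousAt (g 3) r := by
  have D0 : ∀ r, rp M a < r → (De M a r : ℂ) ≠ 0 := fun r hr => by
    exact_mod_cast (De_pos (sq_d ha).1 (sq_d ha).2 hr).ne'
  set B : ℝ → ℂ := fun r => (1 - s) * (2 * r - 2 * M) - 2 * I * (om * (r ^ 2 + a ^ 2) - a * m)
    with hB
  set E : ℝ → ℂ := fun r => 2 * I * om * r * (1 - 2 * s) - (s ^ 2 - s) + lam with hE
  have e : ∀ x, rp M a < x → g 3 x = -((2 * x - 2 * M + B x) * g 2 x +
      ((1 - s) * 2 - 2 * I * (om * (2 * x)) - E x) * g 1 x - 2 * I * om * (1 - 2 * s) * g 0 x) /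
      De M a x := by
    intro x hx
    have dx := hd_ofReal x
    have dB : HasDerivAt B ((1 - s) * 2 - 2 * I * (om * (2 * x))) x :=
      ((((dx.const_mul 2).sub_const _).const_mul _).sub (((((dx.pow 2).add_const _).const_mul
        om).sub_const _).const_mul (2 * I))).congr_deriv (by push_cast; ring)
    have dE : HasDerivAt E (2 * I * om * (1 - 2 * s)) x :=
      ((((dx.const_mul (2 * I * om)).mul_const _).sub_const _).add_const _).congr_deriv (by ring)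
    have d := (((hd_Dec M a x).mul ((h x hx).1 2 (by norm_num))).add
      (dB.mul ((h x hx).1 1 (by norm_num)))).sub (dE.mul ((h x hx).1 0 (by norm_num)))
    have d' : HasDerivAt (fun _ : ℝ => (0 : ℂ)) _ x := d.congr_of_eventuallyEq (by
      filter_upwards [Ioi_mem_nhds hx] with t ht
      have := (h t ht).2
      unfold Kf at this
      simp only [hB, hE, Pi.add_apply, Pi.sub_apply, Pi.mul_apply]
      push_cast at this
      exact this.symm)
    have u := d'.unique (hasDerivAt_const x 0)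
    rw [eq_div_iff (D0 x hx)]
    simp only [Nat.reduceAdd, zero_add] at u
    linear_combination u
  have c0 := ((h r hr).1 0 (by norm_num)).continuousAt
  have c1 := ((h r hr).1 1 (by norm_num)).continuousAt
  have c2 := ((h r hr).1 2 (by norm_num)).continuousAt
  refine ContinuousAt.congr (ContinuousAt.div ?_ (hd_Dec M a r).continuousAt (D0 r hr)) (by
    filter_upwards [Ioi_mem_nhds hr] with x hx using (e x hx).symm)
  simp only [hB, hE]
  fun_prop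

theorem ode_lim (ha : a ^ 2 < M ^ 2) (h : Ode s M a om m lam g) (hR : rp M a < R2)
    (hb : ∀ x ∈ Ioo (rp M a) R2, ∫ r in x..R2, ‖g 3 r‖ ^ 2 ≤ C) :
    ∃ a0 a1 a2, Tendsto (g 0) (𝓝[>] (rp M a)) (𝓝 a0) ∧ Tendsto (g 1) (𝓝[>] (rp M a)) (𝓝 a1) ∧
      Tendsto (g 2) (𝓝[>] (rp M a)) (𝓝 a2) := by
  obtain ⟨a2, t2⟩ := lim_of_L2 hR (fun x hx => (h x hx.1).1 2 (by norm_num))
    (fun x hx => (ode_cont ha h x hx.1).continuousWithinAt) hb
  obtain ⟨a1, t1⟩ := lim_of_lim (fun x hx => (h x hx).1 1 (by norm_num))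
    (fun x hx => ((h x hx).1 2 (by norm_num)).continuousAt) t2
  obtain ⟨a0, t0⟩ := lim_of_lim (fun x hx => (h x hx).1 0 (by norm_num))
    (fun x hx => ((h x hx).1 1 (by norm_num)).continuousAt) t1
  exact ⟨a0, a1, a2, t0, t1, t2⟩

/-- The sign conditions on the angular eigenvalue. -/
def Sgn (a : ℝ) (om lam : ℂ) : Prop :=
  (conj om * (lam - 4)).im ≤ a ^ 2 * normSq om * om.im ∧ (om = 0 → ∃ L : ℝ, 6 ≤ L ∧ lam = L)

theorem sgn_of_rng {S : Type} [NormedAddCommGroup S] [InnerProductSpace ℂ S] {A : Ang S} {k : ℝ}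
    (hs : |A.s| = 2) (h0 : 0 ≤ om.im) (h : A.Rng k a om m lam) : Sgn a om lam := by
  obtain ⟨c, t, u, hc, ht, -, rfl⟩ := h
  rw [← sq_abs, hs] at hc
  refine ⟨?_, fun e => ⟨c, by linarith, by simp [e]⟩⟩
  have : conj om * (c + a ^ 2 * om ^ 2 * t - 2 * a * om * m + 2 * k * a * om * u - 4) =
      ((c - 4 : ℝ) : ℂ) * conj om + ((a ^ 2 * normSq om * t : ℝ) : ℂ) * om +
        ((normSq om * (2 * k * a * u - 2 * a * m) : ℝ) : ℂ) := by
    push_cast; rw [← Complex.mul_conj]; ring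
  rw [this]
  simp only [Complex.add_im, Complex.im_ofReal_mul, Complex.ofReal_im, Complex.conj_im]
  have p : 0 ≤ a ^ 2 * normSq om * om.im := mul_nonneg (mul_nonneg (sq_nonneg a)
    (normSq_nonneg om)) h0
  nlinarith [mul_nonneg (show 0 ≤ c - 4 by linarith) h0, mul_nonneg p (sub_nonneg.2 ht.2)]

theorem small {N : ℝ → ℝ} {F : Filter ℝ} (hF : F ≤ atTop) (t : Tendsto N F (𝓝 0)) {f : ℝ → ℂ}
    (h : ∀ r, 1 ≤ r → ‖f r‖ ≤ N r) : Tendsto f F (𝓝 0) :=
  squeeze_zero_norm' (((eventually_ge_atTop 1).filter_mono hF).mono h) t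

/-- Mode stability for spin `2`. -/
theorem e8_plus (hM : 0 < M) (ha : a ^ 2 < M ^ 2) (h0 : 0 ≤ om.im) (hl : Sgn a om lam)
    (h : Ode 2 M a om m lam g) (hR : rp M a < R2)
    (hb : ∀ x ∈ Ioo (rp M a) R2, ∫ r in x..R2, ‖g 3 r‖ ^ 2 ≤ C)
    (hi : ∀ δ > 0, ∃ᶠ r in atTop, (‖g 0 r‖ ^ 2 + ‖g 1 r‖ ^ 2) / r ^ 6 ≤ δ) :
    ∀ r, rp M a < r → g 0 r = 0 := by
  obtain ⟨a0, a1, a2, t0, t1, t2⟩ := ode_lim ha h hR hb
  obtain ⟨F, hF, hF', t⟩ := exists_filter (Eventually.of_forall fun r => by positivity) hi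
  have ts := (Real.continuous_sqrt.tendsto 0).comp t
  rw [Real.sqrt_zero] at ts
  have nd : ∀ (x : ℂ) (r : ℝ), 1 ≤ r → ‖x / (r : ℂ) ^ 3‖ ^ 2 = ‖x‖ ^ 2 / r ^ 6 := fun x r hr => by
    rw [norm_div, norm_pow, Complex.norm_real, Real.norm_of_nonneg (by linarith), div_pow,
      ← pow_mul]
  have i0 : Tendsto (fun r => g 0 r / (r : ℂ) ^ 3) F (𝓝 0) := small hF' ts fun r hr =>
    Real.le_sqrt_of_sq_le (by
      rw [nd _ r hr]
      exact div_le_div_of_nonneg_right (le_add_of_nonneg_right (sq_nonneg _)) (by positivity))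
  have i1 : Tendsto (fun r => g 1 r / (r : ℂ) ^ 3) F (𝓝 0) := small hF' ts fun r hr =>
    Real.le_sqrt_of_sq_le (by
      rw [nd _ r hr]
      exact div_le_div_of_nonneg_right (le_add_of_nonneg_left (sq_nonneg _)) (by positivity))
  by_cases e : om = 0
  · obtain ⟨L, hL, rfl⟩ := hl.2 e
    subst e
    refine zplus hM (sq_d ha).1 (sq_d ha).2 hL (ode_Pq h) t0 t1 t2 hF' ?_ i1
    refine ((bdinv (G := fun x : ℝ => (x : ℂ)) (by fun_prop) hF').zero i0).congr fun r => ?_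
    push_cast
    rw [pow_succ _ 3, ← div_div, div_eq_mul_inv _ (r : ℂ)]
  · exact rplus hM (sq_d ha).1 (sq_d ha).2 h0 e hl.1 (ode_Pq h) t0 t1 t2 hF' i0 i1

/-- Mode stability for spin `-2`. -/
theorem e8_minus (hM : 0 < M) (ha : a ^ 2 < M ^ 2) (h0 : 0 ≤ om.im) (hl : Sgn a om lam)
    (h : Ode (-2) M a om m lam g) (hR : rp M a < R2)
    (hb : ∀ x ∈ Ioo (rp M a) R2, ∫ r in x..R2, ‖g 3 r‖ ^ 2 ≤ C) {c0 c1 c2 c3 : ℝ → ℂ}
    (hc : ∀ r, rp M a < r → c0 r = (De M a r : ℂ) ^ 2 * g 0 r / r ^ 3 ∧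
      HasDerivAt c0 (c1 r / r ^ 2 + 2 * I * Kf a om m r / De M a r * c0 r) r ∧
      HasDerivAt c1 (c2 r / r ^ 2 + 2 * I * Kf a om m r / De M a r * c1 r) r ∧
      HasDerivAt c2 (c3 r + 2 * I * Kf a om m r / De M a r * c2 r) r)
    (hi : ∀ δ > 0, ∃ᶠ r in atTop,
      ‖c3 r‖ ^ 2 + (‖c2 r‖ ^ 2 + ‖c1 r‖ ^ 2 + ‖c0 r‖ ^ 2) / r ^ 4 ≤ δ) :
    ∀ r, rp M a < r → g 0 r = 0 := by
  obtain ⟨a0, a1, a2, t0, t1, t2⟩ := ode_lim ha h hR hb
  obtain ⟨F, hF, hF', t⟩ := exists_filter (Eventually.of_forall fun r => by positivity) hi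
  have ts := (Real.continuous_sqrt.tendsto 0).comp t
  rw [Real.sqrt_zero] at ts
  have nd : ∀ (x : ℂ) (r y z : ℝ), 1 ≤ r → ‖x‖ ^ 2 ≤ y → 0 ≤ z →
      ‖x / (r : ℂ) ^ 2‖ ≤ √(z + y / r ^ 4) := fun x r y z hr h1 h2 => by
    refine Real.le_sqrt_of_sq_le ?_
    rw [norm_div, norm_pow, Complex.norm_real, Real.norm_of_nonneg (by linarith), div_pow,
      ← pow_mul]
    exact le_add_of_nonneg_of_le h2 (by gcongr)
  have i0 : Tendsto (fun r => c0 r / (r : ℂ) ^ 2) F (𝓝 0) := small hF' ts fun r hr =>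
    nd _ r _ _ hr (le_add_of_nonneg_left (by positivity)) (sq_nonneg _)
  have i1 : Tendsto (fun r => c1 r / (r : ℂ) ^ 2) F (𝓝 0) := small hF' ts fun r hr =>
    nd _ r _ _ hr (by nlinarith [sq_nonneg ‖c2 r‖, sq_nonneg ‖c0 r‖]) (sq_nonneg _)
  have i2 : Tendsto (fun r => c2 r / (r : ℂ) ^ 2) F (𝓝 0) := small hF' ts fun r hr =>
    nd _ r _ _ hr (by nlinarith [sq_nonneg ‖c1 r‖, sq_nonneg ‖c0 r‖]) (sq_nonneg _)
  have i3 : Tendsto c3 F (𝓝 0) := small hF' ts fun r hr =>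
    Real.le_sqrt_of_sq_le (le_add_of_nonneg_right (by positivity))
  by_cases e : om = 0
  · obtain ⟨L, hL, rfl⟩ := hl.2 e
    subst e
    exact zminus' hM (sq_d ha).1 (sq_d ha).2 hL (ode_Pq h) t0 t1
      (fun r hr => ⟨(hc r hr).1, (hc r hr).2.1, (hc r hr).2.2.1⟩) hF' i1 i2
  · exact rminus hM (sq_d ha).1 (sq_d ha).2 h0 e hl.1 (ode_Pq h) t0 t1 t2 hc hF' i0 i1 i2 i3

end

end P354MS
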