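import Vale.Agent.P354MS.Core

/-! Mode stability, part 6: a priori bound at infinity, Fuchsian uniqueness. -/

namespace P354MS
open Complex Set Filter Topology Asymptotics MeasureTheory

variable {m1 m2 m3 Ω c : ℂ} {u : ℕ → ℝ → ℂ}

theorem norm_one_sub {t : ℝ} (ht : t < 1) : ‖(1 - t : ℂ)‖ = 1 - t := by
  rw [show (1 - t : ℂ) = ((1 - t : ℝ) : ℂ) by push_cast; ring, Complex.norm_real,
    Real.norm_of_nonneg (sub_pos.2 ht).le]

theorem rho_cmp {μ q Ω : ℂ} (hq : 1 ≤ q.re) (hΩ : 0 ≤ Ω.im) {t x : ℝ} (ht : 1 / 2 ≤ t)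
    (htx : t ≤ x) (hx : x < 1) :
    ‖rho μ q Ω x‖ * (1 - t) ≤ Real.exp (|μ.re| * Real.log 2) * (1 - x) * ‖rho μ q Ω t‖ := by
  have p1 : 0 < 1 - x := sub_pos.2 hx
  have p2 : 0 < 1 - t := by linarith
  have p3 : 0 < t := by linarith
  rw [norm_rho, norm_rho]
  have e1 : ∀ A : ℝ, Real.exp A * (1 - t) = Real.exp (A + Real.log (1 - t)) := fun A => by
    rw [Real.exp_add, Real.exp_log p2]
  have e2 : ∀ A B : ℝ, Real.exp A * (1 - x) * Real.exp B =
      Real.exp (A + Real.log (1 - x) + B) := fun A B => by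
    rw [Real.exp_add, Real.exp_add, Real.exp_log p1]
  rw [e1, e2, Real.exp_le_exp]
  have l1 : Real.log t ≤ Real.log x := Real.log_le_log p3 htx
  have l2 : Real.log x ≤ 0 := Real.log_nonpos (by linarith) hx.le
  have l3 : -Real.log 2 ≤ Real.log t := by
    rw [← Real.log_inv]; exact Real.log_le_log (by norm_num) (by linarith)
  have l4 : Real.log (1 - x) ≤ Real.log (1 - t) := Real.log_le_log p1 (by linarith)
  have l5 : (1 - t)⁻¹ ≤ (1 - x)⁻¹ := inv_anti₀ p1 (by linarith)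
  have a1 : μ.re * (Real.log x - Real.log t) ≤ |μ.re| * Real.log 2 :=
    (mul_le_mul_of_nonneg_right (le_abs_self _) (by linarith)).trans
      (mul_le_mul_of_nonneg_left (by linarith) (abs_nonneg _))
  nlinarith [mul_nonneg (sub_nonneg.2 hq) (sub_nonneg.2 l4), mul_nonneg hΩ (sub_nonneg.2 l5)]

theorem Fam.apriori (h : Fam m1 m2 m3 Ω c u) (hq : 1 ≤ (m2 + m3 - m1).re) (hΩ : 0 ≤ Ω.im)
    (hΩ' : Ω ≠ 0)
    (i1 : ∃ᶠ z in 𝓝[<] (1 : ℝ), ‖rho m1 (m2 + m3 - m1) Ω z * Ac z * u 1 z‖ ≤ 1) :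
    Bd (𝓝[<] 1) fun z => rho m1 (m2 + m3 - m1) Ω z * u 0 z := by
  set q := m2 + m3 - m1 with hq'
  set ρ := rho m1 q Ω with hρ
  set K := Real.exp (|m1.re| * Real.log 2) with hK
  have K0 : 0 < K := Real.exp_pos _
  obtain ⟨C, hC⟩ := (isCompact_Icc (a := (0 : ℝ)) (b := 1)).exists_bound_of_continuousOn
    (f := Ck m1 m2 m3 Ω c 0) fun z _ => (ca_Ck 0 z).continuousWithinAt
  have C0 : 0 ≤ C := (norm_nonneg _).trans (hC 0 ⟨le_rfl, zero_le_one⟩)
  set Q := ‖q‖ + 2 * ‖1 + m1‖ with hQ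
  have Q0 : 0 ≤ Q := by positivity
  set L := 2 * Q * K * C + 2 * C * K + 2 * C with hL
  have L0 : 0 ≤ L := by positivity
  have O0 : 0 < ‖Ω‖ := norm_pos_iff.2 hΩ'
  obtain ⟨x0, hx1, hx2, hx3⟩ : ∃ x0 : ℝ, 1 / 2 ≤ x0 ∧ x0 < 1 ∧ L * (1 - x0) ≤ ‖Ω‖ / 2 := by
    refine ⟨1 - min (1 / 2) (‖Ω‖ / 2 / (L + 1)), by linarith [min_le_left (1 / 2 : ℝ) (‖Ω‖ / 2 / (L + 1))],
      by linarith [lt_min (by norm_num : (0 : ℝ) < 1 / 2) (by positivity : 0 < ‖Ω‖ / 2 / (L + 1))], ?_⟩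
    have := min_le_right (1 / 2 : ℝ) (‖Ω‖ / 2 / (L + 1))
    rw [sub_sub_cancel]
    rw [le_div_iff₀ (by positivity)] at this
    nlinarith [lt_min (by norm_num : (0 : ℝ) < 1 / 2) (by positivity : 0 < ‖Ω‖ / 2 / (L + 1))]
  set y : ℝ → ℂ := fun z => I * Ω * u 0 z + (1 - (z : ℂ)) ^ 2 * u 1 z with hy
  set E := K * ‖ρ x0 * y x0‖ + 2 * Q * K + 2 with hE
  have dρ : ∀ z ∈ Ioo (0 : ℝ) 1, ContinuousAt ρ z := fun z hz =>
    (hd_rho m1 q Ω hz).choose_spec.1.continuousAt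
  have dy : ∀ z ∈ Ioo (0 : ℝ) 1, HasDerivAt y ((q - (1 + m1) * (1 - z) / z) *
      ((1 - z) * u 1 z) - Ck m1 m2 m3 Ω c 0 z / z * u 0 z) z := by
    intro z hz
    have h0 : (z : ℂ) ≠ 0 := by exact_mod_cast hz.1.ne'
    refine (((h.d 0 z hz).const_mul (I * Ω)).add
      ((((hd_ofReal z).const_sub 1).pow 2).mul (h.d 1 z hz))).congr_deriv ?_
    have e := h.e 0 z hz
    simp only [Pi.pow_apply, zero_add, Nat.reduceAdd] at e ⊢
    unfold Ac Bk Bc Dk at e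
    rw [hq']
    push_cast at e ⊢
    field_simp
    linear_combination e
  refine IsBigO.of_bound (2 * E / ‖Ω‖) ?_
  filter_upwards [Ioo_mem_nhdsLT hx2] with x' hx'
  rw [norm_one, mul_one]
  obtain ⟨x1, hx4, hx5⟩ := (i1.and_eventually (Ioo_mem_nhdsLT hx'.2)).exists
  have sub : ∀ z ∈ Icc x0 x1, z ∈ Ioo (0 : ℝ) 1 := fun z hz =>
    ⟨by linarith [hz.1], hz.2.trans_lt hx5.2⟩
  obtain ⟨x, hx, hmax⟩ := (isCompact_Icc (a := x0) (b := x1)).exists_isMaxOn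
    ⟨x0, le_rfl, (hx'.1.trans hx5.1).le⟩ (f := fun z => ‖ρ z * u 0 z‖)
    fun z hz => ((dρ z (sub z hz)).mul (h.d 0 z (sub z hz)).continuousAt).norm.continuousWithinAt
  set Y := ‖ρ x * u 0 x‖ with hY
  have Y0 : 0 ≤ Y := norm_nonneg _
  have bY : ∀ z ∈ Icc x0 x1, ‖ρ z * u 0 z‖ ≤ Y := fun z hz => hmax hz
  have bφ : ∀ z ∈ Icc x0 x1, ‖ρ z * Ac z * u 1 z‖ ≤ 1 + C * Y * (1 - z) := by
    intro z hz
    have hm := Convex.norm_image_sub_le_of_norm_hasDerivWithin_le (s := Icc x0 x1) (C := C * Y)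
      (fun t ht => (h.hd_phi 0 (sub t ht)).hasDerivWithinAt) (fun t ht => by
        simp only [Dk, Nat.cast_zero, zero_mul, add_zero, pow_zero, mul_one, norm_neg]
        rw [mul_left_comm, norm_mul]
        exact mul_le_mul (hC t (Ioo_subset_Icc_self (sub t ht))) (bY t ht) (norm_nonneg _) C0)
      (convex_Icc _ _) (right_mem_Icc.2 (hz.1.trans hz.2)) hz
    simp only [zero_add, pow_one] at hm
    have h4 : ‖z - x1‖ ≤ 1 - z := by
      rw [Real.norm_eq_abs, abs_le]; constructor <;> linarith [hz.2, hx5.2]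
    have h5 : C * Y * ‖z - x1‖ ≤ C * Y * (1 - z) := by gcongr
    linarith [norm_le_norm_add_norm_sub' (ρ z * Ac z * u 1 z) (ρ x1 * Ac x1 * u 1 x1)]
  have bφ' : ∀ z ∈ Icc x0 x1, ‖ρ z‖ * ‖u 1 z‖ * (1 - z) ^ 2 ≤ 2 * (1 + C * Y * (1 - z)) := by
    intro z hz
    have h1 := bφ z hz
    have hz' := sub z hz
    unfold Ac at h1
    rw [norm_mul, norm_mul, norm_mul, norm_pow, norm_one_sub hz'.2, Complex.norm_real,
      Real.norm_of_nonneg hz'.1.le] at h1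
    have : 0 ≤ ‖ρ z‖ * ‖u 1 z‖ * (1 - z) ^ 2 := by positivity
    nlinarith [hz.1]
  have hx' := sub x hx
  have p1 : 0 < 1 - x := sub_pos.2 hx'.2
  have cmp : ∀ t ∈ Icc x0 x, ‖ρ x‖ * (1 - t) ≤ K * (1 - x) * ‖ρ t‖ := fun t ht =>
    rho_cmp hq hΩ (hx1.trans ht.1) ht.2 hx'.2
  have cmp' : ∀ t ∈ Icc x0 x, ‖ρ x‖ ≤ K * ‖ρ t‖ := fun t ht => by
    have h1 := cmp t ht
    have p2 : 0 < 1 - t := by linarith [ht.2]
    have : K * (1 - x) * ‖ρ t‖ ≤ K * ‖ρ t‖ * (1 - t) := by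
      nlinarith [mul_nonneg (mul_nonneg K0.le (norm_nonneg (ρ t))) (sub_nonneg.2 ht.2)]
    exact le_of_mul_le_mul_right (h1.trans this) p2
  have sub' : ∀ t ∈ Icc x0 x, t ∈ Icc x0 x1 := fun t ht => ⟨ht.1, ht.2.trans hx.2⟩
  have dB : ∀ t ∈ Icc x0 x, HasDerivAt (fun t => ‖ρ x * y x0‖ + 2 * Q * K * (1 - x) * (1 - t)⁻¹ +
      (2 * Q * K * C + 2 * C * K) * Y * (t - x0))
      (2 * Q * K * (1 - x) * (-(-1) / (1 - t) ^ 2) + (2 * Q * K * C + 2 * C * K) * Y * 1) t :=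
    fun t ht => (((((hasDerivAt_id t).const_sub 1).inv
      (sub_pos.2 (sub t (sub' t ht)).2).ne').const_mul _).const_add _).add
      (((hasDerivAt_id t).sub_const x0).const_mul _)
  have main := image_norm_le_of_norm_deriv_right_le_deriv_boundary' (a := x0) (b := x)
    (f := fun t => ρ x * y t)
    (fun t ht => ((dy t (sub t (sub' t ht))).const_mul (ρ x)).continuousAt.continuousWithinAt)
    (fun t ht => ((dy t (sub t (sub' t (Ico_subset_Icc_self ht)))).const_mul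
      (ρ x)).hasDerivWithinAt)
    (B := fun t => ‖ρ x * y x0‖ + 2 * Q * K * (1 - x) * (1 - t)⁻¹ +
      (2 * Q * K * C + 2 * C * K) * Y * (t - x0))
    (by
      have : 0 < 1 - x0 := sub_pos.2 hx2
      have : 0 ≤ 2 * Q * K * (1 - x) * (1 - x0)⁻¹ := by positivity
      simp only [sub_self, mul_zero, add_zero]; linarith)
    (fun t ht => (dB t ht).continuousAt.continuousWithinAt)
    (fun t ht => (dB t (Ico_subset_Icc_self ht)).hasDerivWithinAt)
    (fun t ht => by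
      have ht' := Ico_subset_Icc_self ht
      have ht1 := sub t (sub' t ht')
      have p2 : 0 < 1 - t := sub_pos.2 ht1.2
      have t2 : 1 / 2 ≤ t := hx1.trans ht.1
      have n1 : ‖q - (1 + m1) * (1 - t) / t‖ ≤ Q := by
        refine (norm_sub_le _ _).trans (add_le_add le_rfl ?_)
        rw [norm_div, norm_mul, norm_one_sub ht1.2, Complex.norm_real,
          Real.norm_of_nonneg ht1.1.le, div_le_iff₀ ht1.1]
        nlinarith [norm_nonneg (1 + m1)]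
      have n2 : ‖Ck m1 m2 m3 Ω c 0 t / t‖ ≤ 2 * C := by
        rw [norm_div, Complex.norm_real, Real.norm_of_nonneg ht1.1.le, div_le_iff₀ ht1.1]
        nlinarith [hC t (Ioo_subset_Icc_self ht1)]
      have n3 : ‖ρ x * ((1 - t) * u 1 t)‖ ≤ 2 * K * ((1 - x) / (1 - t) ^ 2 + C * Y) := by
        rw [norm_mul, norm_mul, norm_one_sub ht1.2, ← mul_assoc]
        have b1 := mul_le_mul_of_nonneg_right (cmp t ht') (norm_nonneg (u 1 t))
        have b2 : ‖ρ t‖ * ‖u 1 t‖ ≤ 2 * (1 + C * Y * (1 - t)) / (1 - t) ^ 2 := by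
          rw [le_div_iff₀ (by positivity)]; exact bφ' t (sub' t ht')
        have b3 : (1 - x) * (2 * (1 + C * Y * (1 - t)) / (1 - t) ^ 2) ≤
            2 * ((1 - x) / (1 - t) ^ 2 + C * Y) := by
          have e : (1 - x) * (2 * (1 + C * Y * (1 - t)) / (1 - t) ^ 2) =
              2 * ((1 - x) / (1 - t) ^ 2 + C * Y * ((1 - x) / (1 - t))) := by field_simp
          have : (1 - x) / (1 - t) ≤ 1 := by rw [div_le_one p2]; linarith [ht.2]
          rw [e]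
          nlinarith [mul_nonneg C0 Y0]
        calc _ ≤ K * (1 - x) * ‖ρ t‖ * ‖u 1 t‖ := b1
          _ = K * ((1 - x) * (‖ρ t‖ * ‖u 1 t‖)) := by ring
          _ ≤ K * ((1 - x) * (2 * (1 + C * Y * (1 - t)) / (1 - t) ^ 2)) := by gcongr
          _ ≤ K * (2 * ((1 - x) / (1 - t) ^ 2 + C * Y)) := by gcongr
          _ = _ := by ring
      have n4 : ‖ρ x * u 0 t‖ ≤ K * Y := by
        have := bY t (sub' t ht')
        rw [norm_mul] at this ⊢
        calc _ ≤ K * ‖ρ t‖ * ‖u 0 t‖ := by gcongr; exact cmp' t ht'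
          _ = K * (‖ρ t‖ * ‖u 0 t‖) := by ring
          _ ≤ _ := by gcongr
      have e : ρ x * ((q - (1 + m1) * (1 - t) / t) * ((1 - t) * u 1 t) -
          Ck m1 m2 m3 Ω c 0 t / t * u 0 t) = (q - (1 + m1) * (1 - t) / t) *
            (ρ x * ((1 - t) * u 1 t)) - Ck m1 m2 m3 Ω c 0 t / t * (ρ x * u 0 t) := by ring
      rw [e]
      refine (norm_sub_le _ _).trans ?_
      rw [norm_mul, norm_mul (Ck m1 m2 m3 Ω c 0 t / t)]
      calc _ ≤ Q * (2 * K * ((1 - x) / (1 - t) ^ 2 + C * Y)) + 2 * C * (K * Y) := by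
            gcongr
        _ = _ := by ring) (right_mem_Icc.2 hx.1)
  have e1 : 2 * Q * K * (1 - x) * (1 - x)⁻¹ = 2 * Q * K := by field_simp
  have e2 : ‖ρ x * y x0‖ ≤ K * ‖ρ x0 * y x0‖ := by
    rw [norm_mul, norm_mul, ← mul_assoc]
    gcongr
    exact cmp' x0 (left_mem_Icc.2 hx.1)
  have e3 : ‖Ω‖ * Y ≤ ‖ρ x * y x‖ + ‖ρ x‖ * ‖u 1 x‖ * (1 - x) ^ 2 := by
    have e : I * Ω * (ρ x * u 0 x) = ρ x * y x - ρ x * u 1 x * (1 - (x : ℂ)) ^ 2 := by
      simp only [hy]; ring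
    have := norm_sub_le (ρ x * y x) (ρ x * u 1 x * (1 - (x : ℂ)) ^ 2)
    rw [← e, norm_mul, norm_mul, Complex.norm_I, one_mul, norm_mul (ρ x * u 1 x), norm_mul (ρ x) (u 1 x),
      norm_pow, norm_one_sub hx'.2] at this
    exact this
  have e4 := bφ' x hx
  have e5 : (2 * Q * K * C + 2 * C * K) * Y * (x - x0) + 2 * C * Y * (1 - x) ≤
      L * (1 - x0) * Y := by
    have f1 : (2 * Q * K * C + 2 * C * K) * Y * (x - x0) ≤
        (2 * Q * K * C + 2 * C * K) * Y * (1 - x0) := by gcongr; exact hx'.2.le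
    have f2 : 2 * C * Y * (1 - x) ≤ 2 * C * Y * (1 - x0) := by gcongr; exact hx.1
    rw [hL]; linarith
  have e6 := mul_le_mul_of_nonneg_right hx3 Y0
  refine (bY x' ⟨by linarith [‹x' ∈ Ioo x0 1›.1], hx5.1.le⟩).trans ?_
  rw [le_div_iff₀ O0, hE]
  linarith

/-- Uniqueness at a regular singular point. -/
theorem fuchs {p φ α β : ℝ → ℂ} {a b d K : ℝ} (hd : 0 < d)
    (dp : ∀ x ∈ Ioo a b, HasDerivAt p (α x * φ x) x)
    (dφ : ∀ x ∈ Ioo a b, HasDerivAt φ (β x * p x) x)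
    (cα : ContinuousOn α (Ioo a b)) (cβ : ContinuousOn β (Ioo a b))
    (tp : Tendsto p (𝓝[>] a) (𝓝 0)) (tφ : Tendsto φ (𝓝[>] a) (𝓝 0))
    (hK : ∀ t x, a < t → t ≤ x → x < a + d → x < b → ‖α x‖ * ‖β t‖ * (x - a) ≤ K) :
    ∀ x ∈ Ioo a b, p x = 0 := by
  have mv : ∀ {f f' : ℝ → ℂ} {x C : ℝ}, a < x → (∀ t ∈ Ioc a x, HasDerivAt f (f' t) t) →
      Tendsto f (𝓝[>] a) (𝓝 0) → (∀ t ∈ Ioc a x, ‖f' t‖ ≤ C) → ‖f x‖ ≤ C * (x - a) := by
    intro f f' x C hx hf tf hC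
    have C0 : 0 ≤ C := (norm_nonneg _).trans (hC x ⟨hx, le_rfl⟩)
    have t1 : Tendsto (fun t => ‖f x - f t‖) (𝓝[>] a) (𝓝 ‖f x - 0‖) :=
      (tendsto_const_nhds.sub tf).norm
    rw [sub_zero] at t1
    refine le_of_tendsto t1 ?_
    filter_upwards [Ioo_mem_nhdsGT hx] with t ht
    refine (Convex.norm_image_sub_le_of_norm_hasDerivWithin_le (s := Ioc a x)
      (fun t ht => (hf t ht).hasDerivWithinAt) hC (convex_Ioc _ _) ⟨ht.1, ht.2.le⟩
      ⟨hx, le_rfl⟩).trans ?_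
    rw [Real.norm_of_nonneg (sub_nonneg.2 ht.2.le)]
    gcongr
    exact ht.1.le
  intro x hx
  have hab : a < b := hx.1.trans hx.2
  obtain ⟨e, e0, e1, e2, e3⟩ : ∃ e, a < e ∧ e < a + d ∧ e ≤ x ∧ (|K| + 1) * (e - a) ≤ 1 / 2 := by
    have k0 : 0 < |K| + 1 := by positivity
    have m0 : 0 < min (min (d / 2) (x - a)) (1 / 2 / (|K| + 1)) :=
      lt_min (lt_min (by linarith) (sub_pos.2 hx.1)) (by positivity)
    have m1 := (min_le_left _ (1 / 2 / (|K| + 1))).trans (min_le_left (d / 2) (x - a))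
    have m2 := (min_le_left _ (1 / 2 / (|K| + 1))).trans (min_le_right (d / 2) (x - a))
    have m3 := min_le_right (min (d / 2) (x - a)) (1 / 2 / (|K| + 1))
    rw [le_div_iff₀ k0] at m3
    generalize min (min (d / 2) (x - a)) (1 / 2 / (|K| + 1)) = w at m0 m1 m2 m3
    exact ⟨a + w, by linarith, by linarith, by linarith, by rw [add_sub_cancel_left]; linarith⟩
  have sub : ∀ t ∈ Ioc a e, t ∈ Ioo a b := fun t ht => ⟨ht.1, (ht.2.trans e2).trans_lt hx.2⟩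
  have step : ∀ S, (∀ t ∈ Ioc a e, ‖p t‖ ≤ S) → (∀ t ∈ Ioc a e, ‖α t * φ t‖ ≤ |K| * S) ∧
      ∀ t ∈ Ioc a e, ‖p t‖ ≤ S / 2 := by
    intro S hS
    have S0 : 0 ≤ S := (norm_nonneg _).trans (hS e ⟨e0, le_rfl⟩)
    have s1 : ∀ t ∈ Ioc a e, ‖α t * φ t‖ ≤ |K| * S := by
      intro t ht
      have ta : 0 < t - a := sub_pos.2 ht.1
      have := mv (f := fun v => α t * φ v) (C := |K| / (t - a) * S) ht.1
        (fun v hv => (dφ v (sub v ⟨hv.1, hv.2.trans ht.2⟩)).const_mul (α t))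
        (by simpa using tφ.const_mul (α t)) (fun v hv => by
          rw [norm_mul, norm_mul, ← mul_assoc]
          refine mul_le_mul ?_ (hS v ⟨hv.1, hv.2.trans ht.2⟩) (norm_nonneg _) (by positivity)
          rw [le_div_iff₀ ta]
          exact (hK v t hv.1 hv.2 (ht.2.trans_lt e1) (sub t ht).2).trans (le_abs_self K))
      refine this.trans (le_of_eq ?_)
      field_simp
    refine ⟨s1, fun t ht => ?_⟩
    have := mv ht.1 (fun v hv => dp v (sub v ⟨hv.1, hv.2.trans ht.2⟩)) tp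
      (fun v hv => s1 v ⟨hv.1, hv.2.trans ht.2⟩)
    have h2 : |K| * (t - a) ≤ 1 / 2 := by nlinarith [abs_nonneg K, ht.1, ht.2]
    nlinarith
  obtain ⟨S, hS⟩ : ∃ S, ∀ t ∈ Ioc a e, ‖p t‖ ≤ S := by
    obtain ⟨v, hv, h1⟩ := (mem_nhdsGT_iff_exists_Ioo_subset).1
      ((NormedAddGroup.tendsto_nhds_zero.1 tp) 1 one_pos)
    obtain ⟨C, hC⟩ := (isCompact_Icc (a := v) (b := e)).exists_bound_of_continuousOn (f := p)
      fun t ht => (dp t (sub t ⟨lt_of_lt_of_le hv ht.1, ht.2⟩)).continuousAt.continuousWithinAt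
    refine ⟨max 1 C, fun t ht => ?_⟩
    rcases lt_or_ge t v with h | h
    · exact (le_of_lt (h1 ⟨ht.1, h⟩)).trans (le_max_left _ _)
    · exact (hC t ⟨h, ht.2⟩).trans (le_max_right _ _)
  have it : ∀ n : ℕ, ∀ t ∈ Ioc a e, ‖p t‖ ≤ S * (1 / 2) ^ n := by
    intro n
    induction n with
    | zero => simpa using hS
    | succ n ih => intro t ht; have := (step _ ih).2 t ht; rw [pow_succ]; linarith
  have z0 : ∀ t ∈ Ioc a e, p t = 0 := by
    intro t ht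
    have := (tendsto_pow_atTop_nhds_zero_of_lt_one (r := (1 / 2 : ℝ)) (by norm_num)
      (by norm_num)).const_mul S
    rw [mul_zero] at this
    exact norm_le_zero_iff.1 (ge_of_tendsto' this fun n => it n t ht)
  have z1 : φ e = 0 := by
    have := mv (C := 0) e0 (fun t ht => dφ t (sub t ht)) tφ (fun t ht => by simp [z0 t ht])
    simpa using this
  have sub2 : ∀ t ∈ Icc e x, t ∈ Ioo a b := fun t ht => ⟨e0.trans_le ht.1, ht.2.trans_lt hx.2⟩
  obtain ⟨C1, h1⟩ := (isCompact_Icc (a := e) (b := x)).exists_bound_of_continuousOn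
    (cα.mono sub2)
  obtain ⟨C2, h2⟩ := (isCompact_Icc (a := e) (b := x)).exists_bound_of_continuousOn
    (cβ.mono sub2)
  have := eq_zero_of_abs_deriv_le_mul_abs_self_of_eq_zero_right (f := fun t => (p t, φ t))
    (f' := fun t => (α t * φ t, β t * p t)) (K := max C1 C2) (a := e) (b := x)
    (fun t ht => ((dp t (sub2 t ht)).prodMk (dφ t (sub2 t ht))).continuousAt.continuousWithinAt)
    (fun t ht => ((dp t (sub2 t (Ico_subset_Icc_self ht))).prodMk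
      (dφ t (sub2 t (Ico_subset_Icc_self ht)))).hasDerivWithinAt)
    (by simp [z0 e ⟨e0, le_rfl⟩, z1]) (fun t ht => by
      have ht' := Ico_subset_Icc_self ht
      have m0 : 0 ≤ max C1 C2 := ((norm_nonneg _).trans (h1 t ht')).trans (le_max_left _ _)
      rw [Prod.norm_def, Prod.norm_def, max_le_iff]
      simp only [norm_mul]
      exact ⟨mul_le_mul ((h1 t ht').trans (le_max_left _ _)) (le_max_right _ _) (norm_nonneg _) m0,
        mul_le_mul ((h2 t ht').trans (le_max_right _ _)) (le_max_left _ _) (norm_nonneg _) m0⟩)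
    x (right_mem_Icc.2 e2)
  exact (Prod.ext_iff.1 this).1

end P354MS
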