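import Vale.Agent.P354MS.Mom

/-! Mode stability, part 5: Green identity, mass swap, the core theorem in the variable `z`. -/

namespace P354MS
open Complex Set Filter Topology Asymptotics MeasureTheory

variable {m1 m2 m3 Ω c : ℂ} {u : ℕ → ℝ → ℂ}

theorem Fam.green (h : Fam m1 m2 m3 Ω c u)
    (hb : ∀ k, ∃ C, ∀ z ∈ Ioo (0 : ℝ) 1, ‖Tk m1 m2 m3 Ω u k z‖ ≤ C)
    (a1 : ∀ k, Bd (𝓝[<] 1) fun z => rho m1 (m2 + m3 - m1) Ω z * (1 - (z : ℂ)) ^ k * u k z)
    {g g1 g2 e : ℝ → ℂ} (d0 : ∀ z, HasDerivAt g (g1 z) z) (d1 : ∀ z, HasDerivAt g1 (g2 z) z)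
    (ce : Continuous e) (he : ∀ z, Lop m1 m2 m3 Ω c z (g z) (g1 z) (g2 z) = (z : ℂ) ^ 2 * e z)
    (t0 : Tendsto (fun z => rho m1 (m2 + m3 - m1) Ω z * Ac z * (u 0 z * g1 z - g z * u 1 z))
      (𝓝[>] 0) (𝓝 0)) :
    ∫ z in (0 : ℝ)..1, Tk m1 m2 m3 Ω u 0 z * e z = 0 := by
  have hd : ∀ z ∈ Ioo (0 : ℝ) 1, HasDerivAt
      (fun z => rho m1 (m2 + m3 - m1) Ω z * Ac z * (u 0 z * g1 z - g z * u 1 z))
      (Tk m1 m2 m3 Ω u 0 z * e z) z := by
    intro z hz
    obtain ⟨r, hr, hr'⟩ := hd_rho m1 (m2 + m3 - m1) Ω hz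
    refine ((hr.mul (hd_Ac z)).mul (((h.d 0 z hz).mul (d1 z)).sub
      ((d0 z).mul (h.d 1 z hz)))).congr_deriv ?_
    have e0 := h.e 0 z hz
    have e1 := he z
    simp only [Pi.mul_apply, Pi.sub_apply, zero_add, Nat.reduceAdd] at e0 ⊢
    unfold Lop Bc at e1
    unfold Bk Bc Ck be Dk ga at e0
    unfold Tk
    push_cast at e0 ⊢
    linear_combination rho m1 (m2 + m3 - m1) Ω z * (u 0 z * g1 z - g z * u 1 z) * hr' +
      rho m1 (m2 + m3 - m1) Ω z * u 0 z * e1 - rho m1 (m2 + m3 - m1) Ω z * g z * e0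
  have s0 := (a1 0).zero (t_one 1 (fun z : ℝ => (z : ℂ) * g1 z)
    ((hd_ofReal 1).continuousAt.mul (d1 1).continuousAt))
  have s1 := (a1 1).zero (t_one 0 (fun z : ℝ => (z : ℂ) * g z)
    ((hd_ofReal 1).continuousAt.mul (d0 1).continuousAt))
  have t1 : Tendsto (fun z => rho m1 (m2 + m3 - m1) Ω z * Ac z * (u 0 z * g1 z - g z * u 1 z))
      (𝓝[<] 1) (𝓝 (0 - 0)) := (s0.sub s1).congr fun z => by unfold Ac; ring
  have := intervalIntegral.integral_eq_sub_of_hasDerivAt_of_tendsto zero_lt_one hd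
    (ii_of_bd (h.cT 0) (hb 0) ce) t0 t1
  simpa using this

theorem Fam.comb (h : Fam m1 m2 m3 Ω c u)
    (hb : ∀ k, ∃ C, ∀ z ∈ Ioo (0 : ℝ) 1, ‖Tk m1 m2 m3 Ω u k z‖ ≤ C) (x0 x1 x2 : ℂ) (m : ℕ) :
    ∫ z in (0 : ℝ)..1, Tk m1 m2 m3 Ω u 0 z *
      (x0 * (z : ℂ) ^ m + x1 * (z : ℂ) ^ (m + 1) + x2 * (z : ℂ) ^ (m + 2)) =
      x0 * Fm m1 m2 m3 Ω u 0 0 m + x1 * Fm m1 m2 m3 Ω u 0 0 (m + 1) +
        x2 * Fm m1 m2 m3 Ω u 0 0 (m + 2) := by
  have ii : ∀ m : ℕ, IntervalIntegrable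
      (fun z => Tk m1 m2 m3 Ω u 0 z * ((z : ℂ) ^ m * (1 - (z : ℂ)) ^ 0)) volume 0 1 :=
    fun m => ii_of_bd (h.cT 0) (hb 0) (by fun_prop)
  unfold Fm
  rw [← intervalIntegral.integral_const_mul, ← intervalIntegral.integral_const_mul,
    ← intervalIntegral.integral_const_mul,
    ← intervalIntegral.integral_add ((ii _).const_mul _) ((ii _).const_mul _),
    ← intervalIntegral.integral_add (((ii _).const_mul _).add ((ii _).const_mul _))
      ((ii _).const_mul _)]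
  exact intervalIntegral.integral_congr fun z _ => by ring

theorem mom_real {ψ : ℝ → ℝ} (hc : ContinuousOn ψ (Icc 0 1))
    (hm : ∀ n : ℕ, ∫ z in (0 : ℝ)..1, ψ z * z ^ n = 0) : ∀ z ∈ Ioo (0 : ℝ) 1, ψ z = 0 := by
  have ci : ∀ {f : ℝ → ℝ}, ContinuousOn f (Icc 0 1) → IntervalIntegrable f volume 0 1 :=
    fun hf => hf.intervalIntegrable_of_Icc zero_le_one
  have cp : ∀ p : Polynomial ℝ, IntervalIntegrable (fun z => ψ z * p.eval z) volume 0 1 :=
    fun p => ci (hc.mul p.continuous.continuousOn)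
  have cq : IntervalIntegrable (fun z => ψ z * ψ z) volume 0 1 := ci (hc.mul hc)
  have hp : ∀ p : Polynomial ℝ, ∫ z in (0 : ℝ)..1, ψ z * p.eval z = 0 := by
    intro p
    induction p using Polynomial.induction_on' with
    | add p q hp hq =>
      simp only [Polynomial.eval_add, mul_add]
      rw [intervalIntegral.integral_add (cp p) (cp q), hp, hq, add_zero]
    | monomial n a =>
      simp only [Polynomial.eval_monomial, mul_left_comm (ψ _) a]
      rw [intervalIntegral.integral_const_mul, hm, mul_zero]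
  obtain ⟨C, hC⟩ := isCompact_Icc.exists_bound_of_continuousOn hc
  have hC0 : 0 ≤ C := (norm_nonneg _).trans (hC 0 ⟨le_rfl, zero_le_one⟩)
  have h2 : ∫ z in (0 : ℝ)..1, ψ z * ψ z ≤ 0 := by
    refine le_of_forall_pos_le_add fun δ hδ => ?_
    obtain ⟨p, hp'⟩ := exists_polynomial_near_of_continuousOn 0 1 ψ hc (δ / (C + 1))
      (by positivity)
    have e : ∫ z in (0 : ℝ)..1, ψ z * ψ z = ∫ z in (0 : ℝ)..1, ψ z * (ψ z - p.eval z) := by
      simp only [mul_sub]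
      rw [intervalIntegral.integral_sub cq (cp p), hp, sub_zero]
    have := intervalIntegral.norm_integral_le_of_norm_le_const (a := 0) (b := 1)
      (C := C * (δ / (C + 1))) (f := fun z => ψ z * (ψ z - p.eval z)) (fun z hz => by
        rw [uIoc_of_le zero_le_one] at hz
        have hz' := Ioc_subset_Icc_self hz
        rw [norm_mul, Real.norm_eq_abs (ψ z - _), abs_sub_comm]
        exact mul_le_mul (hC z hz') (hp' z hz').le (abs_nonneg _) hC0)
    have h3 : C * (δ / (C + 1)) ≤ δ := by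
      rw [← mul_div_assoc, div_le_iff₀ (by positivity)]; nlinarith
    rw [e, zero_add]
    have h4 := (Real.le_norm_self _).trans this
    simp only [sub_zero, abs_one, mul_one] at h4
    exact h4.trans h3
  intro z hz
  by_contra hne
  have := intervalIntegral.integral_pos zero_lt_one (hc.mul hc)
    (fun x _ => mul_self_nonneg (ψ x)) ⟨z, Ioo_subset_Icc_self hz, mul_self_pos.2 hne⟩
  exact absurd h2 (not_le.2 this)

theorem mom_zero {f : ℝ → ℂ} (hc : ContinuousOn f (Ioo 0 1))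
    (hb : ∃ C, ∀ z ∈ Ioo (0 : ℝ) 1, ‖f z‖ ≤ C)
    (hm : ∀ n : ℕ, ∫ z in (0 : ℝ)..1, f z * ((z : ℂ) ^ n * (1 - (z : ℂ)) ^ 0) = 0) :
    ∀ z ∈ Ioo (0 : ℝ) 1, f z = 0 := by
  set φ : ℝ → ℂ := fun z => (z : ℂ) * (1 - (z : ℂ)) * f z with hφ
  have cφ : ContinuousOn φ (Icc 0 1) := by
    intro z hz
    have t0 := (bd_of_bd hb).1.zero (t_zero 0 (fun z : ℝ => (1 - (z : ℂ))) (by fun_prop))
    have t1 := (bd_of_bd hb).2.zero (t_one 0 (fun z : ℝ => (z : ℂ)) (by fun_prop))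
    rcases hz.1.eq_or_lt with rfl | h0
    · refine ContinuousWithinAt.mono ?_ Icc_subset_Ici_self
      rw [← continuousWithinAt_Ioi_iff_Ici]
      have : φ 0 = 0 := by simp [hφ]
      rw [ContinuousWithinAt, this]
      exact t0.congr fun z => by simp only [hφ]; ring
    · rcases hz.2.eq_or_lt with rfl | h1
      · refine ContinuousWithinAt.mono ?_ Icc_subset_Iic_self
        rw [← continuousWithinAt_Iio_iff_Iic]
        have : φ 1 = 0 := by simp [hφ]
        rw [ContinuousWithinAt, this]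
        exact t1.congr fun z => by simp only [hφ]; ring
      · refine ContinuousAt.continuousWithinAt ?_
        exact ContinuousAt.mul (by fun_prop) (hc.continuousAt (Ioo_mem_nhds h0 h1))
  have ii : ∀ n : ℕ, IntervalIntegrable (fun z => f z * ((z : ℂ) ^ n * (1 - (z : ℂ)) ^ 0))
      volume 0 1 := fun n => ii_of_bd hc hb (by fun_prop)
  have hφm : ∀ n : ℕ, ∫ z in (0 : ℝ)..1, φ z * (z : ℂ) ^ n = 0 := by
    intro n
    have := intervalIntegral.integral_sub (ii (n + 1)) (ii (n + 2))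
    rw [hm, hm, sub_zero] at this
    rw [← this]
    exact intervalIntegral.integral_congr fun z _ => by simp only [hφ]; ring
  have iφ : ∀ n : ℕ, IntervalIntegrable (fun z => φ z * (z : ℂ) ^ n) volume 0 1 := fun n =>
    (cφ.mul (by fun_prop)).intervalIntegrable_of_Icc zero_le_one
  have key : ∀ L : ℂ →L[ℝ] ℝ, ∀ z ∈ Ioo (0 : ℝ) 1, L (φ z) = 0 := by
    intro L
    refine mom_real (ψ := fun z => L (φ z)) (L.continuous.comp_continuousOn cφ) fun n => ?_
    have := L.intervalIntegral_comp_comm (iφ n)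
    rw [hφm, L.map_zero] at this
    refine Eq.trans (intervalIntegral.integral_congr fun z _ => ?_) this
    show L (φ z) * z ^ n = L (φ z * (z : ℂ) ^ n)
    rw [mul_comm (φ z), ← Complex.ofReal_pow, ← Complex.real_smul, map_smul, smul_eq_mul,
      mul_comm]
  intro z hz
  have h0 : (z : ℂ) ≠ 0 := by exact_mod_cast hz.1.ne'
  have h1 : (1 - z : ℂ) ≠ 0 := by exact_mod_cast (sub_pos.2 hz.2).ne'
  have : φ z = 0 := Complex.ext (key Complex.reCLM z hz) (key Complex.imCLM z hz)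
  simpa [hφ, h0, h1] using this

/-- The gauge factor. -/
noncomputable def hh (μ : ℂ) : ℕ → ℂ
  | 0 => 1
  | n + 1 => hh μ n * ((n + 1 + μ) / (n + 1))

theorem hh_le (μ : ℂ) {K : ℕ} (hK : ‖μ‖ ≤ K) (n : ℕ) : ‖hh μ n‖ ≤ ((n : ℝ) + 1) ^ K := by
  induction n with
  | zero => simp [hh]
  | succ n ih =>
    have hn : (0 : ℝ) < n + 1 := by positivity
    have e0 : ‖(n : ℂ) + 1‖ = (n : ℝ) + 1 := by exact_mod_cast Complex.norm_natCast (n + 1)
    have h1 : ‖((n : ℂ) + 1 + μ) / (n + 1)‖ ≤ 1 + K * ((n : ℝ) + 1)⁻¹ := by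
      rw [norm_div, e0, div_le_iff₀ hn]
      have := norm_add_le ((n : ℂ) + 1) μ
      have e : (1 + K * ((n : ℝ) + 1)⁻¹) * (n + 1) = n + 1 + K := by field_simp
      rw [e]; linarith
    have h2 := one_add_mul_le_pow (a := ((n : ℝ) + 1)⁻¹) (by
      have : 0 ≤ ((n : ℝ) + 1)⁻¹ := by positivity
      linarith) K
    rw [hh, norm_mul]
    calc _ ≤ ((n : ℝ) + 1) ^ K * (1 + ((n : ℝ) + 1)⁻¹) ^ K := by
          gcongr; exact h1.trans h2
      _ = _ := by
          rw [← mul_pow]; congr 1; push_cast; field_simp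

theorem Rap.hh {a : ℕ → ℂ} (ha : Rap a) (μ : ℂ) : Rap fun m => a m * hh μ (m + 2) := by
  intro D
  obtain ⟨K, hK⟩ := exists_nat_ge ‖μ‖
  have h1 : (fun m => P354MS.hh μ (m + 2)) =O[atTop] fun m : ℕ => (m : ℝ) ^ K := by
    refine IsBigO.of_bound (4 ^ K) ?_
    filter_upwards [eventually_ge_atTop 1] with m hm
    have hm' : (1 : ℝ) ≤ m := by exact_mod_cast hm
    rw [Real.norm_of_nonneg (by positivity), ← mul_pow]
    refine (hh_le μ hK _).trans (pow_le_pow_left₀ (by positivity) ?_ K)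
    push_cast; linarith
  refine ((ha (D + K)).mul h1).trans (IsBigO.of_bound 1 ?_)
  filter_upwards [eventually_ge_atTop 1] with m hm
  have hm' : (0 : ℝ) < m := by exact_mod_cast hm
  have : ((m : ℝ) ^ (D + K))⁻¹ * (m : ℝ) ^ K = ((m : ℝ) ^ D)⁻¹ := by field_simp; ring
  rw [this, one_mul]

/-- The canonical solution of the swapped recurrence. -/
noncomputable def sq (m1 m2 m3 Ω c : ℂ) : ℕ → ℂ
  | 0 => 1
  | 1 => -be (m1 + m2 + m3) Ω c 0 / al m3 0
  | n + 2 => -(be (m1 + m2 + m3) Ω c (n + 1) * sq m1 m2 m3 Ω c (n + 1) +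
      ga m1 m2 (n + 1) * sq m1 m2 m3 Ω c n) / al m3 (n + 1)

theorem nat_ne {μ : ℂ} (h : -1 < μ.re) (n : ℕ) : (n : ℂ) + 1 + μ ≠ 0 := by
  intro e
  have := congrArg Complex.re e
  simp at this
  have hn : (0 : ℝ) ≤ n := Nat.cast_nonneg n
  linarith

theorem al_ne {μ : ℂ} (h : -1 < μ.re) (n : ℕ) : al μ n ≠ 0 :=
  mul_ne_zero (by exact_mod_cast Nat.succ_ne_zero n) (nat_ne h n)

/-- No rapidly decreasing solution of the swapped recurrence. -/
def NoSwap (m1 m2 m3 Ω c : ℂ) : Prop := ∀ a : ℕ → ℂ, Rap a →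
  al m3 0 * a 1 + be (m1 + m2 + m3) Ω c 0 * a 0 = 0 →
  (∀ n, al m3 (n + 1) * a (n + 2) + be (m1 + m2 + m3) Ω c (n + 1) * a (n + 1) +
    ga m1 m2 (n + 1) * a n = 0) → a 0 = 0

theorem Fam.core (h : Fam m1 m2 m3 Ω c u) (hμ : -2 ≤ m1.re) (hq : 0 ≤ (m2 + m3 - m1).re)
    (hΩ : 0 ≤ Ω.im) (hΩ' : Ω ≠ 0) (h2 : -1 < m2.re) (h3 : -1 < m3.re)
    (hN : NoSwap m1 m2 m3 Ω c) {a0 a1 a2 : ℂ}
    (r0 : al m1 0 * a1 + be (m1 + m2 + m3) Ω c 0 * a0 = 0)
    (r1 : al m1 1 * a2 + be (m1 + m2 + m3) Ω c 1 * a1 + ga m2 m3 1 * a0 = 0)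
    (o0 : Tendsto (fun z : ℝ => (u 0 z - a0 - a1 * z) / z) (𝓝[>] 0) (𝓝 0))
    (o1 : Tendsto (fun z : ℝ => (u 1 z - a1 - 2 * a2 * z) / z) (𝓝[>] 0) (𝓝 0))
    (i0 : Bd (𝓝[<] 1) fun z => rho m1 (m2 + m3 - m1) Ω z * u 0 z)
    (i1 : ∀ δ > 0, ∃ᶠ z in 𝓝[<] (1 : ℝ), ‖rho m1 (m2 + m3 - m1) Ω z * Ac z * u 1 z‖ ≤ δ) :
    ∀ z ∈ Ioo (0 : ℝ) 1, u 0 z = 0 := by
  have ne0 : ∀ᶠ z : ℝ in 𝓝[>] 0, (z : ℂ) ≠ 0 := by
    filter_upwards [self_mem_nhdsWithin] with z hz
    exact_mod_cast (ne_of_gt hz)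
  have cz : Bd (𝓝[>] 0) fun z : ℝ => (z : ℂ) := Bd.of_cont (by fun_prop)
  have b0 : Bd (𝓝[>] 0) (u 0) := by
    refine ((cz.mul (o0.isBigO_one ℝ)).add
      (Bd.of_cont (f := fun z : ℝ => a0 + a1 * z) (by fun_prop))).congr ?_
    filter_upwards [ne0] with z hz
    field_simp; ring
  have b1 : Bd (𝓝[>] 0) (u 1) := by
    refine ((cz.mul (o1.isBigO_one ℝ)).add
      (Bd.of_cont (f := fun z : ℝ => a1 + 2 * a2 * z) (by fun_prop))).congr ?_
    filter_upwards [ne0] with z hz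
    field_simp; ring
  have A0 := h.at0 b0 (cz.mul b1)
  have A1 := h.at1 i0 i1
  have hb := h.bT hμ hq hΩ A0 A1
  have br := bd_rho hμ hq hΩ
  set M := Fm m1 m2 m3 Ω u 0 0 with hM
  set β := be (m1 + m2 + m3) Ω c with hβ
  have rM : ∀ m, al m1 (m + 2) * M m + β (m + 3) * M (m + 1) + ga m2 m3 (m + 4) * M (m + 2) = 0 := by
    intro m
    rw [← h.comb hb]
    refine h.green hb A1 (g := fun z => (z : ℂ) ^ (m + 2 + 1))
      (g1 := fun z => ((m + 2 + 1 : ℕ) : ℂ) * (z : ℂ) ^ (m + 2))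
      (g2 := fun z => ((m + 2 + 1 : ℕ) : ℂ) * (((m + 2 : ℕ) : ℂ) * (z : ℂ) ^ (m + 2 - 1)))
      (fun z => hd_pow _ z) (fun z => (hd_pow _ z).const_mul _) (by fun_prop) (fun z => ?_) ?_
    · rw [Lop_mono]; ring
    · have := (br.mul (((Bd.of_cont (f := fun _ => ((m + 2 + 1 : ℕ) : ℂ)) (by fun_prop)).mul
        b0).add (cz.mul b1).neg)).zero (t_zero m (fun z : ℝ => (1 - (z : ℂ)) ^ 2) (by fun_prop))
      exact this.congr fun z => by unfold Ac; ring
  set s := sq m1 m2 m3 Ω c with hs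
  have s0 : s 0 = 1 := rfl
  have q0 : al m3 0 * s 1 + β 0 * s 0 = 0 := by
    have : s 1 = -β 0 / al m3 0 := rfl
    rw [this, s0, mul_div_cancel₀ _ (al_ne h3 0)]; ring
  have qs : ∀ n, al m3 (n + 1) * s (n + 2) + β (n + 1) * s (n + 1) + ga m1 m2 (n + 1) * s n = 0 := by
    intro n
    have : s (n + 2) = -(β (n + 1) * s (n + 1) + ga m1 m2 (n + 1) * s n) / al m3 (n + 1) := rfl
    rw [this, mul_div_cancel₀ _ (al_ne h3 _)]; ring
  have q1 := qs 0
  have q2 := qs 1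
  have cas : (1 + m3) * (2 + m3) * (3 + m3) * (-3 * s 3 * M 0 + (3 + m2) * s 2 * M 1) = 0 := by
    obtain ⟨x0, hx0⟩ : ∃ x, x = (1 + m1) * (2 + m1) := ⟨_, rfl⟩
    obtain ⟨x1, hx1⟩ : ∃ x, x = s 1 * (1 + m3) * (2 + m1) := ⟨_, rfl⟩
    obtain ⟨x2, hx2⟩ : ∃ x, x = s 2 * (1 + m3) * (2 + m3) := ⟨_, rfl⟩
    have dz := hd_ofReal
    have key := h.green hb A1 (g := fun z => x0 + x1 * z + x2 * (z : ℂ) ^ 2)
      (g1 := fun z => x1 + 2 * x2 * z) (g2 := fun _ => 2 * x2)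
      (e := fun z => (β 2 * x2 + ga m2 m3 2 * x1) * (z : ℂ) ^ 0 +
        (ga m2 m3 3 * x2) * (z : ℂ) ^ (0 + 1) + 0 * (z : ℂ) ^ (0 + 2))
      (fun z => ((((dz z).const_mul x1).const_add x0).add
        (((dz z).pow 2).const_mul x2)).congr_deriv (by push_cast; ring))
      (fun z => (((dz z).const_mul (2 * x2)).const_add x1).congr_deriv (by ring))
      (by fun_prop) (fun z => by
        rw [s0] at q0 q1
        simp only [hβ, zero_add] at q0 q1 ⊢
        unfold Lop Ac Bc be ga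
        unfold al be at q0 q1
        unfold ga at q1
        rw [hx0, hx1, hx2]
        push_cast at q0 q1 ⊢
        linear_combination (1 + m1) * (2 + m1) * q0 + (2 + m1) * (1 + m3) * z * q1) (by
        have w0 : a0 * x1 - a1 * x0 = 0 := by
          rw [s0] at q0
          unfold al at q0 r0
          rw [hx0, hx1]
          push_cast at q0 r0
          linear_combination a0 * (2 + m1) * q0 - (2 + m1) * r0
        have w1 : a0 * x2 - a2 * x0 = 0 := by
          rw [s0] at q0 q1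
          simp only [zero_add] at q1
          unfold al at q0 q1 r0 r1
          unfold ga at q1 r1
          rw [hx0, hx2]
          push_cast at q0 q1 r0 r1
          linear_combination a0 * (1 + m3) / 2 * q1 - a0 * β 1 / 2 * q0 - (1 + m1) / 2 * r1 +
            β 1 / 2 * r0
        have p0 := (br.mul (Bd.of_cont (f := fun z : ℝ => (1 - (z : ℂ)) ^ 2 * (x1 + 2 * x2 * z))
          (by fun_prop))).zero o0
        have p1 := (br.mul (Bd.of_cont (f := fun z : ℝ =>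
          (1 - (z : ℂ)) ^ 2 * (x0 + x1 * z + x2 * (z : ℂ) ^ 2)) (by fun_prop))).zero o1
        have p2 := br.zero (t_zero 0 (fun z : ℝ => (1 - (z : ℂ)) ^ 2 *
          (a1 * x2 - 2 * a2 * x1 - 2 * a2 * x2 * z)) (by fun_prop))
        have p3 := (p0.sub p1).add p2
        rw [sub_zero, add_zero] at p3
        refine p3.congr' ?_
        filter_upwards [ne0] with z hz
        unfold Ac
        have e1 : u 0 z = a0 + a1 * z + z * ((u 0 z - a0 - a1 * z) / z) := by field_simp; ring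
        have e2 : u 1 z = a1 + 2 * a2 * z + z * ((u 1 z - a1 - 2 * a2 * z) / z) := by
          field_simp; ring
        generalize (u 0 z - a0 - a1 * z) / z = v0 at e1 ⊢
        generalize (u 1 z - a1 - 2 * a2 * z) / z = v1 at e2 ⊢
        rw [e1, e2]
        linear_combination (-(rho m1 (m2 + m3 - m1) Ω z * z * (1 - z) ^ 2)) * w0 -
          2 * rho m1 (m2 + m3 - m1) Ω z * z ^ 2 * (1 - z) ^ 2 * w1)
    rw [h.comb hb, hx1, hx2, ← hM] at key
    simp only [zero_add, Nat.reduceAdd] at key q2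
    unfold al ga at q2
    unfold ga at key
    push_cast at q2 key
    linear_combination key - (1 + m3) * (2 + m3) * M 0 * q2
  set t : ℕ → ℂ := fun m => M m * hh m2 (m + 2) with ht
  have hn : ∀ n : ℕ, (n : ℂ) + 1 ≠ 0 := fun n => by exact_mod_cast Nat.succ_ne_zero n
  have hs' : ∀ n : ℕ, ((n : ℂ) + 1) * hh m2 (n + 1) = hh m2 n * (n + 1 + m2) := fun n => by
    rw [hh]; field_simp [hn n]
  have rt : ∀ m, al m3 (m + 3) * t (m + 2) + β (m + 3) * t (m + 1) + ga m1 m2 (m + 3) * t m = 0 := by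
    intro m
    have e1 := hs' (m + 2)
    have e2 := hs' (m + 3)
    have e3 := rM m
    simp only [ht]
    unfold al ga at *
    push_cast at e1 e2 e3 ⊢
    linear_combination hh m2 (m + 3) * e3 + (m + 4 + m3) * M (m + 2) * e2 -
      (m + 3 + m1) * M m * e1
  have c0 : s 3 * t 0 = s 2 * t 1 := by
    have e1 := hs' 2
    have n1 := nat_ne h3 0
    have n2 := nat_ne h3 1
    have n3 := nat_ne h3 2
    push_cast at e1 n1 n2 n3
    have : -3 * s 3 * M 0 + (3 + m2) * s 2 * M 1 = 0 := by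
      refine (mul_eq_zero.1 cas).resolve_left (mul_ne_zero (mul_ne_zero ?_ ?_) ?_)
      · simpa using n1
      · intro e; exact n2 (by linear_combination e)
      · intro e; exact n3 (by linear_combination e)
    simp only [ht, zero_add, Nat.reduceAdd]
    linear_combination (-hh m2 2 / 3) * this - s 2 * M 1 / 3 * e1
  have two : ∀ l : ℂ, ∀ x : ℕ → ℂ, (∀ m, al m3 (m + 3) * x (m + 2) + β (m + 3) * x (m + 1) +
      ga m1 m2 (m + 3) * x m = 0) → x 0 = l * t 0 → x 1 = l * t 1 → ∀ m, x m = l * t m := by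
    intro l x hx e0 e1 m
    have : ∀ m, x m = l * t m ∧ x (m + 1) = l * t (m + 1) := by
      intro m
      induction m with
      | zero => exact ⟨e0, e1⟩
      | succ m ih =>
        refine ⟨ih.2, mul_left_cancel₀ (al_ne h3 (m + 3)) ?_⟩
        linear_combination hx m - l * rt m - β (m + 3) * ih.2 - ga m1 m2 (m + 3) * ih.1
    exact (this m).1
  have no : ∀ l : ℂ, s 2 = l * t 0 → s 3 = l * t 1 → False := by
    intro l e0 e1
    have e := two l (fun m => s (m + 2)) (fun m => qs (m + 2)) e0 e1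
    have hr : Rap s := fun D => unshift (unshift
      ((((h.rap hΩ' hb).hh m2 D).const_mul_left l).congr_left fun m => (e m).symm))
    exact one_ne_zero (hN s hr q0 qs)
  have t0 : t 0 = 0 := by
    by_contra hne
    exact no (s 2 / t 0) (by field_simp) (by field_simp; linear_combination c0)
  have t1 : t 1 = 0 := by
    by_contra hne
    exact no (s 3 / t 1) (by field_simp; linear_combination -c0) (by field_simp)
  have hhne : ∀ n, hh m2 n ≠ 0 := by
    intro n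
    induction n with
    | zero => simp [hh]
    | succ n ih => rw [hh]; exact mul_ne_zero ih (div_ne_zero (nat_ne h2 n) (hn n))
  have M0 : ∀ m, M m = 0 := fun m => by
    have := two 0 t rt (by rw [t0, mul_zero]) (by rw [t1, mul_zero]) m
    rw [zero_mul] at this
    exact (mul_eq_zero.1 this).resolve_right (hhne _)
  intro z hz
  have := mom_zero (h.cT 0) (hb 0) M0 z hz
  have h0 : (z : ℂ) ≠ 0 := by exact_mod_cast hz.1.ne'
  unfold Tk at this
  simpa [rho_ne, h0] using this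

end P354MS
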