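import Vale.Agent.P354MS.Swap

/-! Mode stability, part 3: all derivatives of a solution, the weight, growth at both ends. -/

namespace P354MS
open Complex Set Filter Topology Asymptotics

def Dk (m2 m3 : ℂ) (k : ℕ) : ℂ := k * ga m2 m3 k
def Ck (m1 m2 m3 Ω c : ℂ) (k : ℕ) (z : ℝ) : ℂ :=
  be (m1 + m2 + m3) Ω c k + (Dk m2 m3 (k + 1) - Dk m2 m3 k) * z
def Bk (m1 m2 m3 Ω : ℂ) (k : ℕ) (z : ℝ) : ℂ := Bc (m1 + k) (m2 + m3 - m1 + 2 * k) Ω z

/-- `u k` is the `k`-th derivative of a solution on `(0,1)`. -/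
structure Fam (m1 m2 m3 Ω c : ℂ) (u : ℕ → ℝ → ℂ) : Prop where
  d : ∀ k, ∀ z ∈ Ioo (0 : ℝ) 1, HasDerivAt (u k) (u (k + 1) z) z
  e : ∀ k, ∀ z ∈ Ioo (0 : ℝ) 1, Ac z * u (k + 2) z + Bk m1 m2 m3 Ω k z * u (k + 1) z +
    Ck m1 m2 m3 Ω c k z * u k z + Dk m2 m3 k * u (k - 1) z = 0

theorem Ac_ne {z : ℝ} (hz : z ∈ Ioo (0 : ℝ) 1) : Ac z ≠ 0 := by
  have h0 : (z : ℂ) ≠ 0 := by exact_mod_cast hz.1.ne'
  have h1 : (1 - z : ℂ) ≠ 0 := by exact_mod_cast (sub_pos.2 hz.2).ne'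
  unfold Ac
  positivity

theorem hd_Ac (z : ℝ) : HasDerivAt Ac ((1 - z) ^ 2 - 2 * z * (1 - z)) z := by
  have dz := hd_ofReal z
  unfold Ac
  refine (dz.mul ((dz.const_sub 1).pow 2)).congr_deriv ?_
  simp only [Pi.pow_apply]
  push_cast
  ring

theorem hd_Bc (μ q Ω : ℂ) (z : ℝ) : HasDerivAt (Bc μ q Ω)
    (-2 * (1 + μ) * (1 - z) - (2 + q) * (1 - 2 * z) + I * Ω) z := by
  have dz := hd_ofReal z
  unfold Bc
  refine (((((dz.const_sub 1).pow 2).const_mul (1 + μ)).sub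
    ((dz.const_mul (2 + q)).mul (dz.const_sub 1))).add (dz.const_mul (I * Ω))).congr_deriv ?_
  push_cast
  ring

theorem hd_Ck (m1 m2 m3 Ω c : ℂ) (k : ℕ) (z : ℝ) :
    HasDerivAt (Ck m1 m2 m3 Ω c k) (Dk m2 m3 (k + 1) - Dk m2 m3 k) z := by
  unfold Ck
  exact (((hd_ofReal z).const_mul _).const_add _).congr_deriv (mul_one _)

theorem exists_fam {m1 m2 m3 Ω c : ℂ} {y y1 y2 : ℝ → ℂ}
    (h : ∀ z ∈ Ioo (0 : ℝ) 1, HasDerivAt y (y1 z) z ∧ HasDerivAt y1 (y2 z) z ∧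
      Lop m1 m2 m3 Ω c z (y z) (y1 z) (y2 z) = 0) :
    ∃ u, Fam m1 m2 m3 Ω c u ∧ u 0 = y ∧ ∀ z ∈ Ioo (0 : ℝ) 1, u 1 z = y1 z ∧ u 2 z = y2 z := by
  set u : ℕ → ℝ → ℂ := fun k => deriv^[k] y with hu
  have us : ∀ k, u (k + 1) = deriv (u k) := fun k => Function.iterate_succ_apply' _ _ _
  have u0 : u 0 = y := rfl
  have u1 : ∀ z ∈ Ioo (0 : ℝ) 1, u 1 z = y1 z := fun z hz => by
    rw [us, u0]; exact (h z hz).1.deriv
  have d1 : ∀ z ∈ Ioo (0 : ℝ) 1, HasDerivAt (u 1) (y2 z) z := fun z hz =>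
    (h z hz).2.1.congr_of_eventuallyEq (by
      filter_upwards [isOpen_Ioo.mem_nhds hz] with t ht using u1 t ht)
  have u2 : ∀ z ∈ Ioo (0 : ℝ) 1, u 2 z = y2 z := fun z hz => by
    rw [us]; exact (d1 z hz).deriv
  have key : ∀ k, (∀ j ≤ k + 1, ∀ z ∈ Ioo (0 : ℝ) 1, HasDerivAt (u j) (u (j + 1) z) z) ∧
      ∀ z ∈ Ioo (0 : ℝ) 1, Ac z * u (k + 2) z + Bk m1 m2 m3 Ω k z * u (k + 1) z +
        Ck m1 m2 m3 Ω c k z * u k z + Dk m2 m3 k * u (k - 1) z = 0 := by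
    intro k
    induction k with
    | zero =>
      refine ⟨fun j hj z hz => ?_, fun z hz => ?_⟩
      · interval_cases j
        · rw [u0, zero_add, u1 z hz]; exact (h z hz).1
        · rw [u2 z hz]; exact d1 z hz
      · have := (h z hz).2.2
        rw [zero_add, u2 z hz, zero_add, u1 z hz, u0]
        unfold Lop at this
        unfold Bk Ck Dk be ga
        push_cast
        simp only [add_zero, mul_zero]
        linear_combination this
    | succ k ih =>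
      obtain ⟨hd, he⟩ := ih
      have hk : ∀ z ∈ Ioo (0 : ℝ) 1, HasDerivAt (u (k + 2)) (u (k + 3) z) z := by
        intro z hz
        have h3 : DifferentiableAt ℝ (fun z => -(Bk m1 m2 m3 Ω k z * u (k + 1) z +
            Ck m1 m2 m3 Ω c k z * u k z + Dk m2 m3 k * u (k - 1) z) / Ac z) z :=
          (((((hd_Bc _ _ _ z).mul (hd _ le_rfl z hz)).add
            ((hd_Ck _ _ _ _ _ k z).mul (hd _ (Nat.le_succ k) z hz))).add
            ((hd _ (by omega) z hz).const_mul _)).neg.div (hd_Ac z) (Ac_ne hz)).differentiableAt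
        have h4 : DifferentiableAt ℝ (u (k + 2)) z := by
          refine h3.congr_of_eventuallyEq ?_
          filter_upwards [isOpen_Ioo.mem_nhds hz] with t ht
          rw [eq_div_iff (Ac_ne ht)]
          linear_combination he t ht
        rw [us (k + 2)]
        exact h4.hasDerivAt
      refine ⟨fun j hj z hz => ?_, fun z hz => ?_⟩
      · rcases Nat.lt_or_ge j (k + 2) with h5 | h5
        · exact hd j (by omega) z hz
        · obtain rfl : j = k + 2 := by omega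
          exact hk z hz
      · have h5 := ((((hd_Ac z).mul (hk z hz)).add ((hd_Bc (m1 + k) (m2 + m3 - m1 + 2 * k) Ω z).mul
          (hd _ le_rfl z hz))).add ((hd_Ck m1 m2 m3 Ω c k z).mul
          (hd _ (Nat.le_succ k) z hz))).add ((hd (k - 1) (by omega) z hz).const_mul (Dk m2 m3 k))
        have h6 : HasDerivAt (fun _ : ℝ => (0 : ℂ)) _ z := h5.congr_of_eventuallyEq (by
          filter_upwards [isOpen_Ioo.mem_nhds hz] with t ht using (he t ht).symm)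
        have h7 := h6.unique (hasDerivAt_const z 0)
        have h8 : Dk m2 m3 k * u (k - 1 + 1) z = Dk m2 m3 k * u k z := by
          cases k with
          | zero => simp [Dk]
          | succ k => rfl
        rw [h8] at h7
        simp only [Nat.add_sub_cancel]
        unfold Bk Bc Ck be Dk ga at *
        push_cast at h7 ⊢
        linear_combination h7
  exact ⟨u, ⟨fun k => (key k).1 k (Nat.le_succ k), fun k => (key k).2⟩, u0,
    fun z hz => ⟨u1 z hz, u2 z hz⟩⟩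

/-- The symmetrising weight `z^μ (1-z)^q exp (i Ω / (1-z))`. -/
noncomputable def rho (μ q Ω : ℂ) (z : ℝ) : ℂ :=
  cexp (μ * (Real.log z : ℝ) + q * (Real.log (1 - z) : ℝ) + I * Ω * ((1 - z)⁻¹ : ℝ))

theorem rho_ne (μ q Ω : ℂ) (z : ℝ) : rho μ q Ω z ≠ 0 := Complex.exp_ne_zero _

theorem norm_rho (μ q Ω : ℂ) (z : ℝ) : ‖rho μ q Ω z‖ =
    Real.exp (μ.re * Real.log z + q.re * Real.log (1 - z) - Ω.im * (1 - z)⁻¹) := by
  unfold rho
  rw [Complex.norm_exp]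
  generalize Real.log z = a
  generalize Real.log (1 - z) = b
  generalize (1 - z)⁻¹ = d
  simp
  ring

theorem hd_rho (μ q Ω : ℂ) {z : ℝ} (hz : z ∈ Ioo (0 : ℝ) 1) : ∃ r : ℂ,
    HasDerivAt (rho μ q Ω) (rho μ q Ω z * r) z ∧
      Ac z * r = μ * (1 - z) ^ 2 - q * z * (1 - z) + I * Ω * z := by
  have hz0 : z ≠ 0 := hz.1.ne'
  have hz1 : (1 - z) ≠ 0 := (sub_pos.2 hz.2).ne'
  have h := ((((Real.hasDerivAt_log hz0).ofReal_comp.const_mul μ).add
    ((((hasDerivAt_id z).const_sub 1).log hz1).ofReal_comp.const_mul q)).add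
    ((((hasDerivAt_id z).const_sub 1).inv hz1).ofReal_comp.const_mul (I * Ω))).cexp
  refine ⟨_, h, ?_⟩
  have h0 : (z : ℂ) ≠ 0 := by exact_mod_cast hz0
  have h1 : (1 - z : ℂ) ≠ 0 := by exact_mod_cast hz1
  unfold Ac
  simp only [id]
  push_cast
  field_simp
  ring

theorem rho_sq_le {μ q Ω : ℂ} (hμ : -2 ≤ μ.re) (hq : 0 ≤ q.re) (hΩ : 0 ≤ Ω.im) {z : ℝ}
    (hz : z ∈ Ioo (0 : ℝ) 1) : ‖rho μ q Ω z * (z : ℂ) ^ 2‖ ≤ 1 := by
  rw [norm_mul, norm_rho, norm_pow, Complex.norm_real, Real.norm_of_nonneg hz.1.le]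
  have e : z ^ 2 = Real.exp (2 * Real.log z) := by
    rw [show (2 : ℝ) * Real.log z = Real.log z + Real.log z by ring, Real.exp_add,
      Real.exp_log hz.1, sq]
  rw [e, ← Real.exp_add, Real.exp_le_one_iff]
  have l1 := Real.log_nonpos hz.1.le hz.2.le
  have l2 := Real.log_nonpos (sub_pos.2 hz.2).le (by linarith [hz.1])
  have l3 : 0 ≤ (1 - z)⁻¹ := inv_nonneg.2 (sub_pos.2 hz.2).le
  nlinarith [mul_nonneg (show 0 ≤ μ.re + 2 by linarith) (neg_nonneg.2 l1),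
    mul_nonneg hq (neg_nonneg.2 l2), mul_nonneg hΩ l3]

/-- Bounded along a filter. -/
def Bd (l : Filter ℝ) (f : ℝ → ℂ) : Prop := f =O[l] fun _ => (1 : ℝ)

theorem Bd.mul {l : Filter ℝ} {f g : ℝ → ℂ} (hf : Bd l f) (hg : Bd l g) :
    Bd l fun z => f z * g z := by
  have := IsBigO.mul hf hg
  simpa [Bd] using this

theorem Bd.add {l : Filter ℝ} {f g : ℝ → ℂ} (hf : Bd l f) (hg : Bd l g) :
    Bd l fun z => f z + g z := IsBigO.add hf hg

theorem Bd.neg {l : Filter ℝ} {f : ℝ → ℂ} (hf : Bd l f) : Bd l fun z => -f z :=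
  IsBigO.neg_left hf

theorem Bd.congr {l : Filter ℝ} {f g : ℝ → ℂ} (hf : Bd l f) (h : f =ᶠ[l] g) : Bd l g :=
  IsBigO.congr' hf h EventuallyEq.rfl

theorem Bd.of_cont {s : Set ℝ} {x : ℝ} {f : ℝ → ℂ} (hf : ContinuousAt f x) : Bd (𝓝[s] x) f :=
  (hf.tendsto.mono_left nhdsWithin_le_nhds).isBigO_one ℝ

theorem Bd.zero {l : Filter ℝ} {f g : ℝ → ℂ} (hf : Bd l f) (hg : Tendsto g l (𝓝 0)) :
    Tendsto (fun z => g z * f z) l (𝓝 0) := by
  have := ((isLittleO_one_iff ℝ).2 hg).mul_isBigO hf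
  simp only [mul_one] at this
  exact (isLittleO_one_iff ℝ).1 this

theorem bd_Ioo {f : ℝ → ℂ} (hc : ContinuousOn f (Ioo 0 1)) (h0 : Bd (𝓝[>] 0) f)
    (h1 : Bd (𝓝[<] 1) f) : ∃ C, ∀ z ∈ Ioo (0 : ℝ) 1, ‖f z‖ ≤ C := by
  obtain ⟨C0, h0⟩ := h0.bound
  obtain ⟨C1, h1⟩ := h1.bound
  obtain ⟨a, ha, h0⟩ := (mem_nhdsGT_iff_exists_Ioo_subset).1 h0
  obtain ⟨b, hb, h1⟩ := (mem_nhdsLT_iff_exists_Ioo_subset).1 h1
  obtain ⟨C2, h2⟩ := (isCompact_Icc (a := a) (b := b)).exists_bound_of_continuousOn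
    (hc.mono fun z hz => ⟨lt_of_lt_of_le ha hz.1, lt_of_le_of_lt hz.2 hb⟩)
  refine ⟨max C0 (max C1 C2), fun z hz => ?_⟩
  rcases lt_or_ge z a with h | h
  · have := h0 ⟨hz.1, h⟩
    simp only [mem_ofPred_eq, norm_one, mul_one] at this
    exact this.trans (le_max_left _ _)
  · rcases lt_or_ge b z with h' | h'
    · have := h1 ⟨h', hz.2⟩
      simp only [mem_ofPred_eq, norm_one, mul_one] at this
      exact this.trans ((le_max_left _ _).trans (le_max_right _ _))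
    · exact (h2 z ⟨h, h'⟩).trans ((le_max_right _ _).trans (le_max_right _ _))

theorem int1 {f g : ℝ → ℂ} {k : ℕ}
    (hd : ∀ z ∈ Ioo (0 : ℝ) 1, HasDerivAt f ((1 - (z : ℂ)) ^ k * g z) z) (hg : Bd (𝓝[<] 1) g)
    (hf : ∀ δ > 0, ∃ᶠ z in 𝓝[<] (1 : ℝ), ‖f z‖ ≤ δ) :
    Bd (𝓝[<] 1) fun z => f z / (1 - (z : ℂ)) ^ (k + 1) := by
  obtain ⟨C, hC0, hC⟩ := hg.exists_nonneg
  obtain ⟨b, hb, h1⟩ := (mem_nhdsLT_iff_exists_Ioo_subset).1 hC.bound
  refine IsBigO.of_bound C ?_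
  filter_upwards [Ioo_mem_nhdsLT hb, Ioo_mem_nhdsLT zero_lt_one] with x hx hx'
  have hn : ∀ t : ℝ, t < 1 → ‖(1 - t : ℂ)‖ = 1 - t := fun t ht => by
    rw [show (1 - t : ℂ) = ((1 - t : ℝ) : ℂ) by push_cast; ring, Complex.norm_real,
      Real.norm_of_nonneg (sub_pos.2 ht).le]
  have hp : 0 < 1 - x := sub_pos.2 hx.2
  rw [norm_div, norm_pow, hn x hx.2, norm_one, mul_one, div_le_iff₀ (pow_pos hp _)]
  refine le_of_forall_pos_le_add fun δ hδ => ?_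
  obtain ⟨t, ht, ht'⟩ := ((hf δ hδ).and_eventually (Ioo_mem_nhdsLT hx.2)).exists
  have hm := Convex.norm_image_sub_le_of_norm_hasDerivWithin_le (s := Icc x t)
    (C := (1 - x) ^ k * C) (f := f) (f' := fun z => (1 - (z : ℂ)) ^ k * g z)
    (fun z hz => (hd z ⟨hx'.1.trans_le hz.1, hz.2.trans_lt ht'.2⟩).hasDerivWithinAt)
    (fun z hz => by
      have h2 := h1 ⟨hx.1.trans_le hz.1, hz.2.trans_lt ht'.2⟩
      simp only [mem_ofPred_eq, norm_one, mul_one] at h2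
      have h3 : 0 < 1 - z := sub_pos.2 (hz.2.trans_lt ht'.2)
      rw [norm_mul, norm_pow, hn z (hz.2.trans_lt ht'.2)]
      gcongr
      exact hz.1)
    (convex_Icc _ _) (right_mem_Icc.2 ht'.1.le) (left_mem_Icc.2 ht'.1.le)
  have h4 : ‖x - t‖ ≤ 1 - x := by
    rw [Real.norm_eq_abs, abs_le]; constructor <;> linarith [ht'.1, ht'.2]
  have h5 : (1 - x) ^ k * C * ‖x - t‖ ≤ C * (1 - x) ^ (k + 1) := by
    calc _ ≤ (1 - x) ^ k * C * (1 - x) := by gcongr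
      _ = _ := by ring
  linarith [norm_le_norm_add_norm_sub' (f x) (f t)]

end P354MS
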