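import Vale.Agent.P354MS.Der

/-! Mode stability, part 4: moments of an outgoing solution decrease rapidly. -/

namespace P354MS
open Complex Set Filter Topology Asymptotics MeasureTheory

variable {m1 m2 m3 Ω c : ℂ} {u : ℕ → ℝ → ℂ}

theorem ca_Bk (k : ℕ) (x : ℝ) : ContinuousAt (Bk m1 m2 m3 Ω k) x := (hd_Bc _ _ _ x).continuousAt
theorem ca_Ck (k : ℕ) (x : ℝ) : ContinuousAt (Ck m1 m2 m3 Ω c k) x :=
  (hd_Ck _ _ _ _ _ k x).continuousAt

theorem Ac_pow (z : ℝ) (k : ℕ) : Ac z ^ k = (z : ℂ) ^ k * (1 - z) ^ k * (1 - z) ^ k := by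
  unfold Ac
  rw [← mul_pow, ← mul_pow, sq, mul_assoc]

theorem t_one (k : ℕ) (g : ℝ → ℂ) (hg : ContinuousAt g 1) :
    Tendsto (fun z : ℝ => g z * (1 - (z : ℂ)) ^ (k + 1)) (𝓝[<] 1) (𝓝 0) := by
  have h : ContinuousAt (fun z : ℝ => g z * (1 - (z : ℂ)) ^ (k + 1)) 1 :=
    hg.mul (by fun_prop)
  simpa using h.tendsto.mono_left (nhdsWithin_le_nhds (s := Iio 1))

theorem t_zero (k : ℕ) (g : ℝ → ℂ) (hg : ContinuousAt g 0) :
    Tendsto (fun z : ℝ => g z * (z : ℂ) ^ (k + 1)) (𝓝[>] 0) (𝓝 0) := by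
  have h : ContinuousAt (fun z : ℝ => g z * (z : ℂ) ^ (k + 1)) 0 :=
    hg.mul (by fun_prop)
  simpa using h.tendsto.mono_left (nhdsWithin_le_nhds (s := Ioi 0))

theorem Fam.hd_phi (h : Fam m1 m2 m3 Ω c u) (k : ℕ) {z : ℝ} (hz : z ∈ Ioo (0 : ℝ) 1) :
    HasDerivAt (fun z => rho m1 (m2 + m3 - m1) Ω z * Ac z ^ (k + 1) * u (k + 1) z)
      (-(rho m1 (m2 + m3 - m1) Ω z * Ac z ^ k *
        (Ck m1 m2 m3 Ω c k z * u k z + Dk m2 m3 k * u (k - 1) z))) z := by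
  obtain ⟨r, hr, hr'⟩ := hd_rho m1 (m2 + m3 - m1) Ω hz
  refine ((hr.mul ((hd_Ac z).pow (k + 1))).mul (h.d (k + 1) z hz)).congr_deriv ?_
  have he := h.e k z hz
  simp only [Pi.mul_apply, Pi.pow_apply, Nat.add_sub_cancel]
  unfold Bk Bc at he
  push_cast
  linear_combination rho m1 (m2 + m3 - m1) Ω z * Ac z ^ k * he +
    rho m1 (m2 + m3 - m1) Ω z * Ac z ^ k * u (k + 1) z * hr'

theorem Fam.at1 (h : Fam m1 m2 m3 Ω c u)
    (h0 : Bd (𝓝[<] 1) fun z => rho m1 (m2 + m3 - m1) Ω z * u 0 z)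
    (h1 : ∀ δ > 0, ∃ᶠ z in 𝓝[<] (1 : ℝ), ‖rho m1 (m2 + m3 - m1) Ω z * Ac z * u 1 z‖ ≤ δ)
    (k : ℕ) : Bd (𝓝[<] 1) fun z => rho m1 (m2 + m3 - m1) Ω z * (1 - (z : ℂ)) ^ k * u k z := by
  set ρ := rho m1 (m2 + m3 - m1) Ω with hρ
  set P : ℕ → Prop := fun k => Bd (𝓝[<] 1) fun z => ρ z * (1 - (z : ℂ)) ^ k * u k z with hP
  have hD : ∀ k, P (k - 1) →
      Bd (𝓝[<] 1) fun z => Dk m2 m3 k * (ρ z * (1 - (z : ℂ)) ^ k * u (k - 1) z) := by
    intro k hk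
    cases k with
    | zero => simpa [Dk] using Bd.of_cont (f := fun _ => 0) continuousAt_const
    | succ k =>
      refine ((Bd.of_cont (f := fun z : ℝ => Dk m2 m3 (k + 1) * (1 - (z : ℂ)))
        (by fun_prop)).mul hk).congr (Eventually.of_forall fun z => ?_)
      simp only [Nat.add_sub_cancel]; ring
  have step : ∀ k, P k → P (k - 1) → (∀ δ > 0, ∃ᶠ z in 𝓝[<] (1 : ℝ),
      ‖ρ z * Ac z ^ (k + 1) * u (k + 1) z‖ ≤ δ) → P (k + 1) := by
    intro k hk hk' hf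
    have b := ((Bd.of_cont (f := fun z : ℝ => (z : ℂ) ^ k) (by fun_prop)).mul
      (((Bd.of_cont (ca_Ck (m1 := m1) (m2 := m2) (m3 := m3) (Ω := Ω) (c := c) k 1)).mul hk).add
        (hD k hk'))).neg
    have i := int1 (k := k) (fun z hz => (h.hd_phi k hz).congr_deriv (by rw [Ac_pow, ← hρ]; ring)) b hf
    have cz : ContinuousAt (fun z : ℝ => ((z : ℂ) ^ (k + 1))⁻¹) 1 :=
      ContinuousAt.inv₀ (by fun_prop) (by simp)
    refine ((Bd.of_cont cz).mul i).congr ?_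
    filter_upwards [Ioo_mem_nhdsLT zero_lt_one] with z hz
    have h0 : (z : ℂ) ≠ 0 := by exact_mod_cast hz.1.ne'
    have h1 : (1 - z : ℂ) ≠ 0 := by exact_mod_cast (sub_pos.2 hz.2).ne'
    rw [Ac_pow, ← hρ]
    field_simp
  have van : ∀ k, P (k + 1) → P k → P (k - 1) → ∀ δ > 0, ∃ᶠ z in 𝓝[<] (1 : ℝ),
      ‖ρ z * Ac z ^ (k + 1 + 1) * u (k + 1 + 1) z‖ ≤ δ := by
    intro k a1 a2 a3 δ hδ
    have b := (((Bd.of_cont (ca_Bk (m1 := m1) (m2 := m2) (m3 := m3) (Ω := Ω) k 1)).mul a1).add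
      ((Bd.of_cont (f := fun z : ℝ => (1 - (z : ℂ))) (by fun_prop)).mul
      (((Bd.of_cont (ca_Ck (m1 := m1) (m2 := m2) (m3 := m3) (Ω := Ω) (c := c) k 1)).mul a2).add
        (hD k a3)))).neg
    have t := b.zero (t_one k (fun z : ℝ => (z : ℂ) ^ (k + 1)) (by fun_prop))
    have t' : Tendsto (fun z => ρ z * Ac z ^ (k + 1 + 1) * u (k + 1 + 1) z) (𝓝[<] 1) (𝓝 0) := by
      refine t.congr' ?_
      filter_upwards [Ioo_mem_nhdsLT zero_lt_one] with z hz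
      have he := h.e k z hz
      rw [pow_succ (Ac z) (k + 1), Ac_pow]
      linear_combination (-(ρ z * (z : ℂ) ^ (k + 1) * (1 - z) ^ (k + 1) * (1 - z) ^ (k + 1))) * he
    have := (NormedAddGroup.tendsto_nhds_zero.1 t') δ hδ
    exact (this.mono fun z hz => hz.le).frequently
  have p0 : P 0 := by simpa [hP] using h0
  have all : ∀ k, P (k - 1) ∧ P k ∧ P (k + 1) := by
    intro k
    induction k with
    | zero => exact ⟨p0, p0, step 0 p0 p0 (by simpa using h1)⟩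
    | succ k ih => exact ⟨ih.2.1, ih.2.2, step (k + 1) ih.2.2 ih.2.1 (van k ih.2.2 ih.2.1 ih.1)⟩
  exact (all k).2.1

theorem Fam.at0 (h : Fam m1 m2 m3 Ω c u) (h0 : Bd (𝓝[>] 0) (u 0))
    (h1 : Bd (𝓝[>] 0) fun z => (z : ℂ) * u 1 z) (k : ℕ) :
    Bd (𝓝[>] 0) fun z => (z : ℂ) ^ k * u k z := by
  set P : ℕ → Prop := fun k => Bd (𝓝[>] 0) fun z => (z : ℂ) ^ k * u k z with hP
  have hD : ∀ k, P (k - 1) →
      Bd (𝓝[>] 0) fun z => Dk m2 m3 k * ((z : ℂ) ^ k * u (k - 1) z) := by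
    intro k hk
    cases k with
    | zero => simpa [Dk] using Bd.of_cont (f := fun _ => 0) continuousAt_const
    | succ k =>
      refine ((Bd.of_cont (f := fun z : ℝ => Dk m2 m3 (k + 1) * (z : ℂ))
        (by fun_prop)).mul hk).congr (Eventually.of_forall fun z => ?_)
      simp only [Nat.add_sub_cancel]; ring
  have step : ∀ k, P (k + 1) → P k → P (k - 1) → P (k + 2) := by
    intro k a1 a2 a3
    have cz : ContinuousAt (fun z : ℝ => ((1 - (z : ℂ)) ^ 2)⁻¹) 0 :=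
      ContinuousAt.inv₀ (by fun_prop) (by simp)
    have b := (Bd.of_cont cz).mul
      (((Bd.of_cont (ca_Bk (m1 := m1) (m2 := m2) (m3 := m3) (Ω := Ω) k 0)).mul a1).add
      ((Bd.of_cont (f := fun z : ℝ => (z : ℂ)) (by fun_prop)).mul
      (((Bd.of_cont (ca_Ck (m1 := m1) (m2 := m2) (m3 := m3) (Ω := Ω) (c := c) k 0)).mul a2).add
        (hD k a3)))).neg
    refine b.congr ?_
    filter_upwards [Ioo_mem_nhdsGT zero_lt_one] with z hz
    have h1 : (1 - z : ℂ) ≠ 0 := by exact_mod_cast (sub_pos.2 hz.2).ne'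
    have he := h.e k z hz
    unfold Ac at he
    rw [inv_mul_eq_iff_eq_mul₀ (pow_ne_zero 2 h1)]
    linear_combination (-(z : ℂ) ^ (k + 1)) * he
  have p0 : P 0 := by simpa [hP] using h0
  have all : ∀ k, P (k - 1) ∧ P k ∧ P (k + 1) := by
    intro k
    induction k with
    | zero => exact ⟨p0, p0, by simpa [hP] using h1⟩
    | succ k ih => exact ⟨ih.2.1, ih.2.2, step k ih.2.2 ih.2.1 ih.1⟩
  exact (all k).2.1

/-- The weighted `k`-th derivative. -/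
noncomputable def Tk (m1 m2 m3 Ω : ℂ) (u : ℕ → ℝ → ℂ) (k : ℕ) (z : ℝ) : ℂ :=
  rho m1 (m2 + m3 - m1) Ω z * (z : ℂ) ^ (k + 2) * (1 - (z : ℂ)) ^ k * u k z

theorem Fam.cT (h : Fam m1 m2 m3 Ω c u) (k : ℕ) :
    ContinuousOn (Tk m1 m2 m3 Ω u k) (Ioo 0 1) := by
  intro z hz
  obtain ⟨r, hr, -⟩ := hd_rho m1 (m2 + m3 - m1) Ω hz
  exact (((hr.continuousAt.mul (by fun_prop)).mul (by fun_prop)).mul
    (h.d k z hz).continuousAt).continuousWithinAt

theorem bd_rho (hμ : -2 ≤ m1.re) (hq : 0 ≤ (m2 + m3 - m1).re) (hΩ : 0 ≤ Ω.im) :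
    Bd (𝓝[>] 0) fun z => rho m1 (m2 + m3 - m1) Ω z * (z : ℂ) ^ 2 := by
  refine IsBigO.of_bound 1 ?_
  filter_upwards [Ioo_mem_nhdsGT zero_lt_one] with z hz
  rw [norm_one, mul_one]
  exact rho_sq_le hμ hq hΩ hz

theorem Fam.bT (h : Fam m1 m2 m3 Ω c u) (hμ : -2 ≤ m1.re) (hq : 0 ≤ (m2 + m3 - m1).re)
    (hΩ : 0 ≤ Ω.im) (a0 : ∀ k, Bd (𝓝[>] 0) fun z => (z : ℂ) ^ k * u k z)
    (a1 : ∀ k, Bd (𝓝[<] 1) fun z => rho m1 (m2 + m3 - m1) Ω z * (1 - (z : ℂ)) ^ k * u k z)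
    (k : ℕ) : ∃ C, ∀ z ∈ Ioo (0 : ℝ) 1, ‖Tk m1 m2 m3 Ω u k z‖ ≤ C := by
  refine bd_Ioo (h.cT k) ?_ ?_
  · refine (((bd_rho hμ hq hΩ).mul (a0 k)).mul (Bd.of_cont (f := fun z : ℝ => (1 - (z : ℂ)) ^ k)
      (by fun_prop))).congr (Eventually.of_forall fun z => ?_)
    unfold Tk; ring
  · refine ((a1 k).mul (Bd.of_cont (f := fun z : ℝ => (z : ℂ) ^ (k + 2))
      (by fun_prop))).congr (Eventually.of_forall fun z => ?_)
    unfold Tk; ring

theorem ii_of_bd {f g : ℝ → ℂ} (hc : ContinuousOn f (Ioo 0 1))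
    (hb : ∃ C, ∀ z ∈ Ioo (0 : ℝ) 1, ‖f z‖ ≤ C) (hg : Continuous g) :
    IntervalIntegrable (fun z => f z * g z) volume 0 1 := by
  obtain ⟨C, hC⟩ := hb
  refine IntervalIntegrable.mul_continuousOn ?_ hg.continuousOn
  rw [intervalIntegrable_iff_integrableOn_Ioo_of_le zero_le_one]
  refine IntegrableOn.of_bound (by simp) (hc.aestronglyMeasurable measurableSet_Ioo) C ?_
  exact (ae_restrict_mem measurableSet_Ioo).mono hC

theorem bd_of_bd {f : ℝ → ℂ} (hb : ∃ C, ∀ z ∈ Ioo (0 : ℝ) 1, ‖f z‖ ≤ C) :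
    Bd (𝓝[>] 0) f ∧ Bd (𝓝[<] 1) f := by
  obtain ⟨C, hC⟩ := hb
  constructor <;> refine IsBigO.of_bound C ?_
  · filter_upwards [Ioo_mem_nhdsGT zero_lt_one] with z hz
    simpa using hC z hz
  · filter_upwards [Ioo_mem_nhdsLT zero_lt_one] with z hz
    simpa using hC z hz

/-- Moments. -/
noncomputable def Fm (m1 m2 m3 Ω : ℂ) (u : ℕ → ℝ → ℂ) (k i m : ℕ) : ℂ :=
  ∫ z in (0 : ℝ)..1, Tk m1 m2 m3 Ω u k z * ((z : ℂ) ^ m * (1 - (z : ℂ)) ^ i)

theorem Fam.ibp (h : Fam m1 m2 m3 Ω c u)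
    (hb : ∀ k, ∃ C, ∀ z ∈ Ioo (0 : ℝ) 1, ‖Tk m1 m2 m3 Ω u k z‖ ≤ C) (k i m : ℕ) :
    I * Ω * Fm m1 m2 m3 Ω u k i (m + 1) =
      -((m1 + k + 3 + m) * Fm m1 m2 m3 Ω u k (i + 2) m) +
        (m2 + m3 - m1 + k + i + 2) * Fm m1 m2 m3 Ω u k (i + 1) (m + 1) -
        Fm m1 m2 m3 Ω u (k + 1) (i + 1) m := by
  have ii : ∀ k i m : ℕ, IntervalIntegrable
      (fun z => Tk m1 m2 m3 Ω u k z * ((z : ℂ) ^ m * (1 - (z : ℂ)) ^ i)) volume 0 1 :=
    fun k i m => ii_of_bd (h.cT k) (hb k) (by fun_prop)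
  have j1 := (ii k (i + 2) m).const_mul (m1 + k + 3 + m)
  have j2 := (ii k (i + 1) (m + 1)).const_mul (m2 + m3 - m1 + k + i + 2)
  have j3 := (ii k i (m + 1)).const_mul (I * Ω)
  have j4 := ii (k + 1) (i + 1) m
  have hd : ∀ z ∈ Ioo (0 : ℝ) 1, HasDerivAt
      (fun z => Tk m1 m2 m3 Ω u k z * ((z : ℂ) ^ (m + 1) * (1 - (z : ℂ)) ^ (i + 2)))
      ((m1 + k + 3 + m) * (Tk m1 m2 m3 Ω u k z * ((z : ℂ) ^ m * (1 - (z : ℂ)) ^ (i + 2))) -
        (m2 + m3 - m1 + k + i + 2) *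
          (Tk m1 m2 m3 Ω u k z * ((z : ℂ) ^ (m + 1) * (1 - (z : ℂ)) ^ (i + 1))) +
        I * Ω * (Tk m1 m2 m3 Ω u k z * ((z : ℂ) ^ (m + 1) * (1 - (z : ℂ)) ^ i)) +
        Tk m1 m2 m3 Ω u (k + 1) z * ((z : ℂ) ^ m * (1 - (z : ℂ)) ^ (i + 1))) z := by
    intro z hz
    obtain ⟨r, hr, hr'⟩ := hd_rho m1 (m2 + m3 - m1) Ω hz
    have dz := hd_ofReal z
    have e : (fun z : ℝ => Tk m1 m2 m3 Ω u k z * ((z : ℂ) ^ (m + 1) * (1 - (z : ℂ)) ^ (i + 2))) =
        fun z : ℝ => rho m1 (m2 + m3 - m1) Ω z * (z : ℂ) ^ (k + m + 2 + 1) *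
          (1 - (z : ℂ)) ^ (k + i + 1 + 1) * u k z := by
      funext z; unfold Tk; ring
    rw [e]
    refine (((hr.mul (dz.pow (k + m + 2 + 1))).mul
      ((dz.const_sub 1).pow (k + i + 1 + 1))).mul (h.d k z hz)).congr_deriv ?_
    simp only [Pi.mul_apply, Pi.pow_apply, Nat.add_sub_cancel]
    unfold Tk
    unfold Ac at hr'
    push_cast
    linear_combination rho m1 (m2 + m3 - m1) Ω z * (z : ℂ) ^ (k + m + 2) *
      (1 - (z : ℂ)) ^ (k + i) * u k z * hr'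
  have t0 := (bd_of_bd (hb k)).1.zero (t_zero m (fun z : ℝ => (1 - (z : ℂ)) ^ (i + 2))
    (by fun_prop))
  have t1 := (bd_of_bd (hb k)).2.zero (t_one (i + 1) (fun z : ℝ => (z : ℂ) ^ (m + 1))
    (by fun_prop))
  have := intervalIntegral.integral_eq_sub_of_hasDerivAt_of_tendsto zero_lt_one hd
    (((j1.sub j2).add j3).add j4) (t0.congr fun z => by ring) (t1.congr fun z => by ring)
  rw [intervalIntegral.integral_add ((j1.sub j2).add j3) j4,
    intervalIntegral.integral_add (j1.sub j2) j3, intervalIntegral.integral_sub j1 j2,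
    intervalIntegral.integral_const_mul, intervalIntegral.integral_const_mul,
    intervalIntegral.integral_const_mul] at this
  unfold Fm
  linear_combination this

theorem pow_bound {z : ℝ} (hz : z ∈ Ioo (0 : ℝ) 1) (i : ℕ) {m : ℕ} (hm : 1 ≤ m) :
    z ^ m * (1 - z) ^ i ≤ (i.factorial : ℝ) * ((m : ℝ) ^ i)⁻¹ := by
  have hm' : (0 : ℝ) < m := by exact_mod_cast hm
  have hp : 0 < 1 - z := sub_pos.2 hz.2
  have h1 : z ≤ Real.exp (-(1 - z)) := by linarith [Real.add_one_le_exp (-(1 - z))]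
  have h2 : z ^ m ≤ Real.exp (-(m * (1 - z))) := by
    rw [show -((m : ℝ) * (1 - z)) = m * -(1 - z) by ring, Real.exp_nat_mul]
    exact pow_le_pow_left₀ hz.1.le h1 m
  have h3 := Real.pow_div_factorial_le_exp (m * (1 - z)) (by positivity) i
  have hf : (0 : ℝ) < i.factorial := by exact_mod_cast i.factorial_pos
  rw [div_le_iff₀ hf, mul_pow] at h3
  rw [Real.exp_neg] at h2
  have hE := Real.exp_pos (m * (1 - z))
  rw [← div_eq_mul_inv, le_div_iff₀ (by positivity)]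
  calc z ^ m * (1 - z) ^ i * (m : ℝ) ^ i = z ^ m * ((m : ℝ) ^ i * (1 - z) ^ i) := by ring
    _ ≤ (Real.exp (m * (1 - z)))⁻¹ * (Real.exp (m * (1 - z)) * i.factorial) := by gcongr
    _ = _ := by field_simp

theorem unshift {a : ℕ → ℂ} {e : ℕ}
    (h : (fun m => a (m + 1)) =O[atTop] fun m : ℕ => ((m : ℝ) ^ e)⁻¹) :
    a =O[atTop] fun m : ℕ => ((m : ℝ) ^ e)⁻¹ := by
  rw [← Filter.map_add_atTop_eq_nat 1, isBigO_map]
  refine h.trans (IsBigO.of_bound (2 ^ e) ?_)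
  filter_upwards [eventually_ge_atTop 1] with m hm
  have hm' : (1 : ℝ) ≤ m := by exact_mod_cast hm
  simp only [Function.comp]
  push_cast
  rw [Real.norm_of_nonneg (by positivity), Real.norm_of_nonneg (by positivity),
    ← div_eq_mul_inv, le_div_iff₀ (by positivity), inv_mul_le_iff₀ (by positivity), ← mul_pow]
  exact pow_le_pow_left₀ (by positivity) (by linarith) e

theorem shift {a : ℕ → ℂ} {e : ℕ} (h : a =O[atTop] fun m : ℕ => ((m : ℝ) ^ e)⁻¹) :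
    (fun m => a (m + 1)) =O[atTop] fun m : ℕ => ((m : ℝ) ^ e)⁻¹ := by
  refine (h.comp_tendsto (tendsto_add_atTop_nat 1)).trans (IsBigO.of_bound 1 ?_)
  filter_upwards [eventually_ge_atTop 1] with m hm
  have hm' : (1 : ℝ) ≤ m := by exact_mod_cast hm
  simp only [Function.comp]
  push_cast
  rw [Real.norm_of_nonneg (by positivity), Real.norm_of_nonneg (by positivity), one_mul]
  gcongr
  linarith

theorem lin_mul {a : ℕ → ℂ} {e : ℕ} (w : ℂ)
    (h : a =O[atTop] fun m : ℕ => ((m : ℝ) ^ (e + 1))⁻¹) :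
    (fun m : ℕ => (w + m) * a m) =O[atTop] fun m : ℕ => ((m : ℝ) ^ e)⁻¹ := by
  have h1 : (fun m : ℕ => w + m) =O[atTop] fun m : ℕ => (m : ℝ) := by
    refine IsBigO.of_bound (‖w‖ + 1) ?_
    filter_upwards [eventually_ge_atTop 1] with m hm
    have hm' : (1 : ℝ) ≤ m := by exact_mod_cast hm
    have := norm_add_le w m
    rw [Complex.norm_natCast] at this
    rw [Real.norm_of_nonneg (by positivity)]
    nlinarith [norm_nonneg w]
  refine (h1.mul h).trans (IsBigO.of_bound 1 ?_)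
  filter_upwards [eventually_ge_atTop 1] with m hm
  have hm' : (0 : ℝ) < m := by exact_mod_cast hm
  have : (m : ℝ) * ((m : ℝ) ^ (e + 1))⁻¹ = ((m : ℝ) ^ e)⁻¹ := by field_simp; ring
  rw [this, one_mul]

theorem Fam.rap (h : Fam m1 m2 m3 Ω c u) (hΩ : Ω ≠ 0)
    (hb : ∀ k, ∃ C, ∀ z ∈ Ioo (0 : ℝ) 1, ‖Tk m1 m2 m3 Ω u k z‖ ≤ C) :
    Rap (Fm m1 m2 m3 Ω u 0 0) := by
  have key : ∀ D k i : ℕ, Fm m1 m2 m3 Ω u k i =O[atTop] fun m : ℕ => ((m : ℝ) ^ (i + D))⁻¹ := by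
    intro D
    induction D with
    | zero =>
      intro k i
      obtain ⟨C, hC⟩ := hb k
      have hC0 : 0 ≤ C := (norm_nonneg _).trans (hC (1 / 2) ⟨by norm_num, by norm_num⟩)
      refine IsBigO.of_bound (C * i.factorial) ?_
      filter_upwards [eventually_ge_atTop 1] with m hm
      have := intervalIntegral.norm_integral_le_of_norm_le_const_ae (a := 0) (b := 1)
        (C := C * (i.factorial * ((m : ℝ) ^ i)⁻¹))
        (f := fun z => Tk m1 m2 m3 Ω u k z * ((z : ℂ) ^ m * (1 - (z : ℂ)) ^ i)) (by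
          filter_upwards [Measure.ae_ne volume 1] with z hz1 hz
          rw [uIoc_of_le zero_le_one] at hz
          have hz' : z ∈ Ioo (0 : ℝ) 1 := ⟨hz.1, lt_of_le_of_ne hz.2 hz1⟩
          rw [norm_mul, norm_mul, norm_pow, norm_pow, Complex.norm_real,
            Real.norm_of_nonneg hz.1.le, show (1 - z : ℂ) = ((1 - z : ℝ) : ℂ) by push_cast; ring,
            Complex.norm_real, Real.norm_of_nonneg (sub_nonneg.2 hz.2)]
          exact mul_le_mul (hC z hz') (pow_bound hz' i hm)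
            (mul_nonneg (pow_nonneg hz.1.le _) (pow_nonneg (sub_nonneg.2 hz.2) _)) hC0)
      rw [add_zero, Real.norm_of_nonneg (by positivity)]
      unfold Fm
      simpa [mul_assoc] using this
    | succ D ih =>
      intro k i
      refine unshift ?_
      have a1 := lin_mul (e := i + (D + 1)) (m1 + k + 3)
        (by simpa only [show i + 2 + D = i + (D + 1) + 1 by ring] using ih k (i + 2))
      have a2 := (shift (ih k (i + 1))).const_mul_left (m2 + m3 - m1 + k + i + 2)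
      have a3 := ih (k + 1) (i + 1)
      rw [show i + 1 + D = i + (D + 1) by ring] at a2 a3
      refine (((a1.neg_left.add a2).sub a3).const_mul_left (I * Ω)⁻¹).congr_left fun m => ?_
      rw [← h.ibp hb k i m, inv_mul_cancel_left₀ (mul_ne_zero I_ne_zero hΩ)]
  intro D
  simpa using key D 0 0

end P354MS
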