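import Vale.Agent.P354MS.Apr

/-! Mode stability, part 7: the Kerr parameters, both spins in the variable `z`. -/

namespace P354MS
open Complex Set Filter Topology Asymptotics ComplexConjugate

/-- The accessory parameter; `l` is the eigenvalue of the spheroidal operator. -/
def cc (M a b n : ℝ) (om κ l : ℂ) : ℂ :=
  om ^ 2 * (8 * M ^ 2 + 4 * M * b) - 4 * a * n * om + 8 * M * om * κ - (1 + (l - 4)) +
    I * ((2 * M + b) * om + 2 * κ)

theorem noswap {M a b n : ℝ} {om κ l m1 m2 : ℂ} (hM : 0 < M) (hb : 0 < b) (ha : a ^ 2 ≤ M ^ 2)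
    (hκ : b * κ = 2 * M * (M + b / 2) * om - a * n) (h0 : 0 ≤ om.im) (hne : om ≠ 0)
    (hl : (conj om * (l - 4)).im ≤ a ^ 2 * normSq om * om.im)
    (hs : m1 + m2 = -4 * I * κ) (hp : (1 + m1) * (1 + m2) = (1 - 2 * I * κ) ^ 2 - 4) :
    NoSwap m1 m2 (-4 * I * M * om) (2 * om * b) (cc M a b n om κ l) := by
  intro x hx r0 r
  have e : m1 + m2 + -4 * I * M * om = -4 * I * M * om + m1 + m2 := by ring
  rw [e] at r0 r
  obtain ⟨Y, Y1, Y2, c0, c1, hY, hd⟩ := series hx r0 r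
  rw [← hY]
  have N0 := normSq_pos.2 hne
  have hk : b * κ.im = 2 * M * (M + b / 2) * om.im := by
    have h1 : ((b : ℂ) * κ).im = (((2 * M * (M + b / 2) : ℝ) : ℂ) * om - ((a * n : ℝ) : ℂ)).im := by
      rw [hκ]; push_cast; rfl
    simpa only [Complex.sub_im, Complex.im_ofReal_mul, Complex.ofReal_im, sub_zero] using h1
  refine current (w := om) h0 (fun z hz => ?_) ?_ ?_ ?_ ?_ ?_ c0 c1 hd
  · set U2 : ℝ := (1 - z) ^ 2 * (4 * M ^ 2 + 8 * M ^ 2 * z) + 8 * M ^ 2 * z ^ 2 * (1 - z) +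
      b ^ 2 * z ^ 2 with hU2
    set U1 : ℝ := -4 * a * n * z * (1 - z) with hU1
    set U0 : ℝ := (1 - z) ^ 2 * (z + 3 * z ^ 2) with hU0
    set W : ℝ := (1 - z) ^ 2 * z with hW
    have id1 : Uc (-4 * I * M * om) m1 m2 (2 * om * b) (cc M a b n om κ l) z =
        om ^ 2 * U2 + om * U1 - U0 - W * (l - 4) := by
      unfold Uc Pc cc
      rw [hs, hp, hU2, hU1, hU0, hW]
      push_cast
      linear_combination 4 * om * z ^ 2 * (1 - z) * hκ +
        (4 * κ ^ 2 * z ^ 2 * (1 - z) ^ 2 - ((1 - z) * (-2 * M * om + 2 * κ * z) +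
          om * b * z) ^ 2) * Complex.I_sq
    have id2 : conj om * (om ^ 2 * U2 + om * U1 - U0 - W * (l - 4)) =
        ((normSq om * U2 : ℝ) : ℂ) * om + ((normSq om * U1 : ℝ) : ℂ) - (U0 : ℂ) * conj om -
          (W : ℂ) * (conj om * (l - 4)) := by
      push_cast
      rw [← Complex.mul_conj]; ring
    rw [id1, id2]
    simp only [Complex.sub_im, Complex.add_im, Complex.im_ofReal_mul, Complex.ofReal_im,
      Complex.conj_im]
    have p1 : 0 < 1 - z := sub_pos.2 hz.2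
    have p0 := hz.1
    have W0 : 0 ≤ W := by positivity
    have U00 : 0 ≤ U0 := by positivity
    have f1 : a ^ 2 * W ≤ U2 := by
      have : 0 ≤ (1 - z) ^ 2 * (4 * M ^ 2) + 8 * M ^ 2 * z ^ 2 * (1 - z) + b ^ 2 * z ^ 2 := by
        positivity
      have h2 : a ^ 2 * W ≤ 8 * M ^ 2 * W := by gcongr; nlinarith
      rw [hU2]; rw [hW] at h2 ⊢; nlinarith
    have f2 := mul_le_mul_of_nonneg_left hl W0
    have f3 := mul_le_mul_of_nonneg_left f1 (mul_nonneg N0.le h0)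
    nlinarith [mul_nonneg U00 h0]
  · have : conj om * (-4 * I * M * om) = ((-4 * M * normSq om : ℝ) : ℂ) * I := by
      push_cast; rw [← Complex.mul_conj]; ring
    rw [this, Complex.im_ofReal_mul, Complex.I_im]
    nlinarith [mul_pos hM N0]
  · have : conj om * (I * (2 * om * b)) = ((2 * b * normSq om : ℝ) : ℂ) * I := by
      push_cast; rw [← Complex.mul_conj]; ring
    rw [this, Complex.im_ofReal_mul, Complex.I_im]
    positivity
  · simp; positivity
  · rw [hs]; simp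
    have : M * om.im ≤ κ.im := by
      refine le_of_mul_le_mul_left ?_ hb
      rw [hk]; nlinarith [mul_nonneg (mul_pos hM hM).le h0]
    linarith
  · simp; positivity

variable {m1 m2 m3 Ω c : ℂ} {u : ℕ → ℝ → ℂ}

theorem Fam.uniq (h : Fam m1 m2 m3 Ω c u) (hμ : 0 ≤ m1.re)
    (t0 : Tendsto (u 0) (𝓝[>] 0) (𝓝 0)) (b1 : Bd (𝓝[>] 0) (u 1)) :
    ∀ z ∈ Ioo (0 : ℝ) 1, u 0 z = 0 := by
  set q := m2 + m3 - m1 with hq
  set ρ := rho m1 q Ω with hρ
  have cρ : ∀ z ∈ Ioo (0 : ℝ) 1, ContinuousAt ρ z := fun z hz =>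
    (hd_rho m1 q Ω hz).choose_spec.1.continuousAt
  obtain ⟨C, hC⟩ := (isCompact_Icc (a := (0 : ℝ)) (b := 1)).exists_bound_of_continuousOn
    (f := Ck m1 m2 m3 Ω c 0) fun z _ => (ca_Ck 0 z).continuousWithinAt
  have C0 : 0 ≤ C := (norm_nonneg _).trans (hC 0 ⟨le_rfl, zero_le_one⟩)
  have cmp : ∀ t x : ℝ, 0 < t → t ≤ x → x < 1 / 2 →
      ‖ρ t‖ ≤ Real.exp (|q.re| * Real.log 2 + |Ω.im|) * ‖ρ x‖ := by
    intro t x ht htx hx
    rw [hρ, norm_rho, norm_rho, ← Real.exp_add, Real.exp_le_exp]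
    have l1 : Real.log t ≤ Real.log x := Real.log_le_log ht htx
    have l2 : Real.log (1 - t) ≤ 0 := Real.log_nonpos (by linarith) (by linarith)
    have l3 : -Real.log 2 ≤ Real.log (1 - x) := by
      rw [← Real.log_inv]; exact Real.log_le_log (by norm_num) (by linarith)
    have l4 : Real.log (1 - x) ≤ Real.log (1 - t) := Real.log_le_log (by linarith) (by linarith)
    have l5 : (1 - t)⁻¹ ≤ (1 - x)⁻¹ := inv_anti₀ (by linarith) (by linarith)
    have l6 : (1 - x)⁻¹ ≤ 2 := by rw [inv_le_comm₀ (by linarith) (by norm_num)]; linarith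
    have l7 : 1 ≤ (1 - t)⁻¹ := by rw [le_inv_comm₀ (by norm_num) (by linarith)]; linarith
    have a1 : q.re * (Real.log (1 - t) - Real.log (1 - x)) ≤ |q.re| * Real.log 2 :=
      (mul_le_mul_of_nonneg_right (le_abs_self _) (by linarith)).trans
        (mul_le_mul_of_nonneg_left (by linarith) (abs_nonneg _))
    have a2 : Ω.im * ((1 - x)⁻¹ - (1 - t)⁻¹) ≤ |Ω.im| * 1 :=
      (mul_le_mul_of_nonneg_right (le_abs_self _) (by linarith)).trans
        (mul_le_mul_of_nonneg_left (by linarith) (abs_nonneg _))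
    nlinarith [mul_nonneg hμ (sub_nonneg.2 l1)]
  refine fuchs (φ := fun z => ρ z * Ac z ^ (0 + 1) * u (0 + 1) z) (α := fun z => (ρ z * Ac z)⁻¹)
    (β := fun z => -(ρ z * Ck m1 m2 m3 Ω c 0 z)) (d := 1 / 2)
    (K := Real.exp (|q.re| * Real.log 2 + |Ω.im|) * C * 4) (by norm_num)
    (fun z hz => (h.d 0 z hz).congr_deriv ?_) (fun z hz => (h.hd_phi 0 hz).congr_deriv ?_)
    (fun z hz => ?_) (fun z hz => ?_) t0 ?_ ?_
  · rw [zero_add, pow_one, inv_mul_cancel_left₀ (mul_ne_zero (rho_ne _ _ _ _) (Ac_ne hz))]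
  · simp only [Dk, Nat.cast_zero, zero_mul, add_zero, pow_zero, mul_one]; ring
  · exact (((cρ z hz).mul (hd_Ac z).continuousAt).inv₀
      (mul_ne_zero (rho_ne _ _ _ _) (Ac_ne hz))).continuousWithinAt
  · exact ((cρ z hz).mul (ca_Ck 0 z)).neg.continuousWithinAt
  · have bρ : Bd (𝓝[>] 0) ρ := by
      refine IsBigO.of_bound (Real.exp (|q.re| * Real.log 2 + |Ω.im|) * ‖ρ (1 / 4)‖) ?_
      filter_upwards [Ioo_mem_nhdsGT (show (0 : ℝ) < 1 / 4 by norm_num)] with t ht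
      rw [norm_one, mul_one]
      exact cmp t _ ht.1 ht.2.le (by norm_num)
    exact ((bρ.mul b1).zero (t_zero 0 (fun z : ℝ => (1 - (z : ℂ)) ^ 2) (by fun_prop))).congr
      fun z => by unfold Ac; simp only [zero_add, pow_one]; ring
  · intro t x ht htx hx hx1
    rw [zero_add] at hx
    have x0 : 0 < x := ht.trans_le htx
    have r0 : 0 < ‖ρ x‖ := norm_pos_iff.2 (rho_ne _ _ _ _)
    have p1 : 0 < 1 - x := sub_pos.2 hx1
    unfold Ac
    rw [norm_inv, norm_neg, norm_mul, norm_mul, norm_mul, norm_pow, norm_one_sub hx1,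
      Complex.norm_real, Real.norm_of_nonneg x0.le, sub_zero]
    have e : (‖ρ x‖ * (x * (1 - x) ^ 2))⁻¹ * (‖ρ t‖ * ‖Ck m1 m2 m3 Ω c 0 t‖) * x =
        ‖ρ t‖ * ‖Ck m1 m2 m3 Ω c 0 t‖ / (‖ρ x‖ * (1 - x) ^ 2) := by field_simp
    rw [e, div_le_iff₀ (by positivity)]
    have f1 : 1 ≤ 4 * (1 - x) ^ 2 := by nlinarith
    calc _ ≤ Real.exp (|q.re| * Real.log 2 + |Ω.im|) * ‖ρ x‖ * C * 1 := by
          rw [mul_one]
          exact mul_le_mul (cmp t x ht htx hx) (hC t ⟨ht.le, by linarith⟩) (norm_nonneg _)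
            (by positivity)
      _ ≤ Real.exp (|q.re| * Real.log 2 + |Ω.im|) * ‖ρ x‖ * C * (4 * (1 - x) ^ 2) := by gcongr
      _ = _ := by ring

end P354MS
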