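import Vale.Agent.P354MS.RZ

/-! Mode stability, part 10: spin `-2`, nonzero frequency. -/

namespace P354MS
open Complex Set Filter Topology Asymptotics ComplexConjugate Vale.Agent.P354BF

theorem key_alg {M d z om κ C w E P : ℂ} (h0 : z ≠ 0) (h1 : 1 - z ≠ 0) (h2 : P ≠ 0) (d1 : d ≠ 0)
    (hP : P = (M - d) * (1 - z) + 2 * d) :
    (E * (-(I * (2 * om * (2 * d))) * (1 - z)⁻¹ ^ 2 + (1 + -4 * I * M * om) * (1 - z)⁻¹) *
      (P ^ 3 * (1 - z) * z⁻¹ ^ 2 / (2 * d) ^ 4) +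
      E * (((3 * P ^ 2 * ((M - d) * -1) * (1 - z) + P ^ 3 * -1) * z⁻¹ ^ 2 +
        P ^ 3 * (1 - z) * (2 * z⁻¹ * -z⁻¹ ^ 2)) / (2 * d) ^ 4)) * C +
      E * (P ^ 3 * (1 - z) * z⁻¹ ^ 2 / (2 * d) ^ 4) * (2 * d * (1 - z)⁻¹ ^ 2 *
        (w + 2 * I * (om * ((P / (1 - z)) ^ 2 + (M ^ 2 - d ^ 2)) -
          (2 * M * (M + d) * om - 2 * d * κ)) / ((2 * d) ^ 2 * z / (1 - z) ^ 2) * C)) =
    2 * d * (1 - z)⁻¹ ^ 2 * (E * (P ^ 3 * (1 - z) * z⁻¹ ^ 2 / (2 * d) ^ 4) * w) +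
      (-3 * (M - d) * P⁻¹ - (2 - 2 * I * κ) * z⁻¹) *
        (E * (P ^ 3 * (1 - z) * z⁻¹ ^ 2 / (2 * d) ^ 4) * C) := by
  have : M = d + (P - 2 * d) / (1 - z) := by rw [hP]; field_simp; ring
  subst this
  field_simp
  ring

theorem tz {l : Filter ℝ} {f : ℝ → ℂ} {x : ℂ} (h : Tendsto f l (𝓝 x)) (e : x = 0) :
    Tendsto f l (𝓝 0) := e ▸ h

theorem chain3 {u : ℕ → ℝ → ℂ} (hu : ∀ k, ∀ z ∈ Ioo (0 : ℝ) 1, HasDerivAt (u k) (u (k + 1) z) z)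
    {Y0 Y1 Y2 Z g1 g2 g3 g4 g5 g6 R : ℝ → ℂ} (w0 : ∀ z ∈ Ioo (0 : ℝ) 1, u 0 z = Y0 z)
    (dY0 : ∀ z ∈ Ioo (0 : ℝ) 1, HasDerivAt Y0 (g2 z * Y1 z + g1 z * Y0 z) z)
    (dY1 : ∀ z ∈ Ioo (0 : ℝ) 1, HasDerivAt Y1 (g2 z * Y2 z + g1 z * Y1 z) z)
    (dY2 : ∀ z ∈ Ioo (0 : ℝ) 1, HasDerivAt Y2 (Z z + g1 z * Y2 z) z)
    (d1' : ∀ z ∈ Ioo (0 : ℝ) 1, HasDerivAt g1 (g3 z) z)
    (d2' : ∀ z ∈ Ioo (0 : ℝ) 1, HasDerivAt g2 (g4 z) z)
    (d3' : ∀ z ∈ Ioo (0 : ℝ) 1, HasDerivAt g3 (g5 z) z)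
    (d4' : ∀ z ∈ Ioo (0 : ℝ) 1, HasDerivAt g4 (g6 z) z)
    (q1 : ContinuousAt g1 1) (q2 : ContinuousAt g2 1) (q3 : ContinuousAt g3 1)
    (q4 : ContinuousAt g4 1) (q5 : ContinuousAt g5 1) (q6 : ContinuousAt g6 1)
    {l : Filter ℝ} (hl : l ≤ 𝓝[<] 1) (X0 : Tendsto (fun z => R z * Y0 z) l (𝓝 0))
    (X1 : Tendsto (fun z => R z * Y1 z) l (𝓝 0)) (X2 : Tendsto (fun z => R z * Y2 z) l (𝓝 0))
    (X3 : Tendsto (fun z => R z * Z z) l (𝓝 0)) :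
    ∀ j ≤ 3, Tendsto (fun z => R z * u j z) l (𝓝 0) := by
  have nx : ∀ {k : ℕ} {W W' : ℝ → ℂ}, (∀ z ∈ Ioo (0 : ℝ) 1, u k z = W z) →
      (∀ z ∈ Ioo (0 : ℝ) 1, HasDerivAt W (W' z) z) → ∀ z ∈ Ioo (0 : ℝ) 1, u (k + 1) z = W' z :=
    fun h1 h2 z hz => (hu _ z hz).unique ((h2 z hz).congr_of_eventuallyEq (by
      filter_upwards [isOpen_Ioo.mem_nhds hz] with x hx using h1 x hx))
  have w1 := nx w0 dY0
  have w2 := nx w1 (W' := fun z => g2 z ^ 2 * Y2 z + (g4 z + 2 * g1 z * g2 z) * Y1 z +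
    (g3 z + g1 z ^ 2) * Y0 z) fun z hz => (((d2' z hz).mul (dY1 z hz)).add
      ((d1' z hz).mul (dY0 z hz))).congr_deriv (by ring)
  have w3 := nx w2 (W' := fun z => g2 z ^ 2 * Z z +
    (3 * g2 z * g4 z + 3 * g1 z * g2 z ^ 2) * Y2 z +
    (g6 z + 3 * g3 z * g2 z + 3 * g1 z * g4 z + 3 * g1 z ^ 2 * g2 z) * Y1 z +
    (g5 z + 3 * g1 z * g3 z + g1 z ^ 3) * Y0 z) fun z hz =>
      (((((d2' z hz).pow 2).mul (dY2 z hz)).add (((d4' z hz).add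
        (((d1' z hz).const_mul 2).mul (d2' z hz))).mul (dY1 z hz))).add
        (((d3' z hz).add ((d1' z hz).pow 2)).mul (dY0 z hz))).congr_deriv (by
          simp only [Pi.add_apply, Pi.mul_apply, Pi.pow_apply]; push_cast; ring)
  have bb : ∀ {g : ℝ → ℂ}, ContinuousAt g 1 → Bd l g := fun hg => (Bd.of_cont hg).mono hl
  have ev : ∀ᶠ z in l, z ∈ Ioo (0 : ℝ) 1 := hl (Ioo_mem_nhdsLT zero_lt_one)
  intro j hj
  interval_cases j
  · refine X0.congr' ?_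
    filter_upwards [ev] with z hz
    rw [w0 z hz]
  · refine (tz (((bb q2).zero X1).add ((bb q1).zero X0)) (by simp)).congr' ?_
    filter_upwards [ev] with z hz
    rw [w1 z hz]; ring
  · refine (tz ((((bb (g := fun z => g2 z ^ 2) (by fun_prop)).zero X2).add
      ((bb (g := fun z => g4 z + 2 * g1 z * g2 z) (by fun_prop)).zero X1)).add
      ((bb (g := fun z => g3 z + g1 z ^ 2) (by fun_prop)).zero X0))
      (by simp)).congr' ?_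
    filter_upwards [ev] with z hz
    rw [w2 z hz]; ring
  · refine (tz (((((bb (g := fun z => g2 z ^ 2) (by fun_prop)).zero X3).add
      ((bb (g := fun z => 3 * g2 z * g4 z + 3 * g1 z * g2 z ^ 2) (by fun_prop)).zero X2)).add
      ((bb (g := fun z => g6 z + 3 * g3 z * g2 z + 3 * g1 z * g4 z + 3 * g1 z ^ 2 * g2 z)
        (by fun_prop)).zero X1)).add
      ((bb (g := fun z => g5 z + 3 * g1 z * g3 z + g1 z ^ 3) (by fun_prop)).zero X0))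
      (by simp)).congr' ?_
    filter_upwards [ev] with z hz
    rw [w3 z hz]; ring

section
variable {s M a d m : ℝ} {om l κ : ℂ} {f f1 f2 : ℝ → ℂ}

theorem rminus (hM : 0 < M) (hd : 0 < d) (ha : a ^ 2 = M ^ 2 - d ^ 2) (h0 : 0 ≤ om.im)
    (hne : om ≠ 0) (hl : (conj om * (l - 4)).im ≤ a ^ 2 * normSq om * om.im)
    (h : ∀ r, M + d < r → HasDerivAt f (f1 r) r ∧ HasDerivAt f1 (f2 r) r ∧
      Pq (-2) M a om m l r (f r) (f1 r) (f2 r) = 0) {a0 a1 a2 : ℂ}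
    (t0 : Tendsto f (𝓝[>] (M + d)) (𝓝 a0)) (t1 : Tendsto f1 (𝓝[>] (M + d)) (𝓝 a1))
    (t2 : Tendsto f2 (𝓝[>] (M + d)) (𝓝 a2)) {c0 c1 c2 c3 : ℝ → ℂ}
    (hc : ∀ r, M + d < r → c0 r = (De M a r : ℂ) ^ 2 * f r / r ^ 3 ∧
      HasDerivAt c0 (c1 r / r ^ 2 + 2 * I * Kf a om m r / De M a r * c0 r) r ∧
      HasDerivAt c1 (c2 r / r ^ 2 + 2 * I * Kf a om m r / De M a r * c1 r) r ∧
      HasDerivAt c2 (c3 r + 2 * I * Kf a om m r / De M a r * c2 r) r)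
    {L : Filter ℝ} [L.NeBot] (hL : L ≤ atTop)
    (i0 : Tendsto (fun r => c0 r / (r : ℂ) ^ 2) L (𝓝 0))
    (i1 : Tendsto (fun r => c1 r / (r : ℂ) ^ 2) L (𝓝 0))
    (i2 : Tendsto (fun r => c2 r / (r : ℂ) ^ 2) L (𝓝 0)) (i3 : Tendsto c3 L (𝓝 0)) :
    ∀ r, M + d < r → f r = 0 := by
  have d0 : (((2 * d : ℝ)) : ℂ) ≠ 0 := by exact_mod_cast (by linarith : 2 * d ≠ 0)
  have d1 : (d : ℂ) ≠ 0 := by exact_mod_cast hd.ne'
  obtain ⟨κ, hκ⟩ : ∃ κ : ℂ, (2 * d : ℝ) * κ = 2 * M * (M + (2 * d : ℝ) / 2) * om - a * m :=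
    ⟨_, mul_div_cancel₀ _ d0⟩
  have k0 := kap_im hM hd h0 hκ
  obtain ⟨u, hu, u0, -, b0, b1, b2, s0, s1, s2⟩ := to_z (by norm_num) hd ha hκ h t0 t1 t2
  obtain ⟨μ, hμ⟩ : ∃ μ : ℂ, μ = 2 - 2 * I * κ := ⟨_, rfl⟩
  rw [show -((-2 : ℝ) : ℂ) - 2 * I * κ = μ by rw [hμ]; push_cast; ring,
    show ((-2 : ℝ) : ℂ) - 2 * I * κ = μ - 4 by rw [hμ]; push_cast; ring] at hu
  have hl' : map (zr M d) L ≤ 𝓝[<] 1 := (t_zr hd).mono_left hL
  have hM0 := mul_nonneg hM.le h0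
  have dM : d ≤ M := by nlinarith [sq_nonneg a]
  set p : ℝ → ℂ := fun z => ((M - d) * (1 - (z : ℂ)) + 2 * d)⁻¹ with hp
  set ζ : ℝ → ℂ := fun z => (z : ℂ)⁻¹ with hζ
  have pne : ∀ z : ℝ, z ≤ 1 → ((M - d) * (1 - (z : ℂ)) + 2 * d) ≠ 0 := fun z hz => by
    have : (M - d) * (1 - z) + 2 * d ≠ 0 := by
      nlinarith [mul_nonneg (sub_nonneg.2 dM) (sub_nonneg.2 hz)]
    exact_mod_cast this
  have dp : ∀ z : ℝ, z ≤ 1 → HasDerivAt p ((M - d) * p z ^ 2) z := fun z hz =>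
    (((((hd_ofReal z).const_sub 1).const_mul ((M : ℂ) - d)).add_const (2 * (d : ℂ))).inv
      (pne z hz)).congr_deriv (by have := pne z hz; simp only [hp]; field_simp)
  have dζ : ∀ z : ℝ, 0 < z → HasDerivAt ζ (-ζ z ^ 2) z := fun z hz => by
    have h0 : (z : ℂ) ≠ 0 := by exact_mod_cast hz.ne'
    exact ((hd_ofReal z).inv h0).congr_deriv (by simp only [hζ]; field_simp)
  set t : ℝ → ℂ := fun z => (1 - (z : ℂ))⁻¹ with ht
  set H : ℝ → ℂ := fun z => Ez M d om z * (((M - d) * (1 - (z : ℂ)) + 2 * d) ^ 3 *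
    (1 - (z : ℂ)) * ζ z ^ 2 / (2 * d) ^ 4) with hH
  set g1 : ℝ → ℂ := fun z => -3 * (M - d) * p z - μ * ζ z with hg1
  set g2 : ℝ → ℂ := fun z => 2 * d * p z ^ 2 with hg2
  set g3 : ℝ → ℂ := fun z => -3 * (M - d) ^ 2 * p z ^ 2 + μ * ζ z ^ 2 with hg3
  set g4 : ℝ → ℂ := fun z => 4 * d * (M - d) * p z ^ 3 with hg4
  set g5 : ℝ → ℂ := fun z => -6 * (M - d) ^ 3 * p z ^ 3 - 2 * μ * ζ z ^ 3 with hg5
  set g6 : ℝ → ℂ := fun z => 12 * d * (M - d) ^ 2 * p z ^ 4 with hg6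
  have han : (a : ℂ) * m = 2 * M * (M + d) * om - 2 * d * κ := by
    push_cast at hκ; linear_combination hκ
  have ha2 : (a : ℂ) ^ 2 = M ^ 2 - d ^ 2 := by exact_mod_cast ha
  have hr : ∀ z : ℝ, z < 1 → (rz M d z : ℂ) = ((M - d) * (1 - (z : ℂ)) + 2 * d) / (1 - z) :=
    fun z hz => by rw [eq_div_iff (c_ne hz), rz_mul M d hz]
  have hD : ∀ z : ℝ, z < 1 → (De M a (rz M d z) : ℂ) = (2 * d) ^ 2 * z / (1 - z) ^ 2 :=
    fun z hz => by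
      have := c_ne hz
      unfold De; push_cast; rw [hr z hz, ha2]; field_simp; ring
  have key : ∀ z ∈ Ioo (0 : ℝ) 1, ∀ {c : ℝ → ℂ} {w : ℂ},
      HasDerivAt c (w + 2 * I * Kf a om m (rz M d z) / De M a (rz M d z) * c (rz M d z))
        (rz M d z) → HasDerivAt (fun z => H z * c (rz M d z))
        (2 * d * t z ^ 2 * (H z * w) + g1 z * (H z * c (rz M d z))) z := by
    intro z hz c w hc
    have dz := hd_ofReal z
    refine (((hd_Ez M d om hz.2).mul ((((((((dz.const_sub 1).const_mul ((M : ℂ) - d)).add_const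
      (2 * (d : ℂ))).pow 3).mul (dz.const_sub 1)).mul ((dζ z hz.1).pow 2))).div_const _)).mul
      (hd_comp hz.2 hc)).congr_deriv ?_
    have h0 : (z : ℂ) ≠ 0 := by exact_mod_cast hz.1.ne'
    have h1 := c_ne hz.2
    have h2 := pne z hz.2.le
    rw [hD z hz.2]
    unfold Kf e1
    rw [han, ha2, hr z hz.2]
    simp only [hH, hg1, hp, hζ, ht, hμ, Pi.mul_apply, Pi.pow_apply]
    have := key_alg (om := om) (κ := κ) (C := c (rz M d z)) (w := w) (E := Ez M d om z)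
      h0 h1 h2 d1 rfl
    push_cast
    linear_combination this
  set Y0 : ℝ → ℂ := fun z => H z * c0 (rz M d z) with hY0
  set Y1 : ℝ → ℂ := fun z => H z * c1 (rz M d z) with hY1
  set Y2 : ℝ → ℂ := fun z => H z * c2 (rz M d z) with hY2
  have e2 : ∀ z ∈ Ioo (0 : ℝ) 1, ∀ x : ℂ,
      2 * d * t z ^ 2 * (H z * (x / (rz M d z : ℂ) ^ 2)) = g2 z * (H z * x) := by
    intro z hz x
    have h1 := c_ne hz.2
    have h2 := pne z hz.2.le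
    rw [hr z hz.2]
    simp only [hg2, hp, ht]
    field_simp
  have dY0 : ∀ z ∈ Ioo (0 : ℝ) 1, HasDerivAt Y0 (g2 z * Y1 z + g1 z * Y0 z) z := fun z hz =>
    (key z hz (hc _ (rz_gt hd hz)).2.1).congr_deriv (by rw [e2 z hz])
  have dY1 : ∀ z ∈ Ioo (0 : ℝ) 1, HasDerivAt Y1 (g2 z * Y2 z + g1 z * Y1 z) z := fun z hz =>
    (key z hz (hc _ (rz_gt hd hz)).2.2.1).congr_deriv (by rw [e2 z hz])
  have dY2 := fun z hz => key z hz (hc _ (rz_gt hd hz)).2.2.2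
  have d1' : ∀ z ∈ Ioo (0 : ℝ) 1, HasDerivAt g1 (g3 z) z := fun z hz =>
    (((dp z hz.2.le).const_mul _).sub ((dζ z hz.1).const_mul μ)).congr_deriv
      (by simp only [hg3]; ring)
  have d2' : ∀ z ∈ Ioo (0 : ℝ) 1, HasDerivAt g2 (g4 z) z := fun z hz =>
    (((dp z hz.2.le).pow 2).const_mul _).congr_deriv (by simp only [hg4]; push_cast; ring)
  have d3' : ∀ z ∈ Ioo (0 : ℝ) 1, HasDerivAt g3 (g5 z) z := fun z hz =>
    ((((dp z hz.2.le).pow 2).const_mul _).add (((dζ z hz.1).pow 2).const_mul μ)).congr_deriv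
      (by simp only [hg5]; push_cast; ring)
  have d4' : ∀ z ∈ Ioo (0 : ℝ) 1, HasDerivAt g4 (g6 z) z := fun z hz =>
    (((dp z hz.2.le).pow 3).const_mul _).congr_deriv (by simp only [hg6]; push_cast; ring)
  have w0 : ∀ z ∈ Ioo (0 : ℝ) 1, u 0 z = Y0 z := by
    intro z hz
    have h0 : (z : ℂ) ≠ 0 := by exact_mod_cast hz.1.ne'
    have h1 := c_ne hz.2
    have h2 := pne z hz.2.le
    simp only [u0, hY0, hH, hζ]
    rw [(hc _ (rz_gt hd hz)).1, hD z hz.2, hr z hz.2]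
    generalize ((M : ℂ) - d) * (1 - (z : ℂ)) + 2 * d = P at h2 ⊢
    field_simp
  have bb : ∀ {g : ℝ → ℂ}, ContinuousAt g 1 → Bd (map (zr M d) L) g := fun hg =>
    (Bd.of_cont hg).mono hl'
  have cp : ContinuousAt p 1 := (dp 1 le_rfl).continuousAt
  have cζ : ContinuousAt ζ 1 := (dζ 1 one_pos).continuousAt
  have q1 : ContinuousAt g1 1 := by simp only [hg1]; fun_prop
  have q2 : ContinuousAt g2 1 := by simp only [hg2]; fun_prop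
  have q3 : ContinuousAt g3 1 := by simp only [hg3]; fun_prop
  have q4 : ContinuousAt g4 1 := by simp only [hg4]; fun_prop
  have q5 : ContinuousAt g5 1 := by simp only [hg5]; fun_prop
  have q6 : ContinuousAt g6 1 := by simp only [hg6]; fun_prop
  set ρ := rho μ (μ - 4 + -4 * I * M * om - μ) (2 * om * (2 * d : ℝ)) with hρ
  have ev : ∀ᶠ z in map (zr M d) L, z ∈ Ioo (0 : ℝ) 1 := hl' (Ioo_mem_nhdsLT zero_lt_one)
  set Bf : ℝ → ℂ := fun z => cexp (μ * (Real.log z : ℝ)) *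
    (((M - d) * (1 - (z : ℂ)) + 2 * d) ^ 3 * ζ z ^ 2 / (2 * d) ^ 4) with hBf
  have cB : ContinuousAt Bf 1 := (ca_zpow μ).mul (by fun_prop)
  have hX : ∀ z ∈ Ioo (0 : ℝ) 1, ρ z * (1 - (z : ℂ)) ^ 6 * H z = Bf z * (1 - z) ^ 2 := by
    intro z hz
    have e := rho_E μ (-5) M d om z
    have e5 := exp_log_nat hz.2 5
    have e6 : cexp (-5 * (Real.log (1 - z) : ℝ)) * (1 - (z : ℂ)) ^ 5 = 1 := by
      rw [← e5, ← Complex.exp_add, ← Complex.exp_zero]; congr 1; push_cast; ring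
    rw [show (-5 : ℂ) + (1 + -4 * I * M * om) = μ - 4 + -4 * I * M * om - μ by ring, ← hρ] at e
    simp only [hH, hBf]
    linear_combination (1 - (z : ℂ)) ^ 7 * (((M - d) * (1 - (z : ℂ)) + 2 * d) ^ 3 * ζ z ^ 2 /
      (2 * d) ^ 4) * e + cexp (μ * (Real.log z : ℝ)) * (1 - (z : ℂ)) ^ 2 *
      (((M - d) * (1 - (z : ℂ)) + 2 * d) ^ 3 * ζ z ^ 2 / (2 * d) ^ 4) * e6
  have X : ∀ {c : ℝ → ℂ}, Tendsto (fun r => c r / (r : ℂ) ^ 2) L (𝓝 0) →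
      Tendsto (fun z => ρ z * (1 - (z : ℂ)) ^ 6 * (H z * c (rz M d z))) (map (zr M d) L)
        (𝓝 0) := by
    intro c hc
    refine ((bb (cB.mul (g := fun z : ℝ => ((M - d) * (1 - (z : ℂ)) + 2 * d) ^ 2)
      (by fun_prop))).zero (push hd hL hc)).congr' ?_
    filter_upwards [ev] with z hz
    have h1 := c_ne hz.2
    have h2 := pne z hz.2.le
    rw [← mul_assoc, hX z hz, hr z hz.2, Pi.mul_apply]
    generalize ((M : ℂ) - d) * (1 - (z : ℂ)) + 2 * d = P at h2 ⊢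
    field_simp
  have X0 := X i0
  have X1 := X i1
  have X2 := X i2
  have X3 : Tendsto (fun z => ρ z * (1 - (z : ℂ)) ^ 6 *
      (2 * d * t z ^ 2 * (H z * c3 (rz M d z)))) (map (zr M d) L) (𝓝 0) := by
    refine ((bb (cB.mul (g := fun _ => 2 * (d : ℂ)) (by fun_prop))).zero
      (push hd hL i3)).congr' ?_
    filter_upwards [ev] with z hz
    have h1 := c_ne hz.2
    have e := hX z hz
    rw [← div_eq_iff (pow_ne_zero 2 h1)] at e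
    rw [Pi.mul_apply, ← e]
    simp only [ht]
    field_simp
  refine from_z (om := om) hd ?_
  have := hu.minus (by rw [hμ]; simp; linarith) (by simp; positivity)
    (mul_ne_zero (mul_ne_zero two_ne_zero hne) d0) (by simp; linarith)
    (noswap hM (by linarith) (by nlinarith) hκ h0 hne hl (by rw [hμ]; ring)
      (by rw [hμ]; ring)) s0 s1 s2 hl' ?_
  · rwa [u0] at this
  exact chain3 hu.d w0 dY0 dY1 dY2 d1' d2' d3' d4' q1 q2 q3 q4 q5 q6 hl' X0 X1 X2 X3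

end

end P354MS
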