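import Vale.Agent.P354MS.TS
import Vale.Agent.P354BF.Defs

/-! Mode stability, part 9: from the radius `r` to `z`, nonzero frequency. -/

namespace P354MS
open Complex Set Filter Topology Asymptotics ComplexConjugate Vale.Agent.P354BF

/-- The scalar radial Teukolsky operator (`Ang.P` on an eigenvector with eigenvalue `l`). -/
noncomputable def Pq (s M a : ℝ) (om : ℂ) (m : ℝ) (l : ℂ) (r : ℝ) (f0 f1 f2 : ℂ) : ℂ :=
  (De M a r : ℂ) * f2 + ((((1 - s) * (2 * r - 2 * M) : ℝ) : ℂ) - 2 * I * Kf a om m r) * f1 -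
    (2 * I * om * r * (1 - 2 * s : ℝ) - (s ^ 2 - s : ℝ)) * f0 - l * f0

/-- The radius as a function of `z`. -/
noncomputable def rz (M d z : ℝ) : ℝ := M - d + 2 * d * (1 - z)⁻¹

noncomputable def Ez (M d : ℝ) (om : ℂ) (z : ℝ) : ℂ :=
  cexp (-(I * (2 * om * (2 * d : ℝ))) * ((1 - z)⁻¹ : ℝ) -
    (1 + -4 * I * M * om) * (Real.log (1 - z) : ℝ))

noncomputable def e1 (M d : ℝ) (om : ℂ) (z : ℝ) : ℂ :=
  -(I * (2 * om * (2 * d : ℝ))) * ((1 - (z : ℂ))⁻¹) ^ 2 + (1 + -4 * I * M * om) * (1 - (z : ℂ))⁻¹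

theorem c_ne {z : ℝ} (hz : z < 1) : (1 - z : ℂ) ≠ 0 := by exact_mod_cast (sub_pos.2 hz).ne'

theorem hd_t {z : ℝ} (hz : z < 1) :
    HasDerivAt (fun z : ℝ => (1 - (z : ℂ))⁻¹) (((1 - (z : ℂ))⁻¹) ^ 2) z :=
  (((hd_ofReal z).const_sub 1).inv (c_ne hz)).congr_deriv (by
    have := c_ne hz
    field_simp)

theorem hd_rz (M d : ℝ) {z : ℝ} (hz : z < 1) :
    HasDerivAt (rz M d) (2 * d * ((1 - z)⁻¹) ^ 2) z := by
  have h1 : (1 - z) ≠ 0 := (sub_pos.2 hz).ne'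
  refine (((((hasDerivAt_id z).const_sub 1).inv h1).const_mul (2 * d)).const_add
    (M - d)).congr_deriv ?_
  simp only [id]
  field_simp

theorem hd_comp {M d z : ℝ} (hz : z < 1) {f : ℝ → ℂ} {f' : ℂ} (h : HasDerivAt f f' (rz M d z)) :
    HasDerivAt (fun z => f (rz M d z)) (2 * d * ((1 - (z : ℂ))⁻¹) ^ 2 * f') z :=
  (h.scomp z (hd_rz M d hz)).congr_deriv (by rw [Complex.real_smul]; push_cast; rfl)

theorem hd_Ez (M d : ℝ) (om : ℂ) {z : ℝ} (hz : z < 1) :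
    HasDerivAt (Ez M d om) (Ez M d om z * e1 M d om z) z := by
  have h1 : (1 - z) ≠ 0 := (sub_pos.2 hz).ne'
  have := c_ne hz
  refine ((((((hasDerivAt_id z).const_sub 1).inv h1).ofReal_comp.const_mul _).sub
    ((((hasDerivAt_id z).const_sub 1).log h1).ofReal_comp.const_mul _)).cexp).congr_deriv ?_
  unfold Ez e1
  simp only [id, Pi.inv_apply]
  congr 1
  push_cast
  field_simp
  ring

theorem hd_e1 (M d : ℝ) (om : ℂ) {z : ℝ} (hz : z < 1) : HasDerivAt (e1 M d om)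
    (-(I * (2 * om * (2 * d : ℝ))) * (2 * ((1 - (z : ℂ))⁻¹) ^ 3) +
      (1 + -4 * I * M * om) * ((1 - (z : ℂ))⁻¹) ^ 2) z :=
  ((((hd_t hz).pow 2).const_mul _).add ((hd_t hz).const_mul _)).congr_deriv (by
    push_cast; ring)

theorem rz_gt {M d z : ℝ} (hd : 0 < d) (hz : z ∈ Ioo (0 : ℝ) 1) : M + d < rz M d z := by
  have : 1 < (1 - z)⁻¹ := one_lt_inv_iff₀.2 ⟨sub_pos.2 hz.2, by linarith [hz.1]⟩
  unfold rz
  nlinarith

theorem rz_mul (M d : ℝ) {z : ℝ} (hz : z < 1) :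
    (rz M d z : ℂ) * (1 - z) = (M - d) * (1 - z) + 2 * d := by
  have := c_ne hz
  unfold rz
  push_cast
  field_simp

theorem t_rz {M d : ℝ} (hd : 0 < d) : Tendsto (rz M d) (𝓝[>] 0) (𝓝[>] (M + d)) := by
  refine tendsto_nhdsWithin_iff.2 ⟨?_, ?_⟩
  · have := (hd_rz M d zero_lt_one).continuousAt.tendsto.mono_left
      (nhdsWithin_le_nhds (s := Ioi 0))
    rwa [show rz M d 0 = M + d by simp [rz]; ring] at this
  · filter_upwards [Ioo_mem_nhdsGT zero_lt_one] with z hz using rz_gt hd hz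

noncomputable def zr (M d r : ℝ) : ℝ := (r - (M + d)) / (r - (M - d))

theorem zr_mem {M d r : ℝ} (hd : 0 < d) (hr : M + d < r) :
    zr M d r ∈ Ioo (0 : ℝ) 1 ∧ rz M d (zr M d r) = r := by
  have h1 : 0 < r - (M - d) := by linarith
  refine ⟨⟨div_pos (by linarith) h1, (div_lt_one h1).2 (by linarith)⟩, ?_⟩
  have : 1 - zr M d r = 2 * d / (r - (M - d)) := by unfold zr; field_simp; ring
  unfold rz
  rw [this]
  field_simp
  ring

theorem t_zr {M d : ℝ} (hd : 0 < d) : Tendsto (zr M d) atTop (𝓝[<] 1) := by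
  refine tendsto_nhdsWithin_iff.2 ⟨?_, ?_⟩
  · have h1 : Tendsto (fun r : ℝ => 1 - 2 * d / (r - (M - d))) atTop (𝓝 (1 - 0)) :=
      tendsto_const_nhds.sub (tendsto_const_nhds.div_atTop (tendsto_atTop_add_const_right _ _
        tendsto_id))
    rw [sub_zero] at h1
    refine h1.congr' ?_
    filter_upwards [eventually_gt_atTop (M + d)] with r hr
    have h1 : r - (M - d) ≠ 0 := by linarith
    unfold zr
    field_simp
    ring
  · filter_upwards [eventually_gt_atTop (M + d)] with r hr using (zr_mem hd hr).1.2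

theorem push {M d : ℝ} (hd : 0 < d) {l : Filter ℝ} (hl : l ≤ atTop) {g : ℝ → ℂ}
    (h : Tendsto g l (𝓝 0)) : Tendsto (fun z => g (rz M d z)) (map (zr M d) l) (𝓝 0) := by
  rw [tendsto_map'_iff]
  refine h.congr' ?_
  filter_upwards [hl (eventually_gt_atTop (M + d))] with r hr
  simp only [Function.comp, (zr_mem hd hr).2]

theorem rho_E (μ p : ℂ) (M d : ℝ) (om : ℂ) (z : ℝ) :
    rho μ (p + (1 + -4 * I * M * om)) (2 * om * (2 * d : ℝ)) z * Ez M d om z =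
      cexp (μ * (Real.log z : ℝ)) * cexp (p * (Real.log (1 - z) : ℝ)) := by
  unfold rho Ez
  rw [← Complex.exp_add, ← Complex.exp_add]
  congr 1
  ring

theorem exp_log_nat {z : ℝ} (hz : z < 1) (n : ℕ) :
    cexp (n * (Real.log (1 - z) : ℝ)) = (1 - (z : ℂ)) ^ n := by
  rw [Complex.exp_nat_mul, ← Complex.ofReal_exp, Real.exp_log (sub_pos.2 hz)]
  push_cast; rfl

theorem ca_zpow (μ : ℂ) : ContinuousAt (fun z : ℝ => cexp (μ * (Real.log z : ℝ))) 1 :=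
  (((Real.hasDerivAt_log one_ne_zero).ofReal_comp.const_mul μ).cexp).continuousAt

section
variable {s M a d m : ℝ} {om l κ : ℂ} {f f1 f2 : ℝ → ℂ}

theorem to_z (hs : s ^ 2 = 4) (hd : 0 < d) (ha : a ^ 2 = M ^ 2 - d ^ 2)
    (hκ : (2 * d : ℝ) * κ = 2 * M * (M + (2 * d : ℝ) / 2) * om - a * m)
    (h : ∀ r, M + d < r → HasDerivAt f (f1 r) r ∧ HasDerivAt f1 (f2 r) r ∧
      Pq s M a om m l r (f r) (f1 r) (f2 r) = 0) {a0 a1 a2 : ℂ}
    (t0 : Tendsto f (𝓝[>] (M + d)) (𝓝 a0)) (t1 : Tendsto f1 (𝓝[>] (M + d)) (𝓝 a1))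
    (t2 : Tendsto f2 (𝓝[>] (M + d)) (𝓝 a2)) :
    ∃ u, Fam (-s - 2 * I * κ) (s - 2 * I * κ) (-4 * I * M * om) (2 * om * (2 * d : ℝ))
        (cc M a (2 * d) m om κ l) u ∧ (u 0 = fun z => Ez M d om z * f (rz M d z)) ∧
      (∀ z ∈ Ioo (0 : ℝ) 1, u 1 z = Ez M d om z * (e1 M d om z * f (rz M d z) +
        2 * d * ((1 - (z : ℂ))⁻¹) ^ 2 * f1 (rz M d z))) ∧
      ∃ b0 b1 b2, Tendsto (u 0) (𝓝[>] 0) (𝓝 b0) ∧ Tendsto (u 1) (𝓝[>] 0) (𝓝 b1) ∧
        Tendsto (u 2) (𝓝[>] 0) (𝓝 b2) := by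
  set t : ℝ → ℂ := fun z => (1 - (z : ℂ))⁻¹ with ht
  set e2 : ℝ → ℂ := fun z => -(I * (2 * om * (2 * d : ℝ))) * (2 * t z ^ 3) +
    (1 + -4 * I * M * om) * t z ^ 2 with he2
  obtain ⟨u, hu, u0, u1⟩ := exists_fam (m1 := -s - 2 * I * κ) (m2 := s - 2 * I * κ)
    (m3 := -4 * I * M * om) (Ω := 2 * om * (2 * d : ℝ)) (c := cc M a (2 * d) m om κ l)
    (y := fun z => Ez M d om z * f (rz M d z))
    (y1 := fun z => Ez M d om z * (e1 M d om z * f (rz M d z) + 2 * d * t z ^ 2 * f1 (rz M d z)))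
    (y2 := fun z => Ez M d om z * ((e1 M d om z ^ 2 + e2 z) * f (rz M d z) +
      (2 * e1 M d om z * (2 * d * t z ^ 2) + 4 * d * t z ^ 3) * f1 (rz M d z) +
      (2 * d * t z ^ 2) ^ 2 * f2 (rz M d z))) (by
    intro z hz
    obtain ⟨d0, d1, hP⟩ := h _ (rz_gt hd hz)
    refine ⟨((hd_Ez M d om hz.2).mul (hd_comp hz.2 d0)).congr_deriv (by simp only [ht]; ring),
      ((hd_Ez M d om hz.2).mul (((hd_e1 M d om hz.2).mul (hd_comp hz.2 d0)).add
        ((((hd_t hz.2).pow 2).const_mul (2 * (d : ℂ))).mul (hd_comp hz.2 d1)))).congr_deriv ?_, ?_⟩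
    · simp only [ht, he2, Pi.add_apply, Pi.mul_apply, Pi.pow_apply]; push_cast; ring
    · have h1 := c_ne hz.2
      have han : (a : ℂ) * m = 2 * M * (M + d) * om - 2 * d * κ := by
        push_cast at hκ; linear_combination hκ
      have ha2 : (a : ℂ) ^ 2 = M ^ 2 - d ^ 2 := by exact_mod_cast ha
      have hs2 : (s : ℂ) ^ 2 = 4 := by exact_mod_cast hs
      have hc : cc M a (2 * d) m om κ l = om ^ 2 * (8 * M ^ 2 + 8 * M * d) -
          4 * (2 * M * (M + d) * om - 2 * d * κ) * om + 8 * M * om * κ - (1 + (l - 4)) +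
          I * ((2 * M + 2 * d) * om + 2 * κ) := by
        unfold cc; rw [← han]; push_cast; ring
      unfold Pq De Kf at hP
      push_cast at hP
      rw [han, ha2] at hP
      have hr : (rz M d z : ℂ) = M - d + 2 * d * (1 - (z : ℂ))⁻¹ := by unfold rz; push_cast; rfl
      rw [hr] at hP
      rw [hc]
      unfold Lop Ac Bc e1
      simp only [he2, ht]
      push_cast
      generalize f (rz M d z) = F0 at hP ⊢
      generalize f1 (rz M d z) = F1 at hP ⊢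
      generalize f2 (rz M d z) = F2 at hP ⊢
      generalize Ez M d om z = E
      linear_combination (norm := (field_simp; ring)) E * hP - E * F0 * hs2 +
        E * F0 * (z * (1 - z) ^ 2 * (-(4 * om * d) * ((1 - (z : ℂ))⁻¹) ^ 2 -
          4 * M * om * (1 - (z : ℂ))⁻¹) ^ 2 + (-2 * κ * (1 - z) ^ 2 + 4 * M * om * z * (1 - z) +
          4 * om * d * z) * (-(4 * om * d) * ((1 - (z : ℂ))⁻¹) ^ 2 -
          4 * M * om * (1 - (z : ℂ))⁻¹) + 8 * κ * M * om * z) * Complex.I_sq)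
  have tw : ∀ {g : ℝ → ℂ}, ContinuousAt g 0 → Tendsto g (𝓝[>] 0) (𝓝 (g 0)) := fun hg =>
    hg.tendsto.mono_left nhdsWithin_le_nhds
  have cE := tw (hd_Ez M d om zero_lt_one).continuousAt
  have c1 := tw (hd_e1 M d om zero_lt_one).continuousAt
  have ct : Tendsto t (𝓝[>] 0) (𝓝 (t 0)) := tw (hd_t zero_lt_one).continuousAt
  have c2 : Tendsto e2 (𝓝[>] 0) (𝓝 (e2 0)) :=
    (((ct.pow 3).const_mul 2).const_mul _).add ((ct.pow 2).const_mul _)
  have s0 := t0.comp (t_rz hd)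
  have s1 := t1.comp (t_rz hd)
  have s2 := t2.comp (t_rz hd)
  have c3 := (ct.pow 2).const_mul (2 * (d : ℂ))
  refine ⟨u, hu, u0, fun z hz => (u1 z hz).1, _, _, _, by rw [u0]; exact cE.mul s0,
    (cE.mul ((c1.mul s0).add (c3.mul s1))).congr' ?_,
    (cE.mul (((((c1.pow 2).add c2).mul s0).add ((((c1.const_mul 2).mul c3).add
      ((ct.pow 3).const_mul (4 * (d : ℂ)))).mul s1)).add ((c3.pow 2).mul s2))).congr' ?_⟩
  · filter_upwards [Ioo_mem_nhdsGT zero_lt_one] with z hz using (u1 z hz).1.symm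
  · filter_upwards [Ioo_mem_nhdsGT zero_lt_one] with z hz using (u1 z hz).2.symm

theorem from_z (hd : 0 < d) (h : ∀ z ∈ Ioo (0 : ℝ) 1, Ez M d om z * f (rz M d z) = 0) :
    ∀ r, M + d < r → f r = 0 := by
  intro r hr
  have := h _ (zr_mem hd hr).1
  rw [(zr_mem hd hr).2] at this
  exact (mul_eq_zero.1 this).resolve_left (Complex.exp_ne_zero _)

theorem kap_im (hM : 0 < M) (hd : 0 < d) (h0 : 0 ≤ om.im)
    (hκ : (2 * d : ℝ) * κ = 2 * M * (M + (2 * d : ℝ) / 2) * om - a * m) : 0 ≤ κ.im := by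
  have h1 : (((2 * d : ℝ) : ℂ) * κ).im =
      (((2 * M * (M + d) : ℝ) : ℂ) * om - ((a * m : ℝ) : ℂ)).im := by
    rw [hκ]; congr 1; push_cast; ring
  simp only [Complex.sub_im, Complex.im_ofReal_mul, Complex.ofReal_im, sub_zero] at h1
  refine le_of_mul_le_mul_left ?_ (show 0 < 2 * d by linarith)
  rw [h1, mul_zero]
  positivity

theorem rplus (hM : 0 < M) (hd : 0 < d) (ha : a ^ 2 = M ^ 2 - d ^ 2) (h0 : 0 ≤ om.im)
    (hne : om ≠ 0) (hl : (conj om * (l - 4)).im ≤ a ^ 2 * normSq om * om.im)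
    (h : ∀ r, M + d < r → HasDerivAt f (f1 r) r ∧ HasDerivAt f1 (f2 r) r ∧
      Pq 2 M a om m l r (f r) (f1 r) (f2 r) = 0) {a0 a1 a2 : ℂ}
    (t0 : Tendsto f (𝓝[>] (M + d)) (𝓝 a0)) (t1 : Tendsto f1 (𝓝[>] (M + d)) (𝓝 a1))
    (t2 : Tendsto f2 (𝓝[>] (M + d)) (𝓝 a2)) {L : Filter ℝ} [L.NeBot] (hL : L ≤ atTop)
    (i0 : Tendsto (fun r => f r / (r : ℂ) ^ 3) L (𝓝 0))
    (i1 : Tendsto (fun r => f1 r / (r : ℂ) ^ 3) L (𝓝 0)) : ∀ r, M + d < r → f r = 0 := by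
  have d0 : (((2 * d : ℝ)) : ℂ) ≠ 0 := by exact_mod_cast (by linarith : 2 * d ≠ 0)
  obtain ⟨κ, hκ⟩ : ∃ κ : ℂ, (2 * d : ℝ) * κ = 2 * M * (M + (2 * d : ℝ) / 2) * om - a * m :=
    ⟨_, mul_div_cancel₀ _ d0⟩
  have k0 := kap_im hM hd h0 hκ
  obtain ⟨u, hu, u0, u1, b0, b1, b2, s0, s1, s2⟩ := to_z (by norm_num) hd ha hκ h t0 t1 t2
  have hl' : map (zr M d) L ≤ 𝓝[<] 1 := (t_zr hd).mono_left hL
  have hM0 := mul_nonneg hM.le h0
  refine from_z (om := om) hd ?_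
  have := hu.plus (by simp; linarith) (by simp; linarith) (by simp; positivity)
    (mul_ne_zero (mul_ne_zero two_ne_zero hne) d0) (by simp; linarith) (by simp; linarith)
    (noswap hM (by linarith) (by nlinarith) hκ h0 hne hl (by ring) (by push_cast; ring))
    s0 s1 s2 hl' ?_
  · rwa [u0] at this
  have bb : ∀ {g : ℝ → ℂ}, ContinuousAt g 1 → Bd (map (zr M d) L) g := fun hg =>
    (Bd.of_cont hg).mono hl'
  have := (bb ((ca_zpow (-((2 : ℝ) : ℂ) - 2 * I * κ)).mul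
    (g := fun z : ℝ => (z : ℂ) * ((M - d) * (1 - z) + 2 * d) ^ 3) (by fun_prop))).zero
    (((bb (g := fun z : ℝ => -(I * (2 * om * (2 * d : ℝ))) + (1 + -4 * I * M * om) * (1 - (z : ℂ)))
      (by fun_prop)).zero (push hd hL i0)).add ((push hd hL i1).mul_const (2 * (d : ℂ)))
      |>.trans_eq (by simp))
  refine this.congr' ?_
  filter_upwards [hl' (Ioo_mem_nhdsLT zero_lt_one)] with z hz
  have e := rho_E (-((2 : ℝ) : ℂ) - 2 * I * κ) ((3 : ℕ) : ℂ) M d om z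
  rw [exp_log_nat hz.2] at e
  have h1 := c_ne hz.2
  have r0 : (rz M d z : ℂ) ≠ 0 := by exact_mod_cast (by linarith [rz_gt (M := M) hd hz] : rz M d z ≠ 0)
  rw [u1 z hz, show ((2 : ℝ) : ℂ) - 2 * I * κ + -4 * I * M * om - (-((2 : ℝ) : ℂ) - 2 * I * κ) =
    ((3 : ℕ) : ℂ) + (1 + -4 * I * M * om) by push_cast; ring, mul_right_comm _ (Ac z),
    ← mul_assoc _ (Ez M d om z), e,
    Pi.mul_apply, ← rz_mul M d hz.2]
  unfold Ac e1
  field_simp

end

end P354MS
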