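import Mathlib

/-! Mode stability, part 1: three term recurrences and the series they define. -/

namespace P354MS
open Complex Set Filter Topology Asymptotics

def al (μ : ℂ) (n : ℕ) : ℂ := (n + 1) * (n + 1 + μ)
def be (σ Ω c : ℂ) (n : ℕ) : ℂ := c - 2 * n ^ 2 - (2 - I * Ω + σ) * n
def ga (μ ν : ℂ) (n : ℕ) : ℂ := (n + μ) * (n + ν)
def Ac (z : ℝ) : ℂ := z * (1 - z) ^ 2
def Bc (μ q Ω : ℂ) (z : ℝ) : ℂ := (1 + μ) * (1 - z) ^ 2 - (2 + q) * z * (1 - z) + I * Ω * z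

/-- The confluent Heun operator with masses `m1 | m2, m3`. -/
def Lop (m1 m2 m3 Ω c : ℂ) (z : ℝ) (y0 y1 y2 : ℂ) : ℂ :=
  Ac z * y2 + Bc m1 (m2 + m3 - m1) Ω z * y1 + (c + (1 + m2) * (1 + m3) * z) * y0

/-- Rapidly decreasing sequences. -/
def Rap (a : ℕ → ℂ) : Prop := ∀ D : ℕ, a =O[atTop] fun n : ℕ => ((n : ℝ) ^ D)⁻¹

theorem Lop_mono (m1 m2 m3 Ω c : ℂ) (z : ℝ) (n : ℕ) :
    Lop m1 m2 m3 Ω c z ((z : ℂ) ^ (n + 1)) (((n + 1 : ℕ) : ℂ) * (z : ℂ) ^ n)
      (((n + 1 : ℕ) : ℂ) * ((n : ℂ) * (z : ℂ) ^ (n - 1))) =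
      al m1 n * (z : ℂ) ^ n + be (m1 + m2 + m3) Ω c (n + 1) * (z : ℂ) ^ (n + 1) +
        ga m2 m3 (n + 2) * (z : ℂ) ^ (n + 2) := by
  unfold Lop Ac Bc al be ga
  cases n with
  | zero => push_cast; ring
  | succ k => simp only [Nat.add_sub_cancel]; push_cast; ring

theorem Rap.summ {a : ℕ → ℂ} (ha : Rap a) : Summable fun n : ℕ => ‖a n‖ * ((n : ℝ) + 1) ^ 2 := by
  have h1 : (fun n : ℕ => ((n : ℝ) + 1) ^ 2) =O[atTop] fun n : ℕ => (n : ℝ) ^ 2 := by
    refine IsBigO.of_bound 4 ?_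
    filter_upwards [eventually_ge_atTop 1] with n hn
    have : (1 : ℝ) ≤ n := by exact_mod_cast hn
    rw [Real.norm_of_nonneg (by positivity), Real.norm_of_nonneg (by positivity)]
    nlinarith
  have h2 := (ha 4).norm_left.mul h1
  refine summable_of_isBigO_nat (g := fun n : ℕ => ((n : ℝ) ^ 2)⁻¹) ?_ (h2.trans ?_)
  · exact Real.summable_nat_pow_inv.2 (by norm_num)
  · refine IsBigO.of_bound 1 ?_
    filter_upwards [eventually_ge_atTop 1] with n hn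
    have : (0 : ℝ) < n := by exact_mod_cast hn
    have e : ((n : ℝ) ^ 4)⁻¹ * (n : ℝ) ^ 2 = ((n : ℝ) ^ 2)⁻¹ := by field_simp
    rw [e, one_mul]

theorem npow_le {z : ℝ} (hz : z ∈ Icc (0 : ℝ) 1) (n : ℕ) : ‖(z : ℂ) ^ n‖ ≤ 1 := by
  rw [norm_pow, Complex.norm_real, Real.norm_of_nonneg hz.1]
  exact pow_le_one₀ hz.1 hz.2

theorem hd_pow (n : ℕ) (z : ℝ) :
    HasDerivAt (fun z : ℝ => (z : ℂ) ^ n) ((n : ℂ) * (z : ℂ) ^ (n - 1)) z :=
  (hasDerivAt_pow n (z : ℂ)).comp_ofReal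

theorem series {m1 m2 m3 Ω c : ℂ} {a : ℕ → ℂ} (ha : Rap a)
    (h0 : al m1 0 * a 1 + be (m1 + m2 + m3) Ω c 0 * a 0 = 0)
    (hr : ∀ n, al m1 (n + 1) * a (n + 2) + be (m1 + m2 + m3) Ω c (n + 1) * a (n + 1) +
      ga m2 m3 (n + 1) * a n = 0) :
    ∃ Y Y1 Y2 : ℝ → ℂ, ContinuousOn Y (Icc 0 1) ∧ ContinuousOn Y1 (Icc 0 1) ∧ Y 0 = a 0 ∧
      ∀ z ∈ Ioo (0 : ℝ) 1, HasDerivAt Y (Y1 z) z ∧ HasDerivAt Y1 (Y2 z) z ∧
        Lop m1 m2 m3 Ω c z (Y z) (Y1 z) (Y2 z) = 0 := by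
  set u : ℕ → ℝ := fun n => ‖a n‖ * ((n : ℝ) + 1) ^ 2 with hu
  have hs : Summable u := ha.summ
  set g0 : ℕ → ℝ → ℂ := fun n z => a n * (z : ℂ) ^ n with hg0
  set g1 : ℕ → ℝ → ℂ := fun n z => a n * ((n : ℂ) * (z : ℂ) ^ (n - 1)) with hg1
  set g2 : ℕ → ℝ → ℂ := fun n z =>
    a n * ((n : ℂ) * (((n - 1 : ℕ) : ℂ) * (z : ℂ) ^ (n - 1 - 1))) with hg2
  have b0 : ∀ n, ∀ z ∈ Icc (0 : ℝ) 1, ‖g0 n z‖ ≤ u n := by
    intro n z hz
    have := npow_le hz n
    have hn : (0 : ℝ) ≤ n := Nat.cast_nonneg n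
    simp only [hg0, hu, norm_mul]
    gcongr
    nlinarith
  have b1 : ∀ n, ∀ z ∈ Icc (0 : ℝ) 1, ‖g1 n z‖ ≤ u n := by
    intro n z hz
    have := npow_le hz (n - 1)
    have hn : (0 : ℝ) ≤ n := Nat.cast_nonneg n
    simp only [hg1, hu, norm_mul, Complex.norm_natCast]
    gcongr
    nlinarith [norm_nonneg ((z : ℂ) ^ (n - 1))]
  have b2 : ∀ n, ∀ z ∈ Icc (0 : ℝ) 1, ‖g2 n z‖ ≤ u n := by
    intro n z hz
    have := npow_le hz (n - 1 - 1)
    have hn : (0 : ℝ) ≤ n := Nat.cast_nonneg n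
    have hm : ((n - 1 : ℕ) : ℝ) ≤ n := by exact_mod_cast Nat.sub_le n 1
    have hm0 : (0 : ℝ) ≤ ((n - 1 : ℕ) : ℝ) := Nat.cast_nonneg _
    simp only [hg2, hu, norm_mul, Complex.norm_natCast]
    gcongr
    have : ((n - 1 : ℕ) : ℝ) * ‖(z : ℂ) ^ (n - 1 - 1)‖ ≤ n := by
      nlinarith [norm_nonneg ((z : ℂ) ^ (n - 1 - 1))]
    nlinarith [mul_le_mul_of_nonneg_left this hn]
  have d0 : ∀ n z, HasDerivAt (g0 n) (g1 n z) z := fun n z => (hd_pow n z).const_mul _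
  have d1 : ∀ n z, HasDerivAt (g1 n) (g2 n z) z := fun n z =>
    ((hd_pow (n - 1) z).const_mul _).const_mul _
  have s0 : ∀ z ∈ Icc (0 : ℝ) 1, Summable fun n => g0 n z := fun z hz =>
    .of_norm_bounded hs fun n => b0 n z hz
  have s1 : ∀ z ∈ Icc (0 : ℝ) 1, Summable fun n => g1 n z := fun z hz =>
    .of_norm_bounded hs fun n => b1 n z hz
  have s2 : ∀ z ∈ Icc (0 : ℝ) 1, Summable fun n => g2 n z := fun z hz =>
    .of_norm_bounded hs fun n => b2 n z hz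
  refine ⟨fun z => ∑' n, g0 n z, fun z => ∑' n, g1 n z, fun z => ∑' n, g2 n z,
    continuousOn_tsum (fun n => fun z _ => (d0 n z).continuousAt.continuousWithinAt) hs b0,
    continuousOn_tsum (fun n => fun z _ => (d1 n z).continuousAt.continuousWithinAt) hs b1,
    ?_, fun z hz => ⟨?_, ?_, ?_⟩⟩
  · show ∑' n, g0 n 0 = a 0
    rw [tsum_eq_single 0]
    · simp [hg0]
    · intro n hn; simp [hg0, hn]
  · exact hasDerivAt_tsum_of_isPreconnected hs isOpen_Ioo isPreconnected_Ioo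
      (fun n y _ => d0 n y) (fun n y hy => b1 n y (Ioo_subset_Icc_self hy)) hz
      (s0 z (Ioo_subset_Icc_self hz)) hz
  · exact hasDerivAt_tsum_of_isPreconnected hs isOpen_Ioo isPreconnected_Ioo
      (fun n y _ => d1 n y) (fun n y hy => b2 n y (Ioo_subset_Icc_self hy)) hz
      (s1 z (Ioo_subset_Icc_self hz)) hz
  · have hz' := Ioo_subset_Icc_self hz
    have key : ∀ N : ℕ, Lop m1 m2 m3 Ω c z (∑ n ∈ Finset.range (N + 1), g0 n z)
        (∑ n ∈ Finset.range (N + 1), g1 n z) (∑ n ∈ Finset.range (N + 1), g2 n z) =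
        -(al m1 N * a (N + 1) * (z : ℂ) ^ N) + ga m2 m3 (N + 1) * a N * (z : ℂ) ^ (N + 1) := by
      intro N
      induction N with
      | zero =>
        simp only [zero_add, Finset.sum_range_one, hg0, hg1, hg2]
        unfold Lop Ac Bc ga
        unfold be at h0
        push_cast at h0 ⊢
        linear_combination h0
      | succ N ih =>
        have hm := Lop_mono m1 m2 m3 Ω c z N
        have h := hr N
        rw [Finset.sum_range_succ (fun n => g0 n z), Finset.sum_range_succ (fun n => g1 n z),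
          Finset.sum_range_succ (fun n => g2 n z)]
        simp only [hg0, hg1, hg2, Nat.add_sub_cancel] at ih ⊢
        unfold Lop at ih hm ⊢
        linear_combination ih + a (N + 1) * hm + (z : ℂ) ^ (N + 1) * h
    have t0 := ((s0 z hz').hasSum.tendsto_sum_nat).comp (tendsto_add_atTop_nat 1)
    have t1 := ((s1 z hz').hasSum.tendsto_sum_nat).comp (tendsto_add_atTop_nat 1)
    have t2 := ((s2 z hz').hasSum.tendsto_sum_nat).comp (tendsto_add_atTop_nat 1)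
    have tl : Tendsto (fun N : ℕ => Lop m1 m2 m3 Ω c z (∑ n ∈ Finset.range (N + 1), g0 n z)
        (∑ n ∈ Finset.range (N + 1), g1 n z) (∑ n ∈ Finset.range (N + 1), g2 n z)) atTop
        (𝓝 (Lop m1 m2 m3 Ω c z (∑' n, g0 n z) (∑' n, g1 n z) (∑' n, g2 n z))) :=
      ((t2.const_mul _).add (t1.const_mul _)).add (t0.const_mul _)
    have tu : Tendsto u atTop (𝓝 0) := hs.tendsto_atTop_zero
    have tr : Tendsto (fun N : ℕ => -(al m1 N * a (N + 1) * (z : ℂ) ^ N) +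
        ga m2 m3 (N + 1) * a N * (z : ℂ) ^ (N + 1)) atTop (𝓝 0) := by
      have h1 := ((tu.comp (tendsto_add_atTop_nat 1)).const_mul (1 + ‖m1‖)).add
        (tu.const_mul ((1 + ‖m2‖) * (1 + ‖m3‖)))
      simp only [mul_zero, add_zero] at h1
      refine squeeze_zero_norm (fun N => ?_) h1
      have hN : (0 : ℝ) ≤ N := Nat.cast_nonneg N
      have e1 : ∀ μ : ℂ, ‖(N : ℂ) + 1 + μ‖ ≤ (1 + ‖μ‖) * ((N : ℝ) + 1) := by
        intro μ
        have : ‖(N : ℂ) + 1‖ = (N : ℝ) + 1 := by exact_mod_cast Complex.norm_natCast (N + 1)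
        have h2 := norm_add_le ((N : ℂ) + 1) μ
        nlinarith [norm_nonneg μ]
      have e0 : ‖(N : ℂ) + 1‖ = (N : ℝ) + 1 := by exact_mod_cast Complex.norm_natCast (N + 1)
      have p1 : ‖al m1 N * a (N + 1) * (z : ℂ) ^ N‖ ≤ (1 + ‖m1‖) * u (N + 1) := by
        rw [norm_mul, norm_mul, al, norm_mul, e0]
        calc _ ≤ ((N : ℝ) + 1) * ((1 + ‖m1‖) * ((N : ℝ) + 1)) * ‖a (N + 1)‖ * 1 := by
              gcongr
              · exact e1 m1
              · exact npow_le hz' N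
          _ ≤ _ := by
              simp only [hu]; push_cast
              have : 0 ≤ (1 + ‖m1‖) * ‖a (N + 1)‖ := by positivity
              nlinarith [mul_nonneg this hN]
      have p2 : ‖ga m2 m3 (N + 1) * a N * (z : ℂ) ^ (N + 1)‖ ≤
          (1 + ‖m2‖) * (1 + ‖m3‖) * u N := by
        rw [norm_mul, norm_mul, ga, norm_mul]
        push_cast
        calc _ ≤ ((1 + ‖m2‖) * ((N : ℝ) + 1)) * ((1 + ‖m3‖) * ((N : ℝ) + 1)) * ‖a N‖ * 1 := by
              gcongr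
              · exact e1 m2
              · exact e1 m3
              · exact npow_le hz' (N + 1)
          _ = _ := by simp only [hu]; ring
      refine (norm_add_le _ _).trans ?_
      rw [norm_neg]
      exact add_le_add p1 p2
    simp only [key] at tl
    exact tendsto_nhds_unique tl tr

end P354MS
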