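import Vale.Agent.P354MS.RM

/-! Mode stability, part 11: the static scalar equation. -/

namespace P354MS
open Complex Set Filter Topology Asymptotics ComplexConjugate Vale.Agent.P354BF

theorem mono_of {f f' : ℝ → ℝ} {s : Set ℝ} (hs : Convex ℝ s) (hd : ∀ x ∈ s, HasDerivAt f (f' x) x)
    (h0 : ∀ x ∈ s, 0 ≤ f' x) : MonotoneOn f s :=
  monotoneOn_of_deriv_nonneg hs (fun x hx => (hd x hx).continuousAt.continuousWithinAt)
    (fun x hx => (hd x (interior_subset hx)).differentiableAt.differentiableWithinAt)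
    fun x hx => by rw [(hd x (interior_subset hx)).deriv]; exact h0 x (interior_subset hx)

theorem hd_De (M a r : ℝ) : HasDerivAt (De M a) (2 * r - 2 * M) r := by
  unfold De
  exact ((((hasDerivAt_id r).pow 2).sub ((hasDerivAt_id r).const_mul (2 * M))).add_const
    (a ^ 2)).congr_deriv (by simp)

theorem grow {M a R : ℝ} {ψ ψ1 V : ℝ → ℝ} (hR : 0 < R)
    (hd : ∀ r, R ≤ r → HasDerivAt ψ (ψ1 r) r ∧
      HasDerivAt (fun r => De M a r * ψ1 r) (V r * ψ r) r ∧ 0 < De M a r ∧ 0 ≤ V r ∧
      6 * r ^ 2 - 8 * M * r + 2 * a ^ 2 + 1 ≤ V r * r ^ 2)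
    (h0 : 0 < ψ R) (h1 : 0 ≤ ψ1 R) : ∃ c > 0, ∀ᶠ r in atTop, c * r ^ 2 ≤ ψ r := by
  have mP := mono_of (convex_Ici R) (f := fun r => De M a r * ψ1 r * ψ r)
    (fun r hr => (hd r hr).2.1.mul (hd r hr).1) (fun r hr => by
      obtain ⟨-, -, p1, p2, -⟩ := hd r hr
      nlinarith [mul_nonneg p2 (sq_nonneg (ψ r)), mul_nonneg p1.le (sq_nonneg (ψ1 r))])
  have P0 : ∀ r, R ≤ r → 0 ≤ ψ1 r * ψ r := fun r hr => by
    have h := mP self_mem_Ici hr hr
    have p1 := (hd R le_rfl).2.2.1
    have : 0 ≤ De M a r * (ψ1 r * ψ r) := by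
      have : 0 ≤ De M a R * ψ1 R * ψ R := by positivity
      simp only at h; linarith
    exact (mul_nonneg_iff_of_pos_left (hd r hr).2.2.1).1 this
  have mS := mono_of (convex_Ici R) (f := fun r => ψ r * ψ r)
    (fun r hr => (hd r hr).1.mul (hd r hr).1) (fun r hr => by linarith [P0 r hr])
  have pos : ∀ r, R ≤ r → ψ R ≤ ψ r := fun r hr => by
    have p : 0 < ψ r := by
      by_contra hh
      obtain ⟨x, hx, hx0⟩ := intermediate_value_Icc' hr (f := ψ)
        (fun x hx => (hd x hx.1).1.continuousAt.continuousWithinAt) ⟨not_lt.1 hh, h0.le⟩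
      have := mS self_mem_Ici hx.1 hx.1
      simp only [hx0] at this
      nlinarith
    have := mS self_mem_Ici hr hr
    simp only at this
    nlinarith
  set W : ℝ → ℝ := fun r => De M a r * ψ1 r * r ^ 2 - De M a r * (2 * r) * ψ r with hW
  have mW := mono_of (convex_Ici R) (f := fun r => W r - ψ R * r)
    (f' := fun r => ψ r * (V r * r ^ 2 - (6 * r ^ 2 - 8 * M * r + 2 * a ^ 2)) - ψ R)
    (fun r hr => ((((hd r hr).2.1.mul ((hasDerivAt_id r).pow 2)).sub
      (((hd_De M a r).mul ((hasDerivAt_id r).const_mul 2)).mul (hd r hr).1)).sub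
      ((hasDerivAt_id r).const_mul (ψ R))).congr_deriv (by
        simp only [Pi.mul_apply, Pi.pow_apply, id]; unfold De; push_cast; ring))
    (fun r hr => by
      have p := pos r hr
      have q := (hd r hr).2.2.2.2
      nlinarith)
  set R3 := R + |W R| / ψ R with hR3
  have R3R : R ≤ R3 := le_add_of_nonneg_right (by positivity)
  have W0 : ∀ r, R3 ≤ r → 0 ≤ W r := fun r hr => by
    have h := mW self_mem_Ici (R3R.trans hr) (R3R.trans hr)
    simp only at h
    have e : ψ R * R3 = ψ R * R + |W R| := by rw [hR3]; field_simp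
    nlinarith [neg_abs_le (W R), mul_le_mul_of_nonneg_left hr h0.le]
  have mQ := mono_of (convex_Ici R3) (f := fun r => ψ r / r ^ 2)
    (f' := fun r => W r / (De M a r * r ^ 4))
    (fun r hr => by
      have r0 : 0 < r := hR.trans_le (R3R.trans hr)
      have p1 := (hd r (R3R.trans hr)).2.2.1
      refine ((hd r (R3R.trans hr)).1.div ((hasDerivAt_id r).pow 2)
        (pow_ne_zero 2 r0.ne')).congr_deriv ?_
      simp only [Pi.pow_apply, id, hW]
      push_cast
      field_simp)
    (fun r hr => by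
      have r0 : 0 < r := hR.trans_le (R3R.trans hr)
      have p1 := (hd r (R3R.trans hr)).2.2.1
      exact div_nonneg (W0 r hr) (by positivity))
  have r3 : 0 < R3 := hR.trans_le R3R
  refine ⟨ψ R3 / R3 ^ 2, div_pos (h0.trans_le (pos _ R3R)) (by positivity), ?_⟩
  filter_upwards [eventually_ge_atTop R3] with r hr
  have h := mQ self_mem_Ici hr hr
  have r0 : 0 < r := r3.trans_le hr
  simp only at h
  rwa [le_div_iff₀ (by positivity)] at h

theorem De_eq {M a d : ℝ} (ha : a ^ 2 = M ^ 2 - d ^ 2) (r : ℝ) :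
    De M a r = (r - (M + d)) * (r - (M - d)) := by unfold De; rw [ha]; ring

theorem De_pos {M a d r : ℝ} (hd : 0 < d) (ha : a ^ 2 = M ^ 2 - d ^ 2) (hr : M + d < r) :
    0 < De M a r := by rw [De_eq ha]; exact mul_pos (by linarith) (by linarith)

theorem t_De {M a d : ℝ} (ha : a ^ 2 = M ^ 2 - d ^ 2) :
    Tendsto (fun r => (De M a r : ℂ)) (𝓝[>] (M + d)) (𝓝 0) := by
  have := (hd_De M a (M + d)).ofReal_comp.continuousAt.tendsto.mono_left
    (nhdsWithin_le_nhds (s := Ioi (M + d)))
  rwa [De_eq ha, sub_self, zero_mul, Complex.ofReal_zero] at this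

theorem stat {M a d n L : ℝ} (hM : 0 < M) (hd : 0 < d) (ha : a ^ 2 = M ^ 2 - d ^ 2) (hL : 6 ≤ L)
    {g g1 : ℝ → ℂ} (h : ∀ r, M + d < r → HasDerivAt g (g1 r) r ∧
      HasDerivAt (fun r => (De M a r : ℂ) * g1 r) (L * g r - 2 * I * n * g1 r) r) {g0 : ℂ}
    (t0 : Tendsto g (𝓝[>] (M + d)) (𝓝 g0))
    (t1 : Tendsto (fun r => (De M a r : ℂ) * g1 r) (𝓝[>] (M + d)) (𝓝 0))
    {F : Filter ℝ} [F.NeBot] (hF : F ≤ atTop)
    (i : Tendsto (fun r => g r / (r : ℂ) ^ 2) F (𝓝 0)) : ∀ r, M + d < r → g r = 0 := by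
  set E : ℝ → ℂ := fun r => cexp (((n / (2 * d) *
    (Real.log (r - (M + d)) - Real.log (r - (M - d))) : ℝ) : ℂ) * I) with hE
  have nE : ∀ r, ‖E r‖ = 1 := fun r => Complex.norm_exp_ofReal_mul_I _
  have D0 : ∀ r, M + d < r → (De M a r : ℂ) ≠ 0 := fun r hr => by
    exact_mod_cast (De_pos hd ha hr).ne'
  have dE : ∀ r, M + d < r → HasDerivAt E (E r * (I * n / De M a r)) r := by
    intro r hr
    have p1 : r - (M + d) ≠ 0 := by linarith
    have p2 : r - (M - d) ≠ 0 := by linarith
    refine (((((((hasDerivAt_id r).sub_const _).log p1).sub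
      (((hasDerivAt_id r).sub_const _).log p2)).const_mul (n / (2 * d))).ofReal_comp.mul_const
      I).cexp).congr_deriv ?_
    have e : n / (2 * d) * (1 / (r - (M + d)) - 1 / (r - (M - d))) = n / De M a r := by
      rw [De_eq ha]; field_simp; ring
    simp only [id, Pi.sub_apply, hE]
    rw [e]; push_cast; ring
  set V : ℝ → ℝ := fun r => L - n ^ 2 / De M a r with hV
  set u : ℝ → ℂ := fun r => E r * g r with hu
  set u1 : ℝ → ℂ := fun r => E r * (g1 r + I * n / De M a r * g r) with hu1
  have du : ∀ r, M + d < r → HasDerivAt u (u1 r) r := fun r hr =>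
    ((dE r hr).mul (h r hr).1).congr_deriv (by simp only [hu1]; ring)
  have du1 : ∀ r, M + d < r → HasDerivAt (fun r => (De M a r : ℂ) * u1 r) (V r * u r) r := by
    intro r hr
    have := D0 r hr
    refine (((dE r hr).mul ((h r hr).2.add ((h r hr).1.const_mul (I * n)))).congr_deriv
      ?_).congr_of_eventuallyEq ?_
    · simp only [hV, hu, Pi.add_apply]
      push_cast
      field_simp
      linear_combination E r * (n : ℂ) ^ 2 * g r * Complex.I_sq
    · filter_upwards [Ioi_mem_nhds hr] with x hx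
      have := D0 x hx
      simp only [hu1, Pi.mul_apply, Pi.add_apply]
      field_simp
  have dre : ∀ c : ℂ, ∀ r, M + d < r → HasDerivAt (fun r => (c * u r).re) (c * u1 r).re r ∧
      HasDerivAt (fun r => De M a r * (c * u1 r).re) (V r * (c * u r).re) r := by
    intro c r hr
    refine ⟨Complex.reCLM.hasFDerivAt.comp_hasDerivAt r ((du r hr).const_mul c), ?_⟩
    have := Complex.reCLM.hasFDerivAt.comp_hasDerivAt r ((du1 r hr).const_mul c)
    refine (this.congr_deriv ?_).congr_of_eventuallyEq (Eventually.of_forall fun x => ?_)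
    · rw [Complex.reCLM_apply, mul_left_comm, Complex.re_ofReal_mul]
    · simp only [Function.comp, Complex.reCLM_apply]
      rw [mul_left_comm c (De M a x : ℂ), Complex.re_ofReal_mul]
  obtain ⟨R, hR1, hR2⟩ : ∃ R, M + d < R ∧ ∀ r, R ≤ r → 0 ≤ V r ∧
      6 * r ^ 2 - 8 * M * r + 2 * a ^ 2 + 1 ≤ V r * r ^ 2 := by
    refine ⟨4 * M + d + |n| + (2 * n ^ 2 + 2 * a ^ 2 + 1) / (8 * M), by
      have : 0 ≤ (2 * n ^ 2 + 2 * a ^ 2 + 1) / (8 * M) := by positivity
      linarith [abs_nonneg n], fun r hr => ?_⟩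
    have q0 : 0 ≤ (2 * n ^ 2 + 2 * a ^ 2 + 1) / (8 * M) := by positivity
    have q1 : 4 * M ≤ r := by linarith [abs_nonneg n]
    have q2 : |n| ≤ r := by linarith
    have q3 : 2 * n ^ 2 + 2 * a ^ 2 + 1 ≤ 8 * M * r := by
      have : (2 * n ^ 2 + 2 * a ^ 2 + 1) / (8 * M) ≤ r := by linarith [abs_nonneg n]
      rw [div_le_iff₀ (by positivity)] at this; linarith
    have r0 : 0 < r := by linarith
    have q4 : r ^ 2 / 2 ≤ De M a r := by unfold De; nlinarith [sq_nonneg a]
    have q5 : n ^ 2 / De M a r ≤ n ^ 2 / (r ^ 2 / 2) := by gcongr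
    have q6 : n ^ 2 / (r ^ 2 / 2) * r ^ 2 = 2 * n ^ 2 := by field_simp
    have q7 : n ^ 2 ≤ r ^ 2 := by rw [← sq_abs n]; gcongr
    have q8 : n ^ 2 / (r ^ 2 / 2) ≤ 2 := by rw [div_le_iff₀ (by positivity)]; linarith
    simp only [hV]
    exact ⟨by linarith, by nlinarith [mul_le_mul_of_nonneg_right q5 (sq_nonneg r), sq_nonneg r]⟩
  have dom : ∀ c : ℂ, 0 < (c * u R).re → 0 ≤ (c * u1 R).re → False := by
    intro c p0 p1
    obtain ⟨k, hk, hev⟩ := grow (M := M) (a := a) (V := V) (by linarith) (fun r hr =>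
      ⟨(dre c r (hR1.trans_le hr)).1, (dre c r (hR1.trans_le hr)).2,
        De_pos hd ha (hR1.trans_le hr), hR2 r hr⟩) p0 p1
    have := (i.const_mul c).norm
    rw [mul_zero, norm_zero] at this
    obtain ⟨r, h1, h2, h3⟩ := ((this.eventually (gt_mem_nhds hk)).and
      ((hev.filter_mono hF).and ((eventually_gt_atTop 0).filter_mono hF))).exists
    rw [norm_mul, norm_div, norm_pow, Complex.norm_real, Real.norm_of_nonneg h3.le,
      ← mul_div_assoc, div_lt_iff₀ (by positivity)] at h1
    have h4 := Complex.re_le_norm (c * u r)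
    simp only [hu, norm_mul, nE, one_mul] at h4 h2
    linarith
  set J : ℝ → ℝ := fun r => (conj (u r) * (De M a r * u1 r)).im with hJ
  have dJ : ∀ r ∈ Ioi (M + d), HasDerivAt J 0 r := by
    intro r hr
    have dc : HasDerivAt (fun r => conj (u r)) (conj (u1 r)) r := (du r hr).star
    refine (Complex.imCLM.hasFDerivAt.comp_hasDerivAt r (dc.mul (du1 r hr))).congr_deriv ?_
    rw [Complex.imCLM_apply, mul_left_comm, mul_left_comm (conj (u r)), Complex.add_im,
      Complex.im_ofReal_mul, Complex.im_ofReal_mul, Complex.conj_mul', Complex.conj_mul']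
    norm_cast
    simp
  have JR : J R = 0 := by
    have e : J R = De M a R * (conj (u R) * u1 R).im := by
      simp only [hJ]; rw [mul_left_comm, Complex.im_ofReal_mul]
    have e2 : ∀ x y : ℂ, (I * conj y * x).re = (conj x * y).im ∧ (I * conj y * y).re = 0 := by
      intro x y; constructor <;> simp <;> ring
    rcases lt_trichotomy (conj (u R) * u1 R).im 0 with p | p | p
    · exact (dom (-(I * conj (u1 R))) (by rw [neg_mul, Complex.neg_re, (e2 _ _).1]; linarith)
        (by rw [neg_mul, Complex.neg_re, (e2 (u R) _).2]; simp)).elim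
    · rw [e, p, mul_zero]
    · exact (dom (I * conj (u1 R)) (by rw [(e2 _ _).1]; exact p) (e2 (u R) _).2.ge).elim
  have J0 : ∀ r, M + d < r → J r = 0 := by
    intro r hr
    have m1 := mono_of (convex_Ioi (M + d)) dJ fun _ _ => le_rfl
    have m2 := mono_of (convex_Ioi (M + d)) (fun r hr => (dJ r hr).neg) fun _ _ => by simp
    rcases le_total r R with p | p
    · have := m1 hr hR1 p; have := m2 hr hR1 p; simp only [Pi.neg_apply] at this; linarith
    · have := m1 hR1 hr p; have := m2 hR1 hr p; simp only [Pi.neg_apply] at this; linarith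
  have tc : Tendsto (fun r => conj (g r)) (𝓝[>] (M + d)) (𝓝 (conj g0)) :=
    (Complex.continuous_conj.tendsto g0).comp t0
  have ng : n * normSq g0 = 0 := by
    have t2 := (Complex.continuous_im.tendsto _).comp (tc.mul (t1.add (t0.const_mul (I * n))))
    have t3 : Tendsto (fun _ : ℝ => (0 : ℝ)) (𝓝[>] (M + d))
        (𝓝 (conj g0 * (0 + I * n * g0)).im) := by
      refine t2.congr' ?_
      filter_upwards [self_mem_nhdsWithin] with r hr
      rw [← J0 r hr]
      have := D0 r hr
      have e : conj (E r) * E r = 1 := by rw [Complex.conj_mul', nE]; simp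
      simp only [hJ, hu, hu1, Function.comp, map_mul]
      congr 1
      field_simp
      linear_combination (-(conj (g r) * (De M a r * g1 r + g r * I * n))) * e
    have := tendsto_nhds_unique t3 tendsto_const_nhds
    rw [zero_add, show conj g0 * (I * n * g0) = ((n * normSq g0 : ℝ) : ℂ) * I by
      push_cast; rw [← Complex.mul_conj]; ring, Complex.im_ofReal_mul] at this
    simpa using this
  have g00 : g0 = 0 := by
    by_contra hne
    have n0 : n = 0 := (mul_eq_zero.1 ng).resolve_right (normSq_pos.2 hne).ne'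
    have e1 : ∀ r, u r = g r := fun r => by simp [hu, hE, n0]
    have e2 : ∀ r, u1 r = g1 r := fun r => by simp [hu1, hE, n0]
    have e3 : ∀ r, V r = L := fun r => by simp [hV, n0]
    set ψ : ℝ → ℝ := fun r => (conj g0 * u r).re with hψ
    set ψ1 : ℝ → ℝ := fun r => (conj g0 * u1 r).re with hψ1
    have tψ : Tendsto ψ (𝓝[>] (M + d)) (𝓝 (conj g0 * g0).re) := by
      simp only [hψ, e1]
      exact (Complex.continuous_re.tendsto _).comp (t0.const_mul _)
    have tφ : Tendsto (fun r => De M a r * ψ1 r) (𝓝[>] (M + d)) (𝓝 (conj g0 * 0).re) := by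
      refine ((Complex.continuous_re.tendsto _).comp (t1.const_mul (conj g0))).congr fun r => ?_
      simp only [hψ1, e2, Function.comp]
      rw [mul_left_comm, Complex.re_ofReal_mul]
    have lim : ∀ {f : ℝ → ℝ} {x : ℝ}, MonotoneOn f (Ioi (M + d)) →
        Tendsto f (𝓝[>] (M + d)) (𝓝 x) → ∀ r, M + d < r → x ≤ f r := fun hf tf r hr =>
      le_of_tendsto tf (by
        filter_upwards [Ioo_mem_nhdsGT hr] with t ht using hf ht.1 hr ht.2.le)
    have mP := mono_of (convex_Ioi (M + d)) (f := fun r => De M a r * ψ1 r * ψ r)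
      (fun r hr => (dre _ r hr).2.mul (dre _ r hr).1) (fun r hr => by
        have p1 := De_pos hd ha hr
        rw [e3]
        nlinarith [mul_nonneg (show 0 ≤ L by linarith) (sq_nonneg (conj g0 * u r).re),
          mul_nonneg p1.le (sq_nonneg (conj g0 * u1 r).re)])
    have P0 : ∀ r, M + d < r → 0 ≤ ψ1 r * ψ r := fun r hr => by
      have := lim mP (tφ.mul tψ) r hr
      rw [mul_zero, Complex.zero_re, zero_mul, mul_assoc] at this
      exact (mul_nonneg_iff_of_pos_left (De_pos hd ha hr)).1 this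
    have mS := mono_of (convex_Ioi (M + d)) (f := fun r => ψ r * ψ r)
      (fun r hr => (dre _ r hr).1.mul (dre _ r hr).1) (fun r hr => by
        have := P0 r hr
        simp only [hψ, hψ1] at this
        linarith)
    have S0 := lim mS (tψ.mul tψ) R hR1
    have p : 0 < (conj g0 * g0).re := by
      rw [mul_comm, Complex.mul_conj, Complex.ofReal_re]; exact normSq_pos.2 hne
    have P1 := P0 R hR1
    rcases lt_trichotomy (ψ R) 0 with q | q | q
    · exact dom (-conj g0) (by rw [neg_mul, Complex.neg_re]; exact neg_pos.2 q)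
        (by rw [neg_mul, Complex.neg_re]; exact neg_nonneg.2 (by
          by_contra hh
          have : 0 < ψ1 R := not_le.1 hh
          nlinarith))
    · simp only [q] at S0; nlinarith
    · exact dom (conj g0) q ((mul_nonneg_iff_of_pos_right q).1 P1)
  rw [g00] at t0
  intro r hr
  have E0 : ∀ r, E r ≠ 0 := fun r => Complex.exp_ne_zero _
  refine fuchs (a := M + d) (b := r + 1) (d := 1) (K := |L| / (2 * d))
    (φ := fun r => E r ^ 2 * (De M a r * g1 r)) (α := fun r => (E r ^ 2 * De M a r)⁻¹)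
    (β := fun r => E r ^ 2 * L) one_pos (fun x hx => (h x hx.1).1.congr_deriv ?_)
    (fun x hx => (((dE x hx.1).pow 2).mul (h x hx.1).2).congr_deriv ?_) (fun x hx => ?_)
    (fun x hx => ?_) t0 ?_ ?_ r ⟨hr, lt_add_one r⟩
  · have := D0 x hx.1; have := E0 x; field_simp
  · have := D0 x hx.1
    simp only [Pi.pow_apply]; push_cast; field_simp; ring
  · exact ((((dE x hx.1).continuousAt.pow 2).mul (hd_De M a x).ofReal_comp.continuousAt).inv₀
      (mul_ne_zero (pow_ne_zero 2 (E0 x)) (D0 x hx.1))).continuousWithinAt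
  · exact (((dE x hx.1).continuousAt.pow 2).mul continuousAt_const).continuousWithinAt
  · have b : Bd (𝓝[>] (M + d)) fun r => E r ^ 2 :=
      IsBigO.of_bound 1 (Eventually.of_forall fun r => by simp [nE])
    exact (b.zero t1).congr fun r => mul_comm _ _
  · intro t x ht htx _ _
    have p1 : 0 < x - (M + d) := by linarith
    have p2 : 0 < x - (M - d) := by linarith
    rw [norm_inv, norm_mul, norm_mul, norm_pow, norm_pow, nE, nE, Complex.norm_real,
      Complex.norm_real, De_eq ha, Real.norm_of_nonneg (mul_pos p1 p2).le, Real.norm_eq_abs]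
    have e : (1 ^ 2 * ((x - (M + d)) * (x - (M - d))))⁻¹ * (1 ^ 2 * |L|) * (x - (M + d)) =
        |L| / (x - (M - d)) := by field_simp
    rw [e]
    gcongr
    linarith

end P354MS
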