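import Vale.Agent.P354MS.Ser

/-! Mode stability, part 2: the monotone current of the mass swapped (Whiting) equation. -/

namespace P354MS
open Complex Set Filter Topology Asymptotics ComplexConjugate

def Pc (μ ν Ω : ℂ) (z : ℝ) : ℂ := μ * (1 - z) - ν * z * (1 - z) + I * Ω * z

/-- `(1-z)^2` times the potential of the swapped equation. -/
noncomputable def Uc (μ n1 n2 Ω c : ℂ) (z : ℝ) : ℂ :=
  (1 - z) ^ 2 * (z * (c + (1 + n1) * (1 + n2) * z)) -
    (1 - z) ^ 2 * z * (-μ - (n1 + n2) * (1 - 2 * z) + I * Ω) / 2 - Pc μ (n1 + n2) Ω z ^ 2 / 4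

theorem hd_ofReal (z : ℝ) : HasDerivAt (fun z : ℝ => (z : ℂ)) 1 z :=
  (hasDerivAt_id (z : ℂ)).comp_ofReal

theorem current {μ n1 n2 Ω c w : ℂ} {Y Y1 Y2 : ℝ → ℂ} (hw : 0 ≤ w.im)
    (hU : ∀ z ∈ Ioo (0 : ℝ) 1, 0 ≤ (conj w * Uc μ n1 n2 Ω c z).im)
    (h0 : (conj w * μ).im < 0) (h1 : 0 ≤ (conj w * (I * Ω)).im)
    (hμ : 0 ≤ μ.re) (hν : μ.re ≤ (n1 + n2).re) (hΩ : 0 ≤ Ω.im)
    (c0 : ContinuousOn Y (Icc 0 1)) (c1 : ContinuousOn Y1 (Icc 0 1))
    (hd : ∀ z ∈ Ioo (0 : ℝ) 1, HasDerivAt Y (Y1 z) z ∧ HasDerivAt Y1 (Y2 z) z ∧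
      Lop μ n1 n2 Ω c z (Y z) (Y1 z) (Y2 z) = 0) : Y 0 = 0 := by
  set N : ℝ → ℂ := fun z => (1 - (z : ℂ)) ^ 2 * z * Y1 z + Pc μ (n1 + n2) Ω z / 2 * Y z with hN
  set j : ℝ → ℝ := fun z => (conj w * (conj (Y z) * N z)).im with hj
  set G : ℝ → ℝ := fun z => μ.re * Real.log z + ((n1 + n2).re - μ.re) * Real.log (1 - z) -
    Ω.im * (1 - z)⁻¹ with hG
  have cN : ContinuousOn N (Icc 0 1) := by
    simp only [hN, Pc]
    fun_prop
  have cj : ContinuousOn j (Icc 0 1) := by
    simp only [hj]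
    refine Complex.continuous_im.comp_continuousOn (continuousOn_const.mul ?_)
    exact (Complex.continuous_conj.comp_continuousOn c0).mul cN
  have hJ : ∀ z ∈ Ioo (0 : ℝ) 1, ∃ d, d ≤ 0 ∧
      HasDerivAt (fun z => Real.exp (G z) * j z) d z := by
    intro z hz
    obtain ⟨d0, d1, ho⟩ := hd z hz
    have hz0 : z ≠ 0 := hz.1.ne'
    have hz1 : (1 - z) ≠ 0 := (sub_pos.2 hz.2).ne'
    have dz := hd_ofReal z
    have dN : HasDerivAt N ((-2 * (1 - (z : ℂ)) * z + (1 - z) ^ 2) * Y1 z +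
        (1 - (z : ℂ)) ^ 2 * z * Y2 z + ((-μ - (n1 + n2) * (1 - 2 * z) + I * Ω) / 2 * Y z +
        Pc μ (n1 + n2) Ω z / 2 * Y1 z)) z := by
      have hp : HasDerivAt (fun z : ℝ => Pc μ (n1 + n2) Ω z)
          (-μ - (n1 + n2) * (1 - 2 * z) + I * Ω) z := by
        unfold Pc
        refine ((((dz.const_sub 1).const_mul μ).sub
          ((dz.const_mul (n1 + n2)).mul (dz.const_sub 1))).add (dz.const_mul (I * Ω))).congr_deriv ?_
        ring
      refine ((((((dz.const_sub 1).pow 2).mul dz).mul d1).add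
        ((hp.div_const 2).mul d0)).congr_deriv ?_)
      simp only [Pi.mul_apply, Pi.pow_apply]
      push_cast
      ring
    set N' := (-2 * (1 - (z : ℂ)) * z + (1 - z) ^ 2) * Y1 z +
        (1 - (z : ℂ)) ^ 2 * z * Y2 z + ((-μ - (n1 + n2) * (1 - 2 * z) + I * Ω) / 2 * Y z +
        Pc μ (n1 + n2) Ω z / 2 * Y1 z) with hN'
    have dc : HasDerivAt (fun z => conj (Y z)) (conj (Y1 z)) z := d0.star
    have dj : HasDerivAt j (conj w * (conj (Y1 z) * N z + conj (Y z) * N')).im z :=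
      Complex.imCLM.hasFDerivAt.comp_hasDerivAt z ((dc.mul dN).const_mul (conj w))
    have dG : HasDerivAt G (μ.re * z⁻¹ + ((n1 + n2).re - μ.re) * (-1 / (1 - z)) -
        Ω.im * (-(-1) / (1 - z) ^ 2)) z :=
      (((Real.hasDerivAt_log hz0).const_mul _).add
        ((((hasDerivAt_id z).const_sub 1).log hz1).const_mul _)).sub
        ((((hasDerivAt_id z).const_sub 1).inv hz1).const_mul _)
    refine ⟨_, ?_, dG.exp.mul dj⟩
    set P := Pc μ (n1 + n2) Ω z with hP
    have cN' : conj (N z) = (1 - (z : ℂ)) ^ 2 * z * conj (Y1 z) + conj P / 2 * conj (Y z) := by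
      simp only [hN, map_add, map_mul, map_pow, map_sub, map_one, Complex.conj_ofReal,
        map_div₀, map_ofNat, hP]
    have id1 : (((1 - z) ^ 2 * z : ℝ) : ℂ) * (conj (Y1 z) * N z + conj (Y z) * N') =
        N z * conj (N z) - (P + conj P) / 2 * (conj (Y z) * N z) -
          Uc μ n1 n2 Ω c z * (Y z * conj (Y z)) := by
      rw [cN']
      unfold Lop Ac Bc at ho
      simp only [hN, hN', Uc, ← hP]
      have hP' : P = μ * (1 - z) - (n1 + n2) * z * (1 - z) + I * Ω * z := rfl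
      push_cast
      linear_combination (1 - (z : ℂ)) ^ 2 * z * conj (Y z) * ho +
        (1 - (z : ℂ)) ^ 2 * z * conj (Y z) * Y1 z * hP'
    have id2 : ((1 - z) ^ 2 * z) * (conj w * (conj (Y1 z) * N z + conj (Y z) * N')).im =
        -w.im * normSq (N z) - P.re * j z -
          (conj w * Uc μ n1 n2 Ω c z).im * normSq (Y z) := by
      have : ((1 - z) ^ 2 * z) * (conj w * (conj (Y1 z) * N z + conj (Y z) * N')).im =
          (conj w * ((((1 - z) ^ 2 * z : ℝ) : ℂ) *
            (conj (Y1 z) * N z + conj (Y z) * N'))).im := by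
        rw [mul_left_comm, Complex.im_ofReal_mul]
      rw [this, id1, Complex.mul_conj, Complex.mul_conj, Complex.add_conj]
      simp only [hj]
      generalize conj (Y z) * N z = A
      generalize Uc μ n1 n2 Ω c z = B
      simp
      ring
    have hPre : P.re = μ.re * (1 - z) - (n1 + n2).re * z * (1 - z) - Ω.im * z := by
      simp [hP, Pc]
      ring
    have hpos : 0 < (1 - z) ^ 2 * z := mul_pos (pow_pos (sub_pos.2 hz.2) 2) hz.1
    have hG' : ((1 - z) ^ 2 * z) * (μ.re * z⁻¹ + ((n1 + n2).re - μ.re) * (-1 / (1 - z)) -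
        Ω.im * (-(-1) / (1 - z) ^ 2)) = P.re := by
      rw [hPre]; field_simp; ring
    have h3 := mul_nonneg (hU z hz) (normSq_nonneg (Y z))
    have h4 := mul_nonneg hw (normSq_nonneg (N z))
    have hE := Real.exp_pos (G z)
    generalize (conj w * (conj (Y1 z) * N z + conj (Y z) * N')).im = j' at id2 ⊢
    generalize (μ.re * z⁻¹ + ((n1 + n2).re - μ.re) * (-1 / (1 - z)) -
        Ω.im * (-(-1) / (1 - z) ^ 2)) = g' at hG' ⊢
    have h5 : ((1 - z) ^ 2 * z) * (g' * j z + j') ≤ 0 := by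
      have : ((1 - z) ^ 2 * z) * (g' * j z + j') =
        (((1 - z) ^ 2 * z) * g') * j z + ((1 - z) ^ 2 * z) * j' := by ring
      rw [this, hG', id2]; linarith
    have h6 : g' * j z + j' ≤ 0 := by
      by_contra h
      push Not at h
      linarith [mul_pos hpos h]
    nlinarith [mul_nonneg hE.le (neg_nonneg.2 h6)]
  choose! d hd0 hdd using hJ
  have anti : AntitoneOn (fun z => Real.exp (G z) * j z) (Ioo 0 1) := by
    refine antitoneOn_of_deriv_nonpos (convex_Ioo 0 1)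
      (fun z hz => (hdd z hz).continuousAt.continuousWithinAt) ?_ ?_
    · rw [interior_Ioo]
      exact fun z hz => (hdd z hz).differentiableAt.differentiableWithinAt
    · rw [interior_Ioo]
      intro z hz
      rw [(hdd z hz).deriv]; exact hd0 z hz
  by_contra hY
  have j0 : j 0 < 0 := by
    have : j 0 = (conj w * μ).im / 2 * normSq (Y 0) := by
      have e : conj w * (conj (Y 0) * N 0) = conj w * μ / 2 * (Y 0 * conj (Y 0)) := by
        simp only [hN, Pc]; push_cast; ring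
      simp only [hj]
      rw [e, Complex.mul_conj]
      generalize conj w * μ = A
      simp
    rw [this]
    exact mul_neg_of_neg_of_pos (by linarith) (normSq_pos.2 hY)
  have j1 : 0 ≤ j 1 := by
    have : j 1 = (conj w * (I * Ω)).im / 2 * normSq (Y 1) := by
      have e : conj w * (conj (Y 1) * N 1) = conj w * (I * Ω) / 2 * (Y 1 * conj (Y 1)) := by
        simp only [hN, Pc]; push_cast; ring
      simp only [hj]
      rw [e, Complex.mul_conj]
      generalize conj w * (I * Ω) = A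
      simp
    rw [this]
    exact mul_nonneg (by linarith) (normSq_nonneg _)
  have t0 : Tendsto j (𝓝[>] 0) (𝓝 (j 0)) :=
    ((cj 0 ⟨le_rfl, zero_le_one⟩).mono_of_mem_nhdsWithin (Icc_mem_nhdsGT zero_lt_one))
  have t1 : Tendsto j (𝓝[<] 1) (𝓝 (j 1)) :=
    ((cj 1 ⟨zero_le_one, le_rfl⟩).mono_of_mem_nhdsWithin (Icc_mem_nhdsLT zero_lt_one))
  obtain ⟨z0, hz0, hz0'⟩ := ((t0.eventually (gt_mem_nhds j0)).and
    (Ioo_mem_nhdsGT zero_lt_one)).exists
  have hneg : Real.exp (G z0) * j z0 < 0 := mul_neg_of_pos_of_neg (Real.exp_pos _) hz0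
  have hev : ∀ᶠ z in 𝓝[<] (1 : ℝ), j z ≤ Real.exp (G z0) * j z0 := by
    filter_upwards [Ioo_mem_nhdsLT hz0'.2] with z hz
    have hz' : z ∈ Ioo (0 : ℝ) 1 := ⟨hz0'.1.trans hz.1, hz.2⟩
    have h := anti hz0' hz' hz.1.le
    simp only at h
    have hE : Real.exp (G z) ≤ 1 := by
      rw [Real.exp_le_one_iff]
      have l1 := Real.log_nonpos hz'.1.le hz'.2.le
      have l2 := Real.log_nonpos (sub_pos.2 hz'.2).le (by linarith [hz'.1])
      have l3 : 0 ≤ (1 - z)⁻¹ := inv_nonneg.2 (sub_pos.2 hz'.2).le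
      simp only [hG]
      nlinarith [mul_nonneg hμ (neg_nonneg.2 l1), mul_nonneg (sub_nonneg.2 hν) (neg_nonneg.2 l2),
        mul_nonneg hΩ l3]
    have hE0 := Real.exp_pos (G z)
    have hjz : j z < 0 := by
      by_contra hh
      push Not at hh
      linarith [mul_nonneg hE0.le hh]
    nlinarith
  linarith [le_of_tendsto t1 hev]

end P354MS
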