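import Vale.Agent.P354MS.Phys

/-! Mode stability, part 8: horizon expansions, Teukolsky-Starobinsky step. -/

namespace P354MS
open Complex Set Filter Topology Asymptotics

variable {m1 m2 m3 Ω c : ℂ} {u : ℕ → ℝ → ℂ}

theorem freq_of {l l' : Filter ℝ} [l'.NeBot] (h : l' ≤ l) {g : ℝ → ℂ} (hg : Tendsto g l' (𝓝 0))
    (δ : ℝ) (hδ : 0 < δ) : ∃ᶠ z in l, ‖g z‖ ≤ δ :=
  (((NormedAddGroup.tendsto_nhds_zero.1 hg) δ hδ).mono fun _ hz => hz.le).frequently.filter_mono h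

theorem exists_filter {l : Filter ℝ} {N : ℝ → ℝ} (h0 : ∀ᶠ x in l, 0 ≤ N x)
    (h : ∀ δ > 0, ∃ᶠ x in l, N x ≤ δ) : ∃ l' : Filter ℝ, l'.NeBot ∧ l' ≤ l ∧ Tendsto N l' (𝓝 0) := by
  refine ⟨l ⊓ comap N (𝓝 0), ?_, inf_le_left, tendsto_inf_right tendsto_comap⟩
  rw [inf_neBot_iff]
  intro s hs t ht
  obtain ⟨v, hv, hvt⟩ := mem_comap.1 ht
  obtain ⟨ε, hε, hb⟩ := Metric.mem_nhds_iff.1 hv
  obtain ⟨x, h1, h2, h3⟩ := ((h (ε / 2) (by positivity)).and_eventually (h0.and hs)).exists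
  refine ⟨x, h3, hvt (hb ?_)⟩
  rw [mem_ball_zero_iff, Real.norm_of_nonneg h2]
  linarith

theorem Bd.mono {l l' : Filter ℝ} {f : ℝ → ℂ} (hf : Bd l f) (h : l' ≤ l) : Bd l' f :=
  IsBigO.mono hf h

theorem ne0 : ∀ᶠ z : ℝ in 𝓝[>] 0, (z : ℂ) ≠ 0 := by
  filter_upwards [self_mem_nhdsWithin] with z hz
  exact_mod_cast (ne_of_gt hz)

theorem mv_o {f f' : ℝ → ℂ} (k : ℕ) (hd : ∀ z ∈ Ioo (0 : ℝ) 1, HasDerivAt f (f' z) z)
    (t0 : Tendsto f (𝓝[>] 0) (𝓝 0))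
    (t1 : Tendsto (fun z => f' z / (z : ℂ) ^ k) (𝓝[>] 0) (𝓝 0)) :
    Tendsto (fun z => f z / (z : ℂ) ^ (k + 1)) (𝓝[>] 0) (𝓝 0) := by
  refine NormedAddGroup.tendsto_nhds_zero.2 fun ε hε => ?_
  obtain ⟨v, hv, h1⟩ := (mem_nhdsGT_iff_exists_Ioo_subset).1
    ((NormedAddGroup.tendsto_nhds_zero.1 t1) (ε / 2) (by positivity))
  filter_upwards [Ioo_mem_nhdsGT hv, Ioo_mem_nhdsGT zero_lt_one] with x hx hx'
  have p : 0 < x ^ (k + 1) := pow_pos hx.1 _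
  have key : ‖f x‖ ≤ ε / 2 * x ^ k * x := by
    have t2 : Tendsto (fun t => ‖f x - f t‖) (𝓝[>] 0) (𝓝 ‖f x - 0‖) :=
      (tendsto_const_nhds.sub t0).norm
    rw [sub_zero] at t2
    refine le_of_tendsto t2 ?_
    filter_upwards [Ioo_mem_nhdsGT hx.1] with t ht
    refine (Convex.norm_image_sub_le_of_norm_hasDerivWithin_le (s := Ioc 0 x) (C := ε / 2 * x ^ k)
      (fun t ht => (hd t ⟨ht.1, ht.2.trans_lt hx'.2⟩).hasDerivWithinAt) (fun t ht => ?_)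
      (convex_Ioc _ _) ⟨ht.1, ht.2.le⟩ ⟨hx.1, le_rfl⟩).trans ?_
    · have h2 : ‖f' t / (t : ℂ) ^ k‖ < ε / 2 := h1 ⟨ht.1, ht.2.trans_lt hx.2⟩
      have t0 := ht.1
      rw [norm_div, norm_pow, Complex.norm_real, Real.norm_of_nonneg ht.1.le,
        div_lt_iff₀ (pow_pos ht.1 _)] at h2
      refine h2.le.trans ?_
      gcongr
      exact ht.2
    · have := hx.1
      rw [Real.norm_of_nonneg (sub_nonneg.2 ht.2.le)]
      gcongr
      linarith [ht.1]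
  rw [norm_div, norm_pow, Complex.norm_real, Real.norm_of_nonneg hx.1.le, div_lt_iff₀ p]
  have : ε / 2 * x ^ k * x = ε / 2 * x ^ (k + 1) := by ring
  nlinarith

theorem t_sub {f g : ℝ → ℂ} {a : ℂ} (hf : Tendsto f (𝓝[>] 0) (𝓝 a)) (hg : ContinuousAt g 0)
    (e : g 0 = a) : Tendsto (fun z => f z - g z) (𝓝[>] 0) (𝓝 0) := by
  have := hf.sub (hg.tendsto.mono_left (nhdsWithin_le_nhds (s := Ioi 0)))
  rwa [e, sub_self] at this

theorem lim_eq {g : ℝ → ℂ} (hg : ContinuousAt g 0) (h : Tendsto g (𝓝[>] 0) (𝓝 0)) : g 0 = 0 :=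
  tendsto_nhds_unique (hg.tendsto.mono_left (nhdsWithin_le_nhds (s := Ioi 0))) h

/-- Second order expansion at the horizon. -/
structure Ex (m1 m2 m3 Ω c : ℂ) (u : ℕ → ℝ → ℂ) (a0 a1 a2 : ℂ) : Prop where
  v0 : Tendsto (fun z : ℝ => (u 0 z - (a0 + a1 * z + a2 * z ^ 2)) / (z : ℂ) ^ 2) (𝓝[>] 0) (𝓝 0)
  v1 : Tendsto (fun z : ℝ => (u 1 z - (a1 + 2 * a2 * z)) / (z : ℂ)) (𝓝[>] 0) (𝓝 0)
  v2 : Tendsto (fun z : ℝ => u 2 z - 2 * a2) (𝓝[>] 0) (𝓝 0)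
  r0 : al m1 0 * a1 + be (m1 + m2 + m3) Ω c 0 * a0 = 0
  r1 : al m1 1 * a2 + be (m1 + m2 + m3) Ω c 1 * a1 + ga m2 m3 1 * a0 = 0

theorem Fam.ex (h : Fam m1 m2 m3 Ω c u) {a0 a1 b2 : ℂ} (t0 : Tendsto (u 0) (𝓝[>] 0) (𝓝 a0))
    (t1 : Tendsto (u 1) (𝓝[>] 0) (𝓝 a1)) (t2 : Tendsto (u 2) (𝓝[>] 0) (𝓝 b2)) :
    Ex m1 m2 m3 Ω c u a0 a1 (b2 / 2) := by
  set a2 := b2 / 2 with ha2
  have dz := hd_ofReal
  have v2 : Tendsto (fun z : ℝ => u 2 z - 2 * a2) (𝓝[>] 0) (𝓝 0) :=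
    t_sub t2 continuousAt_const (by rw [ha2]; ring)
  have v1 : Tendsto (fun z : ℝ => (u 1 z - (a1 + 2 * a2 * z)) / (z : ℂ)) (𝓝[>] 0) (𝓝 0) := by
    have := mv_o 0 (f := fun z => u 1 z - (a1 + 2 * a2 * z)) (f' := fun z => u 2 z - 2 * a2)
      (fun z hz => ((h.d 1 z hz).sub (((dz z).const_mul (2 * a2)).const_add a1)).congr_deriv
        (by ring)) (t_sub t1 (by fun_prop) (by simp)) (by simpa using v2)
    simpa using this
  have v0 : Tendsto (fun z : ℝ => (u 0 z - (a0 + a1 * z + a2 * z ^ 2)) / (z : ℂ) ^ 2) (𝓝[>] 0)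
      (𝓝 0) :=
    mv_o 1 (f := fun z => u 0 z - (a0 + a1 * z + a2 * z ^ 2))
      (f' := fun z => u 1 z - (a1 + 2 * a2 * z))
      (fun z hz => ((h.d 0 z hz).sub ((((dz z).const_mul a1).const_add a0).add
        (((dz z).pow 2).const_mul a2))).congr_deriv (by push_cast; ring))
      (t_sub t0 (by fun_prop) (by simp)) (by simpa using v1)
  set R0 := al m1 0 * a1 + be (m1 + m2 + m3) Ω c 0 * a0 with hR0
  set R1 := al m1 1 * a2 + be (m1 + m2 + m3) Ω c 1 * a1 + ga m2 m3 1 * a0 with hR1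
  set e : ℝ → ℂ := fun z => be (m1 + m2 + m3) Ω c 2 * a2 + ga m2 m3 2 * a1 + ga m2 m3 3 * a2 * z
    with he
  have ce : Continuous e := by rw [he]; fun_prop
  have p := (((Bd.of_cont (f := fun z : ℝ => (1 - (z : ℂ)) ^ 2) (by fun_prop)).zero v2).add
    ((Bd.of_cont (ca_Bk (m1 := m1) (m2 := m2) (m3 := m3) (Ω := Ω) 0 0)).zero v1)).add
    ((Bd.of_cont (f := fun z : ℝ => Ck m1 m2 m3 Ω c 0 z * z)
      ((ca_Ck 0 0).mul (by fun_prop))).zero v0)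
  simp only [add_zero] at p
  have p' : Tendsto (fun z : ℝ => -((R0 + R1 * z + z ^ 2 * e z) / z)) (𝓝[>] 0) (𝓝 0) := by
    refine p.congr' ?_
    filter_upwards [ne0, Ioo_mem_nhdsGT zero_lt_one] with z h0 hz
    have e0 := h.e 0 z hz
    simp only [zero_add, hR0, hR1, he] at e0 ⊢
    unfold Ac Bk Bc Ck Dk be ga at e0
    unfold Bk Bc Ck Dk al be ga
    push_cast at e0 ⊢
    field_simp
    linear_combination e0
  have r0 : R0 = 0 := by
    have := (Bd.of_cont (f := fun z : ℝ => -(z : ℂ)) (by fun_prop)).zero p'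
    have h2 := lim_eq (g := fun z : ℝ => R0 + R1 * z + z ^ 2 * e z) (by fun_prop) (this.congr' (by
      filter_upwards [ne0] with z h0
      field_simp))
    simpa using h2
  have r1 : R1 = 0 := by
    have h2 := lim_eq (g := fun z : ℝ => -(R1 + z * e z)) (by fun_prop) (p'.congr' (by
      filter_upwards [ne0] with z h0
      rw [r0]; field_simp; ring))
    simpa using h2
  exact ⟨v0, v1, v2, r0, r1⟩

theorem Fam.plus' (h : Fam m1 m2 m3 Ω c u) (hμ : -2 ≤ m1.re) (hq : 1 ≤ (m2 + m3 - m1).re)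
    (hΩ : 0 ≤ Ω.im) (hΩ' : Ω ≠ 0) (h2 : -1 < m2.re) (h3 : -1 < m3.re)
    (hN : NoSwap m1 m2 m3 Ω c) {a0 a1 a2 : ℂ}
    (r0 : al m1 0 * a1 + be (m1 + m2 + m3) Ω c 0 * a0 = 0)
    (r1 : al m1 1 * a2 + be (m1 + m2 + m3) Ω c 1 * a1 + ga m2 m3 1 * a0 = 0)
    (v0 : Tendsto (fun z : ℝ => (u 0 z - (a0 + a1 * z + a2 * z ^ 2)) / (z : ℂ) ^ 2) (𝓝[>] 0) (𝓝 0))
    (v1 : Tendsto (fun z : ℝ => (u 1 z - (a1 + 2 * a2 * z)) / (z : ℂ)) (𝓝[>] 0) (𝓝 0))
    {l : Filter ℝ} [l.NeBot] (hl : l ≤ 𝓝[<] 1)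
    (i1 : Tendsto (fun z => rho m1 (m2 + m3 - m1) Ω z * Ac z * u 1 z) l (𝓝 0)) :
    ∀ z ∈ Ioo (0 : ℝ) 1, u 0 z = 0 := by
  refine h.core hμ (by linarith) hΩ hΩ' h2 h3 hN r0 r1 ?_ (v1.congr fun z => by ring)
    (h.apriori hq hΩ hΩ' (freq_of hl i1 1 one_pos)) (freq_of hl i1)
  have := ((Bd.of_cont (f := fun z : ℝ => (z : ℂ)) (by fun_prop)).zero v0).add
    (t_zero 0 (fun _ => a2) continuousAt_const)
  rw [add_zero] at this
  refine this.congr' ?_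
  filter_upwards [ne0] with z h0
  field_simp; ring

theorem Fam.plus (h : Fam m1 m2 m3 Ω c u) (hμ : -2 ≤ m1.re) (hq : 1 ≤ (m2 + m3 - m1).re)
    (hΩ : 0 ≤ Ω.im) (hΩ' : Ω ≠ 0) (h2 : -1 < m2.re) (h3 : -1 < m3.re)
    (hN : NoSwap m1 m2 m3 Ω c) {a0 a1 b2 : ℂ} (t0 : Tendsto (u 0) (𝓝[>] 0) (𝓝 a0))
    (t1 : Tendsto (u 1) (𝓝[>] 0) (𝓝 a1)) (t2 : Tendsto (u 2) (𝓝[>] 0) (𝓝 b2))
    {l : Filter ℝ} [l.NeBot] (hl : l ≤ 𝓝[<] 1)
    (i1 : Tendsto (fun z => rho m1 (m2 + m3 - m1) Ω z * Ac z * u 1 z) l (𝓝 0)) :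
    ∀ z ∈ Ioo (0 : ℝ) 1, u 0 z = 0 :=
  have e := h.ex t0 t1 t2
  h.plus' hμ hq hΩ hΩ' h2 h3 hN e.r0 e.r1 e.v0 e.v1 hl i1

theorem NoSwap.symm (h : NoSwap m1 m2 m3 Ω c) : NoSwap m2 m1 m3 Ω c := by
  intro a ha r0 r
  rw [add_comm m2 m1] at r0 r
  refine h a ha r0 fun n => ?_
  have := r n
  unfold ga at this ⊢
  linear_combination this

theorem rho_shift (μ q Ω : ℂ) {z : ℝ} (hz : z ∈ Ioo (0 : ℝ) 1) :
    rho (μ - 4) (q + 8) Ω z * (z : ℂ) ^ 4 = rho μ q Ω z * (1 - (z : ℂ)) ^ 8 := by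
  have e1 : (z : ℂ) = cexp (Real.log z : ℝ) := by
    rw [← Complex.ofReal_exp, Real.exp_log hz.1]
  have e2 : (1 - z : ℂ) = cexp (Real.log (1 - z) : ℝ) := by
    rw [← Complex.ofReal_exp, Real.exp_log (sub_pos.2 hz.2)]; push_cast; rfl
  unfold rho
  generalize ((Real.log z : ℝ) : ℂ) = a at e1 ⊢
  generalize ((Real.log (1 - z) : ℝ) : ℂ) = b at e2 ⊢
  rw [e2, e1, ← Complex.exp_nat_mul, ← Complex.exp_nat_mul, ← Complex.exp_add, ← Complex.exp_add]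
  congr 1
  push_cast
  ring

theorem Fam.minus {μ : ℂ} (h : Fam μ (μ - 4) m3 Ω c u) (hμ : 2 ≤ μ.re) (hΩ : 0 ≤ Ω.im)
    (hΩ' : Ω ≠ 0) (h3 : 0 ≤ m3.re) (hN : NoSwap μ (μ - 4) m3 Ω c) {a0 a1 b2 : ℂ}
    (t0 : Tendsto (u 0) (𝓝[>] 0) (𝓝 a0)) (t1 : Tendsto (u 1) (𝓝[>] 0) (𝓝 a1))
    (t2 : Tendsto (u 2) (𝓝[>] 0) (𝓝 b2)) {l : Filter ℝ} [l.NeBot] (hl : l ≤ 𝓝[<] 1)
    (i : ∀ j ≤ 3, Tendsto (fun z => rho μ (μ - 4 + m3 - μ) Ω z * (1 - (z : ℂ)) ^ 6 * u j z) l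
      (𝓝 0)) : ∀ z ∈ Ioo (0 : ℝ) 1, u 0 z = 0 := by
  obtain ⟨v0, v1, v2, r0, r1⟩ := h.ex t0 t1 t2
  generalize b2 / 2 = a2 at v0 v1 v2 r0 r1
  have dz := hd_ofReal
  set k0 := μ * (μ - 1) * (μ - 2) * (μ - 3) with hk0
  set k1 := 4 * μ * (μ - 1) * (μ - 2) with hk1
  set k2 := 6 * μ * (μ - 1) with hk2
  set k3 := 4 * μ with hk3
  set w0 : ℝ → ℂ := fun z => k0 * u 0 z + k1 * (z * u 1 z) + k2 * (z ^ 2 * u 2 z) +
    k3 * (z ^ 3 * u 3 z) + z ^ 4 * u 4 z with hw0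
  set w1 : ℝ → ℂ := fun z => (k0 + k1) * u 1 z + (k1 + 2 * k2) * (z * u 2 z) +
    (k2 + 3 * k3) * (z ^ 2 * u 3 z) + (k3 + 4) * (z ^ 3 * u 4 z) + z ^ 4 * u 5 z with hw1
  set w2 : ℝ → ℂ := fun z => (k0 + 2 * k1 + 2 * k2) * u 2 z + (k1 + 4 * k2 + 6 * k3) * (z * u 3 z) +
    (k2 + 6 * k3 + 12) * (z ^ 2 * u 4 z) + (k3 + 8) * (z ^ 3 * u 5 z) + z ^ 4 * u 6 z with hw2
  have hw : ∀ z ∈ Ioo (0 : ℝ) 1, HasDerivAt w0 (w1 z) z ∧ HasDerivAt w1 (w2 z) z ∧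
      Lop (μ - 4) μ m3 Ω c z (w0 z) (w1 z) (w2 z) = 0 := by
    intro z hz
    refine ⟨((((((h.d 0 z hz).const_mul k0).add (((dz z).mul (h.d 1 z hz)).const_mul k1)).add
      ((((dz z).pow 2).mul (h.d 2 z hz)).const_mul k2)).add
      ((((dz z).pow 3).mul (h.d 3 z hz)).const_mul k3)).add
      (((dz z).pow 4).mul (h.d 4 z hz))).congr_deriv ?_,
      ((((((h.d 1 z hz).const_mul _).add (((dz z).mul (h.d 2 z hz)).const_mul _)).add
      ((((dz z).pow 2).mul (h.d 3 z hz)).const_mul _)).add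
      ((((dz z).pow 3).mul (h.d 4 z hz)).const_mul _)).add
      (((dz z).pow 4).mul (h.d 5 z hz))).congr_deriv ?_, ?_⟩
    · simp only [hw1, Pi.pow_apply, zero_add, Nat.reduceAdd]; push_cast; ring
    · simp only [hw2, Pi.pow_apply, Nat.reduceAdd]; push_cast; ring
    · have e0 := h.e 0 z hz
      have e1 := h.e 1 z hz
      have e2 := h.e 2 z hz
      have e3 := h.e 3 z hz
      have e4 := h.e 4 z hz
      simp only [zero_add, Nat.reduceAdd, Nat.reduceSub, tsub_self, zero_tsub] at e0 e1 e2 e3 e4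
      simp only [hw0, hw1, hw2, hk0, hk1, hk2, hk3]
      unfold Ac Bk Bc Ck Dk be ga at e0 e1 e2 e3 e4
      unfold Lop Ac Bc
      push_cast at e0 e1 e2 e3 e4 ⊢
      linear_combination μ * (μ - 1) * (μ - 2) * (μ - 3) * e0 +
        4 * μ * (μ - 1) * (μ - 2) * z * e1 + 6 * μ * (μ - 1) * z ^ 2 * e2 +
        4 * μ * z ^ 3 * e3 + z ^ 4 * e4
  obtain ⟨U, hU, U0, U1⟩ := exists_fam hw
  have bc : ∀ {g : ℝ → ℂ}, ContinuousAt g 0 → Bd (𝓝[>] 0) g := fun hg => Bd.of_cont hg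
  have cz : ContinuousAt (fun z : ℝ => -((1 - (z : ℂ)) ^ 2)⁻¹) 0 :=
    (ContinuousAt.inv₀ (by fun_prop) (by simp)).neg
  have cB := fun k => ca_Bk (m1 := μ) (m2 := μ - 4) (m3 := m3) (Ω := Ω) k
  have cC := fun k => ca_Ck (m1 := μ) (m2 := μ - 4) (m3 := m3) (Ω := Ω) (c := c) k
  have cr : ContinuousAt (fun z : ℝ => (z : ℂ)) 0 := by fun_prop
  set e2 := be (μ + (μ - 4) + m3) Ω c 2 * a2 + ga (μ - 4) m3 2 * a1 with he2
  set e3 := ga (μ - 4) m3 3 * a2 with he3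
  have v3 : Tendsto (fun z : ℝ => (z : ℂ) * u 3 z) (𝓝[>] 0) (𝓝 0) := by
    have := (bc cz).zero (((((bc (cB 1 0)).zero v2).add ((bc ((cC 1 0).mul cr)).zero v1)).add
      ((bc (g := fun z : ℝ => Dk (μ - 4) m3 1 * (z : ℂ) ^ 2) (by fun_prop)).zero v0)).add
      (t_zero 0 (fun z : ℝ => 2 * e2 + 3 * e3 * z) (by fun_prop)) |>.trans_eq (by simp))
    refine this.congr' ?_
    filter_upwards [ne0, Ioo_mem_nhdsGT zero_lt_one] with z h0 hz
    have h1 : (1 - z : ℂ) ≠ 0 := by exact_mod_cast (sub_pos.2 hz.2).ne'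
    have e := h.e 1 z hz
    simp only [Nat.reduceAdd, tsub_self, he2, he3, Pi.mul_apply] at e ⊢
    unfold Ac Bk Bc Ck Dk be ga at e
    unfold Bk Bc Ck Dk be ga
    unfold al be ga at r1
    push_cast at e r1 ⊢
    field_simp
    linear_combination -e + r1
  have v4 : Tendsto (fun z : ℝ => (z : ℂ) ^ 2 * u 4 z) (𝓝[>] 0) (𝓝 0) := by
    have := (bc cz).zero (((((bc (cB 2 0)).zero v3).add ((bc ((cC 2 0).mul cr)).zero v2)).add
      ((bc (g := fun z : ℝ => Dk (μ - 4) m3 2 * (z : ℂ) ^ 2) (by fun_prop)).zero v1)).add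
      (t_zero 0 (fun z : ℝ => 2 * e2 + 6 * e3 * z) (by fun_prop)) |>.trans_eq (by simp))
    refine this.congr' ?_
    filter_upwards [ne0, Ioo_mem_nhdsGT zero_lt_one] with z h0 hz
    have h1 : (1 - z : ℂ) ≠ 0 := by exact_mod_cast (sub_pos.2 hz.2).ne'
    have e := h.e 2 z hz
    simp only [Nat.reduceAdd, Nat.reduceSub, he2, he3, Pi.mul_apply] at e ⊢
    unfold Ac Bk Bc Ck Dk be ga at e
    unfold Bk Bc Ck Dk be ga
    push_cast at e ⊢
    field_simp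
    linear_combination -e
  have v5 : Tendsto (fun z : ℝ => (z : ℂ) ^ 3 * u 5 z) (𝓝[>] 0) (𝓝 0) := by
    have := (bc cz).zero (((((bc (cB 3 0)).zero v4).add ((bc ((cC 3 0).mul cr)).zero v3)).add
      ((bc (g := fun z : ℝ => Dk (μ - 4) m3 3 * (z : ℂ) ^ 2) (by fun_prop)).zero v2)).add
      (t_zero 0 (fun z : ℝ => 6 * e3 * z) (by fun_prop)) |>.trans_eq (by simp))
    refine this.congr' ?_
    filter_upwards [ne0, Ioo_mem_nhdsGT zero_lt_one] with z h0 hz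
    have h1 : (1 - z : ℂ) ≠ 0 := by exact_mod_cast (sub_pos.2 hz.2).ne'
    have e := h.e 3 z hz
    simp only [Nat.reduceAdd, Nat.reduceSub, he3, Pi.mul_apply] at e ⊢
    unfold Ac Bk Bc Ck Dk be ga at e
    unfold Bk Bc Ck Dk be ga
    push_cast at e ⊢
    field_simp
    linear_combination -e
  have V0 : Tendsto (fun z : ℝ => (U 0 z - (k0 * a0 + (k0 + k1) * a1 * z +
      (k0 + 2 * k1 + 2 * k2) * a2 * z ^ 2)) / (z : ℂ) ^ 2) (𝓝[>] 0) (𝓝 0) := by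
    have := ((((v0.const_mul k0).add (v1.const_mul k1)).add (v2.const_mul k2)).add
      (v3.const_mul k3)).add v4
    simp only [mul_zero, add_zero] at this
    refine this.congr' ?_
    filter_upwards [ne0] with z h0
    simp only [U0, hw0]
    field_simp
    ring
  have V1 : Tendsto (fun z : ℝ => (U 1 z - ((k0 + k1) * a1 +
      2 * ((k0 + 2 * k1 + 2 * k2) * a2) * z)) / (z : ℂ)) (𝓝[>] 0) (𝓝 0) := by
    have := ((((v1.const_mul (k0 + k1)).add (v2.const_mul (k1 + 2 * k2))).add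
      (v3.const_mul (k2 + 3 * k3))).add (v4.const_mul (k3 + 4))).add v5
    simp only [mul_zero, add_zero] at this
    refine this.congr' ?_
    filter_upwards [ne0, Ioo_mem_nhdsGT zero_lt_one] with z h0 hz
    simp only [(U1 z hz).1, hw1]
    field_simp
    ring
  set ρ := rho μ (μ - 4 + m3 - μ) Ω with hρ
  have b1 : ∀ {g : ℝ → ℂ}, ContinuousAt g 1 → Bd l g := fun hg => (Bd.of_cont hg).mono hl
  have ci : ContinuousAt (fun z : ℝ => -(z : ℂ)⁻¹) 1 :=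
    (ContinuousAt.inv₀ (by fun_prop) (by simp)).neg
  have ev : ∀ᶠ z in l, z ∈ Ioo (0 : ℝ) 1 := hl (Ioo_mem_nhdsLT zero_lt_one)
  have i4 : Tendsto (fun z => ρ z * (1 - (z : ℂ)) ^ 8 * u 4 z) l (𝓝 0) := by
    have := (b1 ci).zero ((((b1 (cB 2 1)).zero (i 3 le_rfl)).add
      ((b1 (cC 2 1)).zero (i 2 (by norm_num)))).add
      ((i 1 (by norm_num)).mul_const (Dk (μ - 4) m3 2)) |>.trans_eq (by simp))
    refine this.congr' ?_
    filter_upwards [ev] with z hz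
    have h0 : (z : ℂ) ≠ 0 := by exact_mod_cast hz.1.ne'
    have e := h.e 2 z hz
    simp only [Nat.reduceAdd, Nat.reduceSub] at e
    unfold Ac at e
    field_simp
    linear_combination (-ρ z * (1 - z) ^ 6) * e
  have i5 : Tendsto (fun z => ρ z * (1 - (z : ℂ)) ^ 10 * u 5 z) l (𝓝 0) := by
    have := (b1 ci).zero ((((b1 (cB 3 1)).zero i4).add
      ((b1 ((cC 3 1).mul (g := fun z : ℝ => (1 - (z : ℂ)) ^ 2) (by fun_prop))).zero
        (i 3 le_rfl))).add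
      ((b1 (g := fun z : ℝ => Dk (μ - 4) m3 3 * (1 - (z : ℂ)) ^ 2) (by fun_prop)).zero
        (i 2 (by norm_num))) |>.trans_eq (by simp))
    refine this.congr' ?_
    filter_upwards [ev] with z hz
    have h0 : (z : ℂ) ≠ 0 := by exact_mod_cast hz.1.ne'
    have e := h.e 3 z hz
    simp only [Nat.reduceAdd, Nat.reduceSub, Pi.mul_apply] at e ⊢
    unfold Ac at e
    field_simp
    linear_combination (-ρ z * (1 - z) ^ 8) * e
  have I1 : Tendsto (fun z => rho (μ - 4) (μ + m3 - (μ - 4)) Ω z * Ac z * U 1 z) l (𝓝 0) := by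
    have c3 : ContinuousAt (fun z : ℝ => ((z : ℂ) ^ 3)⁻¹) 1 :=
      ContinuousAt.inv₀ (by fun_prop) (by simp)
    have := (b1 c3).zero ((((((b1 (g := fun z : ℝ => (k0 + k1) * (1 - (z : ℂ)) ^ 4)
      (by fun_prop)).zero (i 1 (by norm_num))).add
      ((b1 (g := fun z : ℝ => (k1 + 2 * k2) * z * (1 - (z : ℂ)) ^ 4) (by fun_prop)).zero
        (i 2 (by norm_num)))).add
      ((b1 (g := fun z : ℝ => (k2 + 3 * k3) * z ^ 2 * (1 - (z : ℂ)) ^ 4) (by fun_prop)).zero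
        (i 3 le_rfl))).add
      ((b1 (g := fun z : ℝ => (k3 + 4) * z ^ 3 * (1 - (z : ℂ)) ^ 2) (by fun_prop)).zero i4)).add
      ((b1 (g := fun z : ℝ => (z : ℂ) ^ 4) (by fun_prop)).zero i5) |>.trans_eq (by simp))
    refine this.congr' ?_
    filter_upwards [ev] with z hz
    have h0 : (z : ℂ) ≠ 0 := by exact_mod_cast hz.1.ne'
    have e := rho_shift μ (μ - 4 + m3 - μ) Ω hz
    rw [show μ - 4 + m3 - μ + 8 = μ + m3 - (μ - 4) by ring, ← hρ, ← eq_div_iff (pow_ne_zero 4 h0)]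
      at e
    rw [e, (U1 z hz).1]
    simp only [hw1]
    unfold Ac
    field_simp
  have hz0 := hU.plus' (a0 := k0 * a0) (a1 := (k0 + k1) * a1) (a2 := (k0 + 2 * k1 + 2 * k2) * a2)
    (by simp; linarith) (by simp; linarith) hΩ hΩ' (by linarith) (by linarith) hN.symm
    (by
      unfold al be at r0 ⊢
      simp only [hk0, hk1]
      push_cast at r0 ⊢
      linear_combination μ * (μ - 1) * (μ - 2) * (μ - 3) * r0)
    (by
      unfold al be ga at r1 ⊢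
      simp only [hk0, hk1, hk2]
      push_cast at r1 ⊢
      linear_combination (μ + 1) * μ * (μ - 1) * (μ - 2) * r1) V0 V1 hl I1
  have q0 : k0 * a0 = 0 := by
    have := (bc (g := fun z : ℝ => -(z : ℂ) ^ 2) (by fun_prop)).zero V0
    have h2 := lim_eq (g := fun z : ℝ => k0 * a0 + (k0 + k1) * a1 * z +
      (k0 + 2 * k1 + 2 * k2) * a2 * z ^ 2) (by fun_prop) (this.congr' (by
      filter_upwards [ne0, Ioo_mem_nhdsGT zero_lt_one] with z h0 hz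
      rw [hz0 z hz]; field_simp; ring))
    simpa using h2
  have q1 : (k0 + k1) * a1 = 0 := by
    have := (bc (g := fun z : ℝ => -(z : ℂ)) (by fun_prop)).zero V0
    have h2 := lim_eq (g := fun z : ℝ => (k0 + k1) * a1 +
      (k0 + 2 * k1 + 2 * k2) * a2 * z) (by fun_prop) (this.congr' (by
      filter_upwards [ne0, Ioo_mem_nhdsGT zero_lt_one] with z h0 hz
      rw [hz0 z hz, q0]; field_simp; ring))
    simpa using h2
  have q2 : (k0 + 2 * k1 + 2 * k2) * a2 = 0 := by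
    have h2 := lim_eq (g := fun _ : ℝ => -((k0 + 2 * k1 + 2 * k2) * a2)) (by fun_prop)
      (V0.congr' (by
      filter_upwards [ne0, Ioo_mem_nhdsGT zero_lt_one] with z h0 hz
      rw [hz0 z hz, q0, q1]; field_simp; ring))
    exact neg_eq_zero.1 h2
  have nz : ∀ x : ℝ, -2 < x → μ + x ≠ 0 := fun x hx e => by
    have := congrArg Complex.re e
    simp at this; linarith
  have n0 : μ ≠ 0 := by simpa using nz 0 (by norm_num)
  have n1 : μ - 1 ≠ 0 := by simpa [sub_eq_add_neg] using nz (-1) (by norm_num)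
  have n2 : μ + 1 ≠ 0 := by simpa using nz 1 (by norm_num)
  have n3 : μ + 2 ≠ 0 := by simpa using nz 2 (by norm_num)
  have a20 : a2 = 0 := by
    have : (μ + 2) * (μ + 1) * μ * (μ - 1) * a2 = 0 := by
      simp only [hk0, hk1, hk2] at q2; linear_combination q2
    simpa [n0, n1, n2, n3] using this
  have a10 : (μ - 2) * a1 = 0 := by
    have : (μ + 1) * μ * (μ - 1) * ((μ - 2) * a1) = 0 := by
      simp only [hk0, hk1] at q1; linear_combination q1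
    exact (mul_eq_zero.1 this).resolve_left (mul_ne_zero (mul_ne_zero n2 n0) n1)
  have n4 : 1 + m3 ≠ 0 := by simpa using nat_ne (μ := m3) (by linarith) 0
  obtain ⟨x1, hx1⟩ : ∃ x1, (1 + m3) * x1 = (1 + μ) * a1 := ⟨_, mul_div_cancel₀ _ n4⟩
  have a00 : a0 = 0 := by
    refine hN (fun n => match n with | 0 => a0 | 1 => x1 | _ + 2 => 0) (fun D => ?_) ?_ ?_
    · refine (isBigO_zero _ _).congr' ?_ EventuallyEq.rfl
      filter_upwards [eventually_ge_atTop 2] with n hn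
      obtain ⟨k, rfl⟩ := Nat.exists_eq_add_of_le' hn
      rfl
    · unfold al at r0 ⊢
      push_cast at r0 ⊢
      linear_combination r0 + hx1
    · intro n
      match n with
      | 0 =>
        refine mul_left_cancel₀ n4 ?_
        rw [a20] at r1
        unfold ga at r1 ⊢
        simp only [zero_add] at r1 ⊢
        push_cast at r1 ⊢
        linear_combination (1 + μ) * r1 + be (μ + (μ - 4) + m3) Ω c 1 * hx1
      | 1 =>
        refine mul_left_cancel₀ n4 ?_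
        unfold ga
        push_cast
        linear_combination (2 + μ) * (μ - 2) * hx1 + (2 + μ) * (1 + μ) * a10
      | k + 2 => simp
  rw [a00] at t0
  exact h.uniq (by linarith) t0 (t1.isBigO_one ℝ)

end P354MS
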