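import Vale.Agent.P354MS.Stat

/-! Mode stability, part 12: frequency zero, both spins. -/

namespace P354MS
open Complex Set Filter Topology Asymptotics ComplexConjugate Vale.Agent.P354BF

theorem bdinv {G : ℝ → ℂ} (hG : ContinuousAt G 0) {F : Filter ℝ} (hF : F ≤ atTop) :
    Bd F fun r => G r⁻¹ :=
  ((hG.tendsto.comp tendsto_inv_atTop_zero).mono_left hF).isBigO_one ℝ

theorem bd_De (M a : ℝ) {F : Filter ℝ} (hF : F ≤ atTop) :
    Bd F fun r => (r : ℂ) ^ 2 / De M a r := by
  refine (bdinv (G := fun x : ℝ => (1 - 2 * M * (x : ℂ) + a ^ 2 * x ^ 2)⁻¹)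
    (ContinuousAt.inv₀ (by fun_prop) (by simp)) hF).congr ?_
  filter_upwards [hF (eventually_gt_atTop 0)] with r hr
  have r0 : (r : ℂ) ≠ 0 := by exact_mod_cast hr.ne'
  rw [← inv_div]
  congr 1
  unfold De
  push_cast
  field_simp

theorem hd_Dec (M a r : ℝ) : HasDerivAt (fun r => (De M a r : ℂ)) (2 * r - 2 * M) r :=
  (hd_De M a r).ofReal_comp.congr_deriv (by push_cast; ring)

section
variable {M a d m L : ℝ} {f f1 f2 : ℝ → ℂ}

theorem zplus (hM : 0 < M) (hd : 0 < d) (ha : a ^ 2 = M ^ 2 - d ^ 2) (hL : 6 ≤ L)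
    (h : ∀ r, M + d < r → HasDerivAt f (f1 r) r ∧ HasDerivAt f1 (f2 r) r ∧
      Pq 2 M a 0 m L r (f r) (f1 r) (f2 r) = 0) {a1 a2 : ℂ} {a0 : ℂ}
    (_t0 : Tendsto f (𝓝[>] (M + d)) (𝓝 a0)) (t1 : Tendsto f1 (𝓝[>] (M + d)) (𝓝 a1))
    (t2 : Tendsto f2 (𝓝[>] (M + d)) (𝓝 a2)) {F : Filter ℝ} [F.NeBot] (hF : F ≤ atTop)
    (i0 : Tendsto (fun r => f r / (r : ℂ) ^ 4) F (𝓝 0))
    (i1 : Tendsto (fun r => f1 r / (r : ℂ) ^ 3) F (𝓝 0)) : ∀ r, M + d < r → f r = 0 := by
  set n : ℝ := a * m with hn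
  have D0 : ∀ r, M + d < r → (De M a r : ℂ) ≠ 0 := fun r hr => by
    exact_mod_cast (De_pos hd ha hr).ne'
  set Q : ℝ → ℂ := fun r => (2 * r - 2 * M - 2 * I * n) * f1 r + (L - 2) * f r with hQ
  have eQ : ∀ r, M + d < r → (De M a r : ℂ) * f2 r = Q r := fun r hr => by
    have := (h r hr).2.2
    unfold Pq Kf at this
    simp only [hQ, hn]
    push_cast at this ⊢
    linear_combination this
  have dQ : ∀ r, M + d < r →
      HasDerivAt Q (L * f1 r + (2 * r - 2 * M - 2 * I * n) * f2 r) r := fun r hr =>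
    ((((((hd_ofReal r).const_mul 2).sub_const _).sub_const _).mul (h r hr).2.1).add
      ((h r hr).1.const_mul _)).congr_deriv (by ring)
  set g1 : ℝ → ℂ := fun r => (L * f1 r - 2 * I * n * f2 r) / De M a r with hg1
  have d2 : ∀ r, M + d < r → HasDerivAt f2 (g1 r) r := fun r hr => by
    have := D0 r hr
    refine (((dQ r hr).div (hd_Dec M a r) this).congr_deriv ?_).congr_of_eventuallyEq ?_
    · rw [← eQ r hr]; simp only [hg1]; field_simp; ring
    · filter_upwards [Ioi_mem_nhds hr] with x hx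
      rw [Pi.div_apply, eq_div_iff (D0 x hx), mul_comm, eQ x hx]
  have eg : ∀ r, M + d < r → (De M a r : ℂ) * g1 r = L * f1 r - 2 * I * n * f2 r := fun r hr =>
    mul_div_cancel₀ _ (D0 r hr)
  have sh : Tendsto (fun x : ℝ => M + d + x) (𝓝[>] 0) (𝓝[>] (M + d)) := by
    refine tendsto_nhdsWithin_iff.2 ⟨?_, ?_⟩
    · have : Tendsto (fun x : ℝ => M + d + x) (𝓝 0) (𝓝 (M + d + 0)) := tendsto_const_nhds.add
        tendsto_id
      rw [add_zero] at this
      exact this.mono_left nhdsWithin_le_nhds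
    · filter_upwards [self_mem_nhdsWithin] with x hx using lt_add_of_pos_right (M + d) (mem_Ioi.1 hx)
  have tr : Tendsto (fun r : ℝ => (r : ℂ)) (𝓝[>] (M + d)) (𝓝 ((M + d : ℝ) : ℂ)) :=
    (hd_ofReal _).continuousAt.tendsto.mono_left nhdsWithin_le_nhds
  have lim : L * a1 - 2 * I * n * a2 = 0 := by
    set A := L * a1 + (2 * ((M + d : ℝ) : ℂ) - 2 * M - 2 * I * n) * a2 with hA
    have tQ : Tendsto Q (𝓝[>] (M + d)) (𝓝 (0 * a2)) := ((t_De ha).mul t2).congr' (by
      filter_upwards [self_mem_nhdsWithin] with r hr using eQ r hr)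
    have t3 := mv_o 0 (f := fun x => Q (M + d + x) - A * x)
      (f' := fun x => L * f1 (M + d + x) + (2 * ((M + d + x : ℝ) : ℂ) - 2 * M - 2 * I * n) *
        f2 (M + d + x) - A)
      (fun x hx => (((dQ _ (lt_add_of_pos_right _ hx.1)).comp_const_add (M + d) x).sub
        ((hd_ofReal x).const_mul A)).congr_deriv (by ring))
      (tz ((tQ.comp sh).sub (t_zero 0 (fun _ => A) continuousAt_const |>.congr fun x => by ring))
        (by simp))
      (tz ((((((t1.const_mul (L : ℂ)).add ((((tr.const_mul 2).sub_const (2 * (M : ℂ))).sub_const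
        (2 * I * n)).mul t2)).comp sh).sub_const A).congr fun x => by simp)) (by rw [hA]; ring))
    have t4 : Tendsto (fun x : ℝ => (((M + d + x : ℝ) : ℂ) - (M - d)) * f2 (M + d + x) - A)
        (𝓝[>] 0) (𝓝 ((((M + d : ℝ) : ℂ) - (M - d)) * a2 - A)) :=
      (((tr.sub_const _).mul t2).comp sh).sub_const A
    have := tendsto_nhds_unique t4 (t3.congr' (by
      filter_upwards [ne0, self_mem_nhdsWithin] with x h0 hx
      rw [← eQ _ (lt_add_of_pos_right _ hx), De_eq ha]
      push_cast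
      field_simp
      ring))
    rw [hA] at this
    push_cast at this
    linear_combination -this
  have ev := (eventually_gt_atTop (M + d)).filter_mono hF
  have key := stat (n := n) (g := f2) (g1 := g1) hM hd ha hL (fun r hr => ⟨d2 r hr,
    (((h r hr).2.1.const_mul (L : ℂ)).sub ((d2 r hr).const_mul (2 * I * n))).congr_of_eventuallyEq
      (by filter_upwards [Ioi_mem_nhds hr] with x hx using eg x hx)⟩) t2
    ((tz ((t1.const_mul (L : ℂ)).sub (t2.const_mul (2 * I * n))) lim).congr' (by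
      filter_upwards [self_mem_nhdsWithin] with r hr using (eg r hr).symm)) hF (by
      refine (tz ((((bd_De M a hF).mul (bdinv (G := fun x : ℝ => 2 - (2 * M + 2 * I * n) * x)
        (by fun_prop) hF)).zero i1).add (((bd_De M a hF).zero i0).const_mul ((L : ℂ) - 2)))
        (by simp)).congr' ?_
      filter_upwards [ev] with r hr
      have r0 : (r : ℂ) ≠ 0 := by exact_mod_cast (by linarith : r ≠ 0)
      have := D0 r hr
      rw [show f2 r = Q r / De M a r by rw [eq_div_iff this, mul_comm, eQ r hr]]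
      simp only [hQ]
      push_cast
      field_simp
      ring)
  intro r hr
  have g0 : g1 r = 0 := (d2 r hr).unique ((hasDerivAt_const r 0).congr_of_eventuallyEq (by
    filter_upwards [Ioi_mem_nhds hr] with x hx using key x hx))
  have e1 := eg r hr
  have e2 := eQ r hr
  have L0 : (L : ℂ) ≠ 0 := by exact_mod_cast (by linarith : L ≠ 0)
  have L2 : (L : ℂ) - 2 ≠ 0 := by exact_mod_cast (by linarith : L - 2 ≠ 0)
  rw [g0, key r hr] at e1
  have e3 : f1 r = 0 := mul_left_cancel₀ L0 (by linear_combination -e1)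
  simp only [hQ, key r hr, e3] at e2
  exact mul_left_cancel₀ L2 (by linear_combination -e2)

theorem zminus (hM : 0 < M) (hd : 0 < d) (ha : a ^ 2 = M ^ 2 - d ^ 2) (hL : 6 ≤ L)
    (h : ∀ r, M + d < r → HasDerivAt f (f1 r) r ∧ HasDerivAt f1 (f2 r) r ∧
      Pq (-2) M a 0 m L r (f r) (f1 r) (f2 r) = 0) {a0 a1 : ℂ}
    (t0 : Tendsto f (𝓝[>] (M + d)) (𝓝 a0)) (t1 : Tendsto f1 (𝓝[>] (M + d)) (𝓝 a1))
    {F : Filter ℝ} [F.NeBot] (hF : F ≤ atTop) (i0 : Tendsto f F (𝓝 0))
    (i1 : Tendsto (fun r : ℝ => (r : ℂ) * f1 r) F (𝓝 0)) : ∀ r, M + d < r → f r = 0 := by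
  set n : ℝ := a * m with hn
  have L0 : (L : ℂ) ≠ 0 := by exact_mod_cast (by linarith : L ≠ 0)
  have L2 : (L : ℂ) - 2 ≠ 0 := by exact_mod_cast (by linarith : L - 2 ≠ 0)
  set g1 : ℝ → ℂ := fun r =>
    (De M a r * f1 r + (4 * r - 4 * M + 2 * I * n) * f r) / (L - 2) with hg1
  set g : ℝ → ℂ := fun r => (De M a r * f r + (2 * r - 2 * M + 2 * I * n) * g1 r) / L with hg
  have d1 : ∀ r, M + d < r → HasDerivAt g1 (f r) r := fun r hr => by
    refine ((((hd_Dec M a r).mul (h r hr).2.1).add ((((((hd_ofReal r).const_mul 4).sub_const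
      _).add_const _).mul (h r hr).1))).div_const _).congr_deriv ?_
    have := (h r hr).2.2
    unfold Pq Kf at this
    rw [div_eq_iff L2, hn]
    push_cast at this ⊢
    linear_combination this
  have d0 : ∀ r, M + d < r → HasDerivAt g (g1 r) r := fun r hr => by
    refine ((((hd_Dec M a r).mul (h r hr).1).add ((((((hd_ofReal r).const_mul 2).sub_const
      _).add_const _).mul (d1 r hr)))).div_const _).congr_deriv ?_
    have : (L - 2) * g1 r = De M a r * f1 r + (4 * r - 4 * M + 2 * I * n) * f r :=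
      mul_div_cancel₀ _ L2
    rw [div_eq_iff L0]
    linear_combination -this
  have tr : Tendsto (fun r : ℝ => (r : ℂ)) (𝓝[>] (M + d)) (𝓝 ((M + d : ℝ) : ℂ)) :=
    (hd_ofReal _).continuousAt.tendsto.mono_left nhdsWithin_le_nhds
  have s1 : Tendsto g1 (𝓝[>] (M + d)) (𝓝 _) := (((t_De ha).mul t1).add
    ((((tr.const_mul 4).sub_const _).add_const _).mul t0)).div_const _
  have s0 : Tendsto g (𝓝[>] (M + d)) (𝓝 _) := (((t_De ha).mul t0).add
    ((((tr.const_mul 2).sub_const _).add_const _).mul s1)).div_const _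
  have ev := (eventually_gt_atTop 0).filter_mono hF
  have bD : Bd F fun r => (De M a r : ℂ) / r ^ 2 := by
    refine (bdinv (G := fun x : ℝ => 1 - 2 * M * (x : ℂ) + a ^ 2 * x ^ 2) (by fun_prop)
      hF).congr ?_
    filter_upwards [ev] with r hr
    have r0 : (r : ℂ) ≠ 0 := by exact_mod_cast hr.ne'
    unfold De; push_cast; field_simp
  have j1 : Tendsto (fun r => g1 r / r) F (𝓝 0) := by
    refine (tz (((bD.zero i1).add ((bdinv (G := fun x : ℝ => 4 - (4 * M - 2 * I * n) * x)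
      (by fun_prop) hF).zero i0)).div_const ((L : ℂ) - 2)) (by simp)).congr' ?_
    filter_upwards [ev] with r hr
    have r0 : (r : ℂ) ≠ 0 := by exact_mod_cast hr.ne'
    simp only [hg1]; push_cast; field_simp; ring
  have key := stat (n := n) (g := g) (g1 := g1) hM hd ha hL (fun r hr => ⟨d0 r hr,
    ((hd_Dec M a r).mul (d1 r hr)).congr_deriv (by
      have : L * g r = De M a r * f r + (2 * r - 2 * M + 2 * I * n) * g1 r := mul_div_cancel₀ _ L0
      linear_combination -this)⟩) s0 (tz ((t_De ha).mul s1) (zero_mul _)) hF (by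
      refine (tz (((bD.zero i0).add ((bdinv (G := fun x : ℝ => 2 - (2 * M - 2 * I * n) * x)
        (by fun_prop) hF).zero j1)).div_const (L : ℂ)) (by simp)).congr' ?_
      filter_upwards [ev] with r hr
      have r0 : (r : ℂ) ≠ 0 := by exact_mod_cast hr.ne'
      simp only [hg]; push_cast; field_simp; ring)
  have k1 : ∀ r, M + d < r → g1 r = 0 := fun r hr =>
    (d0 r hr).unique ((hasDerivAt_const r 0).congr_of_eventuallyEq (by
      filter_upwards [Ioi_mem_nhds hr] with x hx using key x hx))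
  exact fun r hr => (d1 r hr).unique ((hasDerivAt_const r 0).congr_of_eventuallyEq (by
    filter_upwards [Ioi_mem_nhds hr] with x hx using k1 x hx))

theorem zminus' (hM : 0 < M) (hd : 0 < d) (ha : a ^ 2 = M ^ 2 - d ^ 2) (hL : 6 ≤ L)
    (h : ∀ r, M + d < r → HasDerivAt f (f1 r) r ∧ HasDerivAt f1 (f2 r) r ∧
      Pq (-2) M a 0 m L r (f r) (f1 r) (f2 r) = 0) {a0 a1 : ℂ}
    (t0 : Tendsto f (𝓝[>] (M + d)) (𝓝 a0)) (t1 : Tendsto f1 (𝓝[>] (M + d)) (𝓝 a1))
    {c0 c1 c2 : ℝ → ℂ} (hc : ∀ r, M + d < r → c0 r = (De M a r : ℂ) ^ 2 * f r / r ^ 3 ∧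
      HasDerivAt c0 (c1 r / r ^ 2 + 2 * I * Kf a 0 m r / De M a r * c0 r) r ∧
      HasDerivAt c1 (c2 r / r ^ 2 + 2 * I * Kf a 0 m r / De M a r * c1 r) r)
    {F : Filter ℝ} [F.NeBot] (hF : F ≤ atTop)
    (i1 : Tendsto (fun r => c1 r / (r : ℂ) ^ 2) F (𝓝 0))
    (i2 : Tendsto (fun r => c2 r / (r : ℂ) ^ 2) F (𝓝 0)) : ∀ r, M + d < r → f r = 0 := by
  obtain ⟨n, hn⟩ : ∃ n : ℂ, n = a * m := ⟨_, rfl⟩
  have hK : ∀ r, Kf a 0 m r = -n := fun r => by simp [Kf, hn]
  simp only [hK] at hc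
  have D0 : ∀ r, M + d < r → (De M a r : ℂ) ≠ 0 := fun r hr => by
    exact_mod_cast (De_pos hd ha hr).ne'
  have r0 : ∀ r, M + d < r → (r : ℂ) ≠ 0 := fun r hr => by
    exact_mod_cast (by linarith : r ≠ 0)
  have e1 : ∀ r, M + d < r → c1 r = De M a r * (r * De M a r * f1 r +
      ((4 * r - 4 * M + 2 * I * n) * r - 3 * De M a r) * f r) / r ^ 2 := by
    intro r hr
    have := D0 r hr
    have := r0 r hr
    have u := (hc r hr).2.1.unique ((((((hd_Dec M a r).pow 2).mul (h r hr).1).div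
      ((hd_ofReal r).pow 3) (pow_ne_zero 3 this))).congr_of_eventuallyEq (by
      filter_upwards [Ioi_mem_nhds hr] with x hx using (hc x hx).1))
    rw [(hc r hr).1] at u
    simp only [Pi.mul_apply, Pi.pow_apply] at u
    push_cast at u
    field_simp at u ⊢
    linear_combination u
  have e2 : ∀ r, M + d < r → c0 r * ((L - 2) * r ^ 3 + (6 * M + 6 * I * n) * r ^ 2 - 6 * a ^ 2 * r)
      = De M a r * c2 r / r + c1 r * (4 * De M a r - 2 * I * n * r - r * (2 * r - 2 * M)) := by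
    intro r hr
    have := D0 r hr
    have := r0 r hr
    have dr := hd_ofReal r
    have dD := hd_Dec M a r
    have u := (hc r hr).2.2.unique (((dD.mul (((dr.mul dD).mul (h r hr).2.1).add
      (((((((dr.const_mul 4).sub_const (4 * (M : ℂ))).add_const (2 * I * n)).mul dr).sub
        (dD.const_mul 3))).mul (h r hr).1))).div (dr.pow 2)
        (pow_ne_zero 2 this)).congr_of_eventuallyEq (by
      filter_upwards [Ioi_mem_nhds hr] with x hx using e1 x hx))
    have p := (h r hr).2.2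
    unfold Pq at p
    rw [hK] at p
    have hD : (De M a r : ℂ) = r ^ 2 - 2 * M * r + a ^ 2 := by unfold De; push_cast; ring
    have c2e : c2 r = r ^ 2 * (c2 r / r ^ 2) := by field_simp
    rw [c2e, eq_sub_of_add_eq u, e1 r hr, (hc r hr).1]
    simp only [Pi.mul_apply, Pi.pow_apply, Pi.add_apply, Pi.sub_apply]
    have a2 : (a : ℂ) ^ 2 = De M a r - r ^ 2 + 2 * M * r := by rw [hD]; ring
    rw [a2]
    generalize (De M a r : ℂ) = D at *
    push_cast at p ⊢
    field_simp
    linear_combination (-(D * r ^ 2)) * p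
  have ev := (eventually_gt_atTop (M + d)).filter_mono hF
  have L2 : (L : ℂ) - 2 ≠ 0 := by exact_mod_cast (by linarith : L - 2 ≠ 0)
  have cG : ContinuousAt (fun x : ℝ => (L : ℂ) - 2 + (6 * M + 6 * I * n) * x - 6 * a ^ 2 * x ^ 2)
      0 := by fun_prop
  have j0 : Tendsto (fun r => c0 r / r) F (𝓝 0) := by
    refine ((bdinv (cG.inv₀ (by simpa using L2)) hF).zero (tz (((bdinv
      (G := fun x : ℝ => (1 - 2 * M * (x : ℂ) + a ^ 2 * x ^ 2) * x) (by fun_prop) hF).zero i2).add
      ((bdinv (G := fun x : ℝ => 2 - (6 * M + 2 * I * n) * (x : ℂ) + 4 * a ^ 2 * x ^ 2)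
        (by fun_prop) hF).zero i1)) (by simp))).congr' ?_
    filter_upwards [ev, ((cG.tendsto.comp tendsto_inv_atTop_zero).mono_left hF).eventually_ne
      (show _ ≠ (0 : ℂ) by simpa using L2)] with r hr hne
    have := r0 r hr
    have e := e2 r hr
    simp only [Function.comp, Pi.inv_apply] at hne ⊢
    rw [mul_inv_eq_iff_eq_mul₀ hne]
    unfold De at e
    push_cast at e ⊢
    field_simp at e ⊢
    linear_combination -e
  have b2 := (bd_De M a hF).mul (bd_De M a hF)
  have i0 : Tendsto f F (𝓝 0) := by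
    refine (b2.zero j0).congr' ?_
    filter_upwards [ev] with r hr
    have := D0 r hr
    have := r0 r hr
    rw [(hc r hr).1]
    field_simp
  refine zminus hM hd ha hL h t0 t1 hF i0 ?_
  refine (tz (((b2.zero i1).sub (((bd_De M a hF).mul (bdinv
    (G := fun x : ℝ => 4 - (4 * M - 2 * I * n) * (x : ℂ)) (by fun_prop) hF)).zero i0)).add
    (i0.mul_const 3)) (by simp)).congr' ?_
  filter_upwards [ev] with r hr
  have := D0 r hr
  have := r0 r hr
  rw [e1 r hr]
  push_cast
  field_simp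
  ring

end

end P354MS
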